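import Vale.Agent.P361.LRO.S3S.Iface
import Vale.Agent.P361.LRO.GenS.Boot
import Vale.Agent.P361.LRO.GenS.Trans
import Vale.Agent.P361.LRO.LYReg

/-!
P361, STAGE 3 for all spins, block (B): the bootstrap at Bloch's order `β ^ (-3/2)` for the graph
`edgesS n s M` (the version with copies of `S3/BootB.lean` of helper678).
-/

namespace Vale.Agent.P361.LRO.S3S

open Finset Matrix Filter Topology Vale.Agent.P361.LRO.GenS Vale.Agent.P361.LRO.S3

noncomputable section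

namespace BootS

/-! ### The scales -/

/-- the scale exponent: `√β ≤ 3 ^ a ≤ 3 √β` -/
def aC (β : ℝ) : ℕ := Nat.clog 3 ⌈Real.sqrt β⌉₊

/-- the side of the blocks -/
def wC (β : ℝ) : ℕ := 3 ^ aC β

/-- the number of the blocks: `β ^ 3 ≤ w m ≤ 2 β ^ 3` -/
def mC (β : ℝ) : ℕ := ⌈β ^ (3 : ℝ) / wC β⌉₊

theorem wC_ge (β : ℝ) : Real.sqrt β ≤ wC β := by
  refine (Nat.le_ceil _).trans ?_
  exact_mod_cast Nat.le_pow_clog (by norm_num) _

theorem wC_le {β : ℝ} (hβ : 1 < β) : (wC β : ℝ) ≤ 3 * Real.sqrt β := by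
  have h1 : 1 < Real.sqrt β := by
    rw [Real.lt_sqrt (by norm_num)]
    linarith
  have h2 : 1 < ⌈Real.sqrt β⌉₊ := by
    rw [Nat.lt_ceil]
    exact_mod_cast h1
  have h3 := Nat.pow_pred_clog_lt_self (b := 3) (by norm_num) h2
  have h4 : ((3 ^ (Nat.clog 3 ⌈Real.sqrt β⌉₊).pred : ℕ) : ℝ) < Real.sqrt β := by
    rwa [← Nat.lt_ceil]
  have h5 : 0 < Nat.clog 3 ⌈Real.sqrt β⌉₊ := Nat.clog_pos (by norm_num) h2
  unfold wC aC
  obtain ⟨k, hk⟩ := Nat.exists_eq_succ_of_ne_zero h5.ne'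
  rw [hk] at h4 ⊢
  rw [Nat.pred_succ] at h4
  push_cast at h4 ⊢
  rw [pow_succ]
  linarith

theorem wC_pos (β : ℝ) : 0 < wC β := by unfold wC; positivity

theorem sqrt_le_self {β : ℝ} (hβ : 9 ≤ β) : 3 * Real.sqrt β ≤ β := by
  have h1 : (3 : ℝ) ≤ Real.sqrt β := by
    rw [Real.le_sqrt' (by norm_num)]
    linarith
  have h2 := Real.mul_self_sqrt (show (0 : ℝ) ≤ β by linarith)
  nlinarith

theorem two_le_wC {β : ℝ} (hβ : 9 ≤ β) : 2 ≤ wC β := by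
  have h1 : (3 : ℝ) ≤ Real.sqrt β := by
    rw [Real.le_sqrt' (by norm_num)]
    linarith
  have h2 : (3 : ℝ) ≤ wC β := h1.trans (wC_ge β)
  have h3 : 3 ≤ wC β := by exact_mod_cast h2
  omega

theorem wC_le34 {β : ℝ} (hβ : 81 ≤ β) : (wC β : ℝ) ≤ β ^ (3 / 4 : ℝ) := by
  have hβ0 : 0 < β := by linarith
  refine (wC_le (by linarith)).trans ?_
  have h1 : (3 : ℝ) ≤ β ^ (1 / 4 : ℝ) := by
    have h2 : (81 : ℝ) ^ (1 / 4 : ℝ) = 3 := by
      rw [show (81 : ℝ) = (3 : ℝ) ^ (4 : ℝ) by norm_num, ← Real.rpow_mul (by norm_num)]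
      norm_num
    rw [← h2]
    exact Real.rpow_le_rpow (by norm_num) hβ (by norm_num)
  have h3 : β ^ (3 / 4 : ℝ) = β ^ (1 / 4 : ℝ) * β ^ (1 / 2 : ℝ) := by
    rw [← Real.rpow_add hβ0]
    norm_num
  rw [h3, Real.sqrt_eq_rpow]
  exact mul_le_mul_of_nonneg_right h1 (Real.rpow_pos_of_pos hβ0 _).le

theorem mC_spec {β : ℝ} (hβ : 9 ≤ β) : 1 ≤ mC β ∧ β ^ (3 : ℝ) ≤ (wC β : ℝ) * mC β ∧
    (wC β : ℝ) * mC β ≤ 2 * β ^ (3 : ℝ) := by
  have hw : (0 : ℝ) < wC β := by exact_mod_cast wC_pos β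
  have hβ0 : 0 < β := by linarith
  have hβ3 : 0 < β ^ (3 : ℝ) := Real.rpow_pos_of_pos hβ0 _
  have h1 : β ^ (3 : ℝ) / wC β ≤ mC β := Nat.le_ceil _
  have h2 : (mC β : ℝ) < β ^ (3 : ℝ) / wC β + 1 := Nat.ceil_lt_add_one (by positivity)
  have h3 : 0 < mC β := by
    have : (0 : ℝ) < mC β := lt_of_lt_of_le (by positivity) h1
    exact_mod_cast this
  have h4 : (wC β : ℝ) ≤ β := (wC_le (by linarith)).trans (sqrt_le_self hβ)
  have h5 : β ≤ β ^ (3 : ℝ) := by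
    have := Real.rpow_le_rpow_of_exponent_le (show (1 : ℝ) ≤ β by linarith)
      (show (1 : ℝ) ≤ 3 by norm_num)
    rwa [Real.rpow_one] at this
  refine ⟨h3, ?_, ?_⟩
  · rw [div_le_iff₀ hw] at h1
    linarith
  · have h6 := mul_le_mul_of_nonneg_left h2.le hw.le
    have h7 : (wC β : ℝ) * (β ^ (3 : ℝ) / wC β + 1) = β ^ (3 : ℝ) + wC β := by
      field_simp
    linarith

/-! ### Cubes -/

/-- From a bound for the average of the block averages to a good point. -/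
theorem good_pointS {n s : ℕ} [NeZero n] {w m : ℕ} (hs : 0 < s) (hw : 0 < w) (hm : 0 < m)
    (hwn : w ≤ n) (x : Tor n) (f : Tor n × Fin s → ℝ) (t : ℝ)
    (h : ∑ y : Fin 3 → Fin m,
      (∑ z ∈ cubeS n s (x + fun i => ((w * (y i : ℕ) : ℕ) : ZMod n)) w, f z) /
      (cubeS n s (x + fun i => ((w * (y i : ℕ) : ℕ) : ZMod n)) w).card ≤ (m : ℝ) ^ 3 * t) :
    ∃ (k : Fin 3 → ℕ) (j : Fin s), (∀ i, k i ≤ w * m) ∧
      f (x + fun i => (k i : ZMod n), j) ≤ t := by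
  set bl : (Fin 3 → Fin m) → Finset (Tor n × Fin s) := fun y =>
    cubeS n s (x + fun i => ((w * (y i : ℕ) : ℕ) : ZMod n)) w with hbl
  obtain ⟨y, z, hz, hρz⟩ : ∃ y, ∃ z ∈ bl y, f z ≤ t := by
    by_contra hcon
    push Not at hcon
    have hcp' : ∀ y, 0 < (bl y).card := by
      intro y
      rw [hbl]
      dsimp only
      rw [card_cubeS hwn]
      positivity
    have hcp : ∀ y, (0 : ℝ) < (bl y).card := fun y => by exact_mod_cast hcp' y
    have h2 : ∀ y, t < (∑ z ∈ bl y, f z) / (bl y).card := by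
      intro y
      rw [lt_div_iff₀ (hcp y)]
      have h3 : ∑ z ∈ bl y, t < ∑ z ∈ bl y, f z :=
        Finset.sum_lt_sum_of_nonempty (Finset.card_pos.1 (hcp' y)) fun z hz => hcon y z hz
      rw [Finset.sum_const, nsmul_eq_mul] at h3
      linarith
    have : Nonempty (Fin m) := ⟨⟨0, hm⟩⟩
    have h3 : ∑ y : Fin 3 → Fin m, t < ∑ y, (∑ z ∈ bl y, f z) / (bl y).card :=
      Finset.sum_lt_sum_of_nonempty Finset.univ_nonempty fun y _ => h2 y
    rw [Finset.sum_const, Finset.card_univ, Fintype.card_fun, Fintype.card_fin, Fintype.card_fin,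
      nsmul_eq_mul] at h3
    push_cast at h3
    linarith
  obtain ⟨z1, j⟩ := z
  have hz' := hz
  rw [hbl] at hz'
  unfold cubeS cube at hz'
  dsimp only at hz'
  rw [Finset.mem_product, Finset.mem_image] at hz'
  obtain ⟨a, -, ha⟩ := hz'.1
  refine ⟨fun i => w * (y i : ℕ) + (a i : ℕ), j, fun i => ?_, ?_⟩
  · have h2 : (y i : ℕ) + 1 ≤ m := (y i).2
    have h3 := Nat.mul_le_mul_left w h2
    have h4 : (a i : ℕ) < w := (a i).2
    rw [mul_add, mul_one] at h3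
    exact (Nat.add_le_add_left h4.le _).trans h3
  · have h5 : (x + fun i => ((w * (y i : ℕ) + (a i : ℕ) : ℕ) : ZMod n)) = z1 := by
      have ha' : (x + fun i => ((w * (y i : ℕ) : ℕ) : ZMod n)) + (fun i => ((a i : ℕ) : ZMod n)) =
          z1 := ha
      rw [← ha', add_assoc]
      congr 1
      funext i
      simp only [Pi.add_apply]
      push_cast
      ring
    rw [h5]
    exact hρz

theorem avg_le {m : ℕ} (hm : 0 < m) (F G : (Fin 3 → Fin m) → ℝ) {A B E : ℝ} (hA : 0 ≤ A)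
    (hF : ∀ y, F y ≤ A * G y + B) (hG : (∑ y, G y) / (m : ℝ) ^ 3 ≤ E) :
    ∑ y, F y ≤ (m : ℝ) ^ 3 * (A * E + B) := by
  have hm' : (0 : ℝ) < (m : ℝ) ^ 3 := by positivity
  refine (Finset.sum_le_sum fun y _ => hF y).trans ?_
  rw [Finset.sum_add_distrib, ← Finset.mul_sum, Finset.sum_const, Finset.card_univ,
    Fintype.card_fun, Fintype.card_fin, Fintype.card_fin, nsmul_eq_mul]
  push_cast
  rw [div_le_iff₀ hm'] at hG
  have h5 := mul_le_mul_of_nonneg_left hG hA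
  linarith

/-! ### Harnack -/

theorem num_d {β C7 : ℝ} (hC7 : 0 < C7) (hβ9 : 9 ≤ β) (hb3 : 1134 / C7 ≤ β ^ (3 / 2 : ℝ)) {l : ℕ}
    (hl : (l : ℝ) ≤ 2 * β ^ (3 : ℝ)) :
    0 ≤ 3 * l * β ^ (-(9 / 2) : ℝ) ∧ 3 * (3 * l * β ^ (-(9 / 2) : ℝ)) < Real.pi / 2 ∧
      9 / 2 * (3 * l * β ^ (-(9 / 2) : ℝ)) ^ 2 ≤ C7 * β ^ (-(3 / 2) : ℝ) / 7 := by
  have hβ : 0 < β := by linarith
  have hp : ∀ a : ℝ, 0 < β ^ a := fun a => Real.rpow_pos_of_pos hβ a
  have hmul : ∀ a b : ℝ, β ^ a * β ^ b = β ^ (a + b) := fun a b => (Real.rpow_add hβ a b).symm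
  set d : ℝ := 3 * l * β ^ (-(9 / 2) : ℝ) with hd
  have hd0 : 0 ≤ d := by
    have := hp (-(9 / 2))
    rw [hd]
    positivity
  have hd6 : d ≤ 6 * (β ^ (3 / 2 : ℝ))⁻¹ := by
    have h1 : 3 * (l : ℝ) * β ^ (-(9 / 2) : ℝ) ≤ 3 * (2 * β ^ (3 : ℝ)) * β ^ (-(9 / 2) : ℝ) :=
      mul_le_mul_of_nonneg_right (by linarith) (hp _).le
    refine h1.trans (le_of_eq ?_)
    have h2 : β ^ (3 : ℝ) * β ^ (-(9 / 2) : ℝ) = (β ^ (3 / 2 : ℝ))⁻¹ := by
      rw [hmul, ← Real.rpow_neg hβ.le]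
      norm_num
    rw [← h2]
    ring
  have hβ2 : (27 : ℝ) ≤ β ^ (3 / 2 : ℝ) := by
    have h1 : (9 : ℝ) ^ (3 / 2 : ℝ) ≤ β ^ (3 / 2 : ℝ) :=
      Real.rpow_le_rpow (by norm_num) hβ9 (by norm_num)
    have h2 : (9 : ℝ) ^ (3 / 2 : ℝ) = 27 := by
      rw [show (9 : ℝ) = (3 : ℝ) ^ (2 : ℝ) by norm_num, ← Real.rpow_mul (by norm_num)]
      norm_num
    rwa [h2] at h1
  refine ⟨hd0, ?_, ?_⟩
  · have h1 : (β ^ (3 / 2 : ℝ))⁻¹ ≤ (27 : ℝ)⁻¹ := inv_anti₀ (by norm_num) hβ2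
    have h2 := Real.pi_gt_three
    have h3 : (27 : ℝ)⁻¹ ≤ 1 / 27 := by norm_num
    linarith
  · have h1 : d ^ 2 ≤ (6 * (β ^ (3 / 2 : ℝ))⁻¹) ^ 2 := pow_le_pow_left₀ hd0 hd6 2
    have h3 : β ^ (-(3 / 2) : ℝ) = (β ^ (3 / 2 : ℝ))⁻¹ := Real.rpow_neg hβ.le _
    have h2 : (6 * (β ^ (3 / 2 : ℝ))⁻¹) ^ 2 = 36 * (β ^ (-(3 / 2) : ℝ) * β ^ (-(3 / 2) : ℝ)) := by
      rw [h3]
      ring
    rw [h2] at h1
    have h4 : 162 * β ^ (-(3 / 2) : ℝ) ≤ C7 / 7 := by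
      rw [div_le_iff₀ hC7] at hb3
      rw [h3, ← div_eq_mul_inv, div_le_div_iff₀ (hp _) (by norm_num)]
      linarith
    have h5 := mul_le_mul_of_nonneg_right h4 (hp (-(3 / 2))).le
    calc 9 / 2 * d ^ 2 ≤ 9 / 2 * (36 * (β ^ (-(3 / 2) : ℝ) * β ^ (-(3 / 2) : ℝ))) := by linarith
      _ = 162 * β ^ (-(3 / 2) : ℝ) * β ^ (-(3 / 2) : ℝ) := by ring
      _ ≤ C7 / 7 * β ^ (-(3 / 2) : ℝ) := h5
      _ = _ := by ring

/-- Transport of the density by Harnack's inequality. -/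
theorem transport {n s : ℕ} [NeZero n] (hs : 1 ≤ s) (M : ℕ) {β g0 lam η : ℝ}
    (hβ : 0 < β) (h0p : 0 < g0) (hlam : 0 ≤ lam) (hη0 : 0 < η) (hη1 : η ≤ 1)
    {g : Tor n → ℝ} (hg : Fam n g0 lam g) {l : ℕ} {k : Fin 3 → ℕ} (hk : ∀ i, k i ≤ l)
    (hd0 : 0 ≤ 3 * l * lam) (hd2 : 3 * (3 * l * lam) < Real.pi / 2)
    (hd9 : 9 / 2 * (3 * l * lam) ^ 2 ≤ η / 7) (x : Tor n) (i j : Fin s)
    (hz : rho (edgesS n s M) β (hS fun y => g y / (s * β)) (x + fun i => (k i : ZMod n), j) ≤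
      η / 16) :
    rho (edgesS n s M) β (hS fun y => g y / (s * β)) (x, i) ≤ η / 2 := by
  have hsβ : (0 : ℝ) < s * β := by
    have : (1 : ℝ) ≤ s := by exact_mod_cast hs
    positivity
  have hpos : ∀ y, 0 < g y := fun y => h0p.trans_le (hg.1 y).1
  have hpos' : ∀ y, 0 < g y / (s * β) := fun y => div_pos (hpos y) hsβ
  set v : Tor n := fun i => (k i : ZMod n) with hv
  set h : Tor n → ℝ := fun y => g y / (s * β) with hh
  have hlog : ∀ u, |Real.log (h (u + v)) - Real.log (h u)| ≤ 3 * l * lam := by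
    intro u
    have h1 := fam_log_vec hg h0p l k hk hlam u
    rw [hh]
    dsimp only
    rw [Real.log_div (hpos _).ne' hsβ.ne', Real.log_div (hpos _).ne' hsβ.ne',
      sub_sub_sub_cancel_right]
    exact h1
  obtain ⟨hM, hH⟩ := reg (Tor n × Fin s) (edgesS n s M) β (hS fun y => h (y + v)) (hS h)
    (3 * l * lam) hβ (fun u => hpos' _) (fun u => hpos' _) hd0 hd2 (fun u => hlog u.1) (x, i)
  have hM' := (reg (Tor n × Fin s) (edgesS n s M) β (hS h) (hS h) 0 hβ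
    (fun u => hpos' _) (fun u => hpos' _) le_rfl (by rw [mul_zero]; positivity)
    (fun u => by rw [sub_self, abs_zero]) (x, i)).1
  have hT := transStmtS s n M β h x v i j
  rw [hT] at hM hH
  have h10 : 1 / (1 - 2 * rho (edgesS n s M) β (hS h) (x + v, j)) ≤ 1 + η / 7 := by
    rw [div_le_iff₀ hM]
    nlinarith
  have h11 : 1 / (1 - 2 * rho (edgesS n s M) β (hS h) (x, i)) ≤ 1 + 3 * (η / 7) := by linarith
  rw [div_le_iff₀ hM'] at h11
  by_contra hcon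
  push Not at hcon
  nlinarith

/-! ### The step -/

theorem step3S (s : ℕ) (hs : 1 ≤ s) (hK : KappaStmt3S s) (hD : DirStmt3) (hE : EnergyStmt3S s)
    (CS : ℝ) : ∃ C7 : ℝ, 0 < C7 ∧ CS ≤ C7 ∧ ∀ᶠ β : ℝ in atTop,
      ∀ᶠ n : ℕ in atTop, Odd n → ∀ [NeZero n], ∃ M0 : ℕ, ∀ M : ℕ, M0 ≤ M →
        ∀ g0 : ℝ, (n : ℝ) ^ (-(1 / 4) : ℝ) ≤ g0 →
        g0 ≤ 1 → BH3S n s M β (C7 * β ^ (-(3 / 2) : ℝ)) g0 →
        BH3S n s M β (C7 * β ^ (-(3 / 2) : ℝ) / 2) g0 := by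
  obtain ⟨CD, hCD, hD⟩ := hD
  obtain ⟨c2, c3, hc2, hc3, hK⟩ := hK
  obtain ⟨CE, βE, hE⟩ := hE
  have hsR : (1 : ℝ) ≤ s := by exact_mod_cast hs
  have hCE' : CE ≤ max CE 1 := le_max_left _ _
  have hCE1 : 1 ≤ max CE 1 := le_max_right _ _
  set CE' := max CE 1 with hCE'def
  set B0 : ℝ := CD * (1 + 1 / c3) * CE' + CD / (c3 * c2) with hB0
  have hB0p : 0 < B0 := by positivity
  set C7 : ℝ := max CS (16 * B0) with hC7def
  have hC7 : 0 < C7 := lt_max_of_lt_right (by positivity)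
  have hC7B : 16 * B0 ≤ C7 := le_max_right _ _
  refine ⟨C7, hC7, le_max_left _ _, ?_⟩
  obtain ⟨β1, hK⟩ := hK C7 c2 hC7 hc2
  have hlim : ∀ (a : ℝ), 0 < a → ∀ B : ℝ, ∀ᶠ β : ℝ in atTop, B ≤ β ^ a := fun a ha B =>
    (tendsto_rpow_atTop ha).eventually_ge_atTop B
  filter_upwards [eventually_ge_atTop β1, eventually_ge_atTop βE, eventually_ge_atTop (81 : ℝ),
    hlim (3 / 2) (by norm_num) C7, hlim (3 / 2) (by norm_num) (1 / c2),
    hlim (3 / 2) (by norm_num) (1134 / C7)] with β hβ1 hβE hβ81 hb1 hb2 hb3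
  have hβ9 : 9 ≤ β := by linarith
  have hβ : 0 < β := by linarith
  have hsβ : (0 : ℝ) < s * β := by positivity
  obtain ⟨n1, hK⟩ := hK β hβ1
  obtain ⟨n2, hE⟩ := hE β hβE
  obtain ⟨hm1, hl1, hl2⟩ := mC_spec hβ9
  have hw0 := wC_pos β
  have hw2 := two_le_wC hβ9
  have hwge := wC_ge β
  have hwle := wC_le (show 1 < β by linarith)
  have hwβ := wC_le34 hβ81
  have hp : ∀ a : ℝ, 0 < β ^ a := fun a => Real.rpow_pos_of_pos hβ a
  have hmul : ∀ a b : ℝ, β ^ a * β ^ b = β ^ (a + b) := fun a b => (Real.rpow_add hβ a b).symm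
  have hinv : β ^ (-(3 / 2) : ℝ) = (β ^ (3 / 2 : ℝ))⁻¹ := Real.rpow_neg hβ.le _
  set η : ℝ := C7 * β ^ (-(3 / 2) : ℝ) with hη
  have hη0 : 0 < η := mul_pos hC7 (hp _)
  have hη1 : η ≤ 1 := by
    rw [hη, hinv, ← div_eq_mul_inv, div_le_one (hp _)]
    exact hb1
  filter_upwards [eventually_ge_atTop n1, eventually_ge_atTop n2, eventually_ge_atTop 3,
    eventually_ge_atTop (wC β * mC β)] with n hn1 hn2 hn3 hnw
  intro hodd _
  obtain ⟨M0, hE⟩ := hE n hn2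
  refine ⟨M0, fun M hM g0 hg0 hg01 hB g hg z => ?_⟩
  obtain ⟨x, i⟩ := z
  have hwn : wC β ≤ n := le_trans (Nat.le_mul_of_pos_right _ hm1) hnw
  have hn0 : (0 : ℝ) < n := by
    have : (3 : ℝ) ≤ n := by exact_mod_cast hn3
    linarith
  have h0p : 0 < g0 := (Real.rpow_pos_of_pos hn0 _).trans_le hg0
  have hpos : ∀ y, 0 < g y := fun y => h0p.trans_le (hg.1 y).1
  have hpos' : ∀ y, 0 < g y / (s * β) := fun y => div_pos (hpos y) hsβ
  -- the parameter `K`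
  set K : ℝ := c2 * β ^ (3 / 2 : ℝ) with hKdef
  have hK1 : 1 ≤ K := by
    rw [div_le_iff₀ hc2] at hb2
    rw [hKdef]
    linarith
  have h3a : ((wC β : ℕ) : ℝ) = (3 : ℝ) ^ aC β := by
    unfold wC
    push_cast
    rfl
  have hKw : K ≤ c2 * β * 3 ^ aC β := by
    have h1 : β ^ (3 / 2 : ℝ) = β * Real.sqrt β := by
      rw [Real.sqrt_eq_rpow]
      conv_rhs =>
        lhs
        rw [← Real.rpow_one β]
      rw [hmul]
      norm_num
    rw [hKdef, h1, ← h3a, mul_assoc]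
    exact mul_le_mul_of_nonneg_left (mul_le_mul_of_nonneg_left hwge hβ.le) hc2.le
  have htw : ∀ z : Tor n, (∑ u ∈ cubeS n s z (wC β),
      rho (edgesS n s M) β (hS fun y => g y / (s * β)) u) / (cubeS n s z (wC β)).card ≤
      CD * (1 + 1 / c3) *
        yb (edgesS n s M) β (hS fun y => g y / (s * β)) (cubeS n s z (wC β)) +
        CD / (c3 * c2) * β ^ (-(3 / 2) : ℝ) := by
    intro z
    have h2 := hD (Tor n × Fin s) (edgesS n s M) β (hS fun y => g y / (s * β)) K (c3 * K)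
      (cubeS n s z (wC β)) hβ
      (fun y => (hpos' _).le) hK1 (by positivity)
      (by
        rw [← Finset.card_pos, card_cubeS hwn]
        positivity)
      (hK n hn1 hodd M (aC β) (h3a ▸ hwge) (h3a ▸ hwβ) K hK1 le_rfl hKw g0 hg0 hg01 hB g hg z)
    have h3 : K / (c3 * K) = 1 / c3 := by
      have : 0 < K := by linarith
      field_simp
    have h4 : CD / (c3 * K) = CD / (c3 * c2) * β ^ (-(3 / 2) : ℝ) := by
      rw [hinv, hKdef]
      have := hp (3 / 2)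
      field_simp
    rw [h3, h4] at h2
    exact h2
  -- the average
  have hm' : (0 : ℝ) < (mC β : ℝ) ^ 3 := by
    have : 0 < mC β := hm1
    positivity
  have hsum : ∑ y : Fin 3 → Fin (mC β),
      (∑ z ∈ cubeS n s (x + fun i => ((wC β * (y i : ℕ) : ℕ) : ZMod n)) (wC β),
        rho (edgesS n s M) β (hS fun y => g y / (s * β)) z) /
      (cubeS n s (x + fun i => ((wC β * (y i : ℕ) : ℕ) : ZMod n)) (wC β)).card ≤
      (mC β : ℝ) ^ 3 * (η / 16) := by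
    have h2 := hE M hM g (fun y => ⟨hpos y, (hg.1 y).2⟩) x (wC β) (mC β) (by omega) hwle hl1 hl2
    have h4 : 0 ≤ CD * (1 + 1 / c3) := by positivity
    refine (avg_le hm1 _ _ h4 (fun y => htw _) h2).trans ?_
    refine mul_le_mul_of_nonneg_left ?_ hm'.le
    have h3 : CD * (1 + 1 / c3) * (CE * β ^ (-(3 / 2) : ℝ)) ≤
        CD * (1 + 1 / c3) * (CE' * β ^ (-(3 / 2) : ℝ)) :=
      mul_le_mul_of_nonneg_left (mul_le_mul_of_nonneg_right hCE' (hp _).le) h4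
    have h6 : B0 * β ^ (-(3 / 2) : ℝ) ≤ η / 16 := by
      rw [hη]
      have := mul_le_mul_of_nonneg_right hC7B (hp (-(3 / 2))).le
      linarith
    have h7 : CD * (1 + 1 / c3) * (CE' * β ^ (-(3 / 2) : ℝ)) +
        CD / (c3 * c2) * β ^ (-(3 / 2) : ℝ) = B0 * β ^ (-(3 / 2) : ℝ) := by
      rw [hB0]
      ring
    linarith
  obtain ⟨k, j, hk, hz⟩ := good_pointS hs hw0 hm1 hwn x _ _ hsum
  obtain ⟨hd0, hd2, hd9⟩ := num_d hC7 hβ9 hb3 (l := wC β * mC β) (by push_cast; exact hl2)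
  exact transport hs M hβ h0p (hp _).le hη0 hη1 hg hk hd0 hd2 hd9 x i j hz

/-- The continuity argument for the capped family. -/
theorem bootS3 {n s : ℕ} [NeZero n] (M : ℕ) {β η lam a : ℝ} (hη : 0 < η) (hlam : 0 ≤ lam)
    (ha0 : 0 < a) (ha1 : a ≤ 1)
    (h1 : ∀ z, rho (edgesS n s M) β (hS fun _ => 1 / (s * β)) z ≤ η)
    (hstep : ∀ h0, a ≤ h0 → h0 ≤ 1 →
      (∀ g : Tor n → ℝ, Fam n h0 lam g →
        ∀ z, rho (edgesS n s M) β (hS fun y => g y / (s * β)) z ≤ η) →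
      ∀ g : Tor n → ℝ, Fam n h0 lam g →
        ∀ z, rho (edgesS n s M) β (hS fun y => g y / (s * β)) z ≤ η / 2) :
    ∀ g : Tor n → ℝ, Fam n a lam g →
      ∀ z, rho (edgesS n s M) β (hS fun y => g y / (s * β)) z ≤ η / 2 := by
  rcases Nat.eq_zero_or_pos s with rfl | hs
  · rintro g hg ⟨x, i⟩
    exact i.elim0
  have hexp : 1 ≤ Real.exp lam := Real.one_le_exp hlam
  have hcont : ∀ i : Fin s, ∀ x : Tor n, Continuous fun h : Tor n → ℝ =>
      rho (edgesS n s M) β (hS fun y => h y / (s * β)) (x, i) := by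
    intro i x
    exact (continuous_rho (edgesS n s M) β (x, i)).comp
      (continuous_pi fun z => (continuous_apply (A := fun _ : Tor n => ℝ) z.1).div_const _)
  have key := bootstrap_abs (V := Tor n)
    (fun h x => (univ : Finset (Fin s)).sup' ⟨⟨0, hs⟩, mem_univ _⟩
      fun i => rho (edgesS n s M) β (hS fun y => h y / (s * β)) (x, i))
    (fun x => Continuous.finset_sup'_apply _ fun i _ => hcont i x)
    (fun h => ∀ (x : Tor n) (i : Fin 3), h x ≤ Real.exp lam * h (x + Pi.single i 1) ∧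
      h (x + Pi.single i 1) ≤ Real.exp lam * h x) ?_ ha0 hη
    (fun x => Finset.sup'_le _ _ fun i _ => h1 (x, i)) ?_ ha1
  · intro h hh z
    exact (Finset.le_sup' (fun i => rho (edgesS n s M) β (hS fun y => h y / (s * β)) (z.1, i))
      (mem_univ z.2)).trans (key h hh.1 hh.2 z.1)
  · intro h c hc hreg x i
    have hm : ∀ u v : ℝ, u ≤ Real.exp lam * v → max u c ≤ Real.exp lam * max v c := by
      intro u v huv
      refine max_le (huv.trans ?_) ?_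
      · exact mul_le_mul_of_nonneg_left (le_max_left _ _) (Real.exp_pos _).le
      · calc c ≤ Real.exp lam * c := by nlinarith
          _ ≤ _ := mul_le_mul_of_nonneg_left (le_max_right _ _) (Real.exp_pos _).le
    exact ⟨hm _ _ (hreg x i).1, hm _ _ (hreg x i).2⟩
  · intro h0 h2 h3 h4 h h5 h6 x
    refine Finset.sup'_le _ _ fun i _ => ?_
    refine hstep h0 h2 h3 (fun h' hh' z => ?_) h ⟨h5, h6⟩ (x, i)
    exact (Finset.le_sup' (fun i => rho (edgesS n s M) β (hS fun y => h' y / (s * β)) (z.1, i))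
      (mem_univ z.2)).trans (h4 h' hh'.1 hh'.2 z.1)

end BootS

/-! ### The bootstrap -/

/-- **Block (B) for spin `s / 2`**: the bootstrap at Bloch's order. -/
theorem bootStmt3S_of (s : ℕ) (hs : 1 ≤ s) (hK : KappaStmt3S s) (hD : DirStmt3)
    (hE : EnergyStmt3S s) (hS0 : StartStmt3S s) : BootStmt3S s := by
  obtain ⟨CS, βS, hS0⟩ := hS0
  obtain ⟨C7, hC7, hCS, hstep⟩ := BootS.step3S s hs hK hD hE CS
  obtain ⟨β0, H⟩ := eventually_atTop.1
    (hstep.and ((eventually_ge_atTop βS).and (eventually_ge_atTop (1 : ℝ))))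
  refine ⟨C7, β0, hC7, fun β hβ0 => ?_⟩
  obtain ⟨hst, hβS, hβ1⟩ := H β hβ0
  have hβ : 0 < β := by linarith
  obtain ⟨n1, Hn⟩ := eventually_atTop.1 hst
  obtain ⟨n2, hS0⟩ := hS0 β hβS
  refine ⟨max n1 n2, fun n _ hn hodd => ?_⟩
  have hn1 : n1 ≤ n := (le_max_left _ _).trans hn
  have hn2 : n2 ≤ n := (le_max_right _ _).trans hn
  obtain ⟨M1, Hn⟩ := Hn n hn1 hodd
  obtain ⟨M2, hS0⟩ := hS0 n hn2 hodd
  refine ⟨max M1 M2, fun M hM g0 hg0 hg01 g hg z => ?_⟩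
  have hM1 : M1 ≤ M := (le_max_left _ _).trans hM
  have hM2 : M2 ≤ M := (le_max_right _ _).trans hM
  have hn0 : (0 : ℝ) < n := by exact_mod_cast NeZero.pos n
  have ha0 : (0 : ℝ) < (n : ℝ) ^ (-(1 / 4) : ℝ) := Real.rpow_pos_of_pos hn0 _
  have hpow : 0 < β ^ (-(3 / 2) : ℝ) := Real.rpow_pos_of_pos hβ _
  set η : ℝ := C7 * β ^ (-(3 / 2) : ℝ) with hη
  have hη0 : 0 < η := mul_pos hC7 hpow
  have key := BootS.bootS3 (n := n) (s := s) M (β := β) hη0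
    (Real.rpow_pos_of_pos hβ (-(9 / 2))).le ha0 (hg0.trans hg01)
    (fun z => (hS0 M hM2 z).trans (mul_le_mul_of_nonneg_right hCS hpow.le))
    (fun h0 hh0 hh01 hB => Hn M hM1 h0 hh0 hh01 hB) g
    ⟨fun y => ⟨hg0.trans (hg.1 y).1, (hg.1 y).2⟩, hg.2⟩ z
  linarith

end

end Vale.Agent.P361.LRO.S3S
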