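import Vale.Agent.P361.LRO.GenS.LimA
import Vale.Agent.P361.LRO.S3.LT0

/-!
P361, stage 3, all spins: the dictionary between real operators `A` on the copies `V × Fin s` and
operators `B` of the spin `s / 2` model on `V`: `Brg A B` means `A W = W B`, `W` the isometry onto
the symmetric tensors. Closed under all algebraic operations and `exp`; `Tr B = Tr (A P)`, `P` the
symmetriser. Base cases: exchanges, number operator, Casimir; application: `B.Zt s Λ β t`.
-/

namespace Vale.Agent.P361.LRO.S3S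

open Matrix Finset Vale.Agent.P361.LRO.GenS Vale.Agent.P361.LRO.S3

noncomputable section

section gen

variable {V : Type} [Fintype V] [DecidableEq V] {s : ℕ}

/-- `A` on the copies corresponds to `B` in the spin `s / 2` model. -/
def Brg (A : Matrix (V × Fin s → Fin 2) (V × Fin s → Fin 2) ℝ)
    (B : Matrix (V → Fin (s + 1)) (V → Fin (s + 1)) ℂ) : Prop :=
  cM A * WV s V = WV s V * B

namespace Brg

variable {A A' : Matrix (V × Fin s → Fin 2) (V × Fin s → Fin 2) ℝ}
  {B B' : Matrix (V → Fin (s + 1)) (V → Fin (s + 1)) ℂ}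

theorem zero : Brg (0 : Matrix (V × Fin s → Fin 2) (V × Fin s → Fin 2) ℝ) 0 := by
  unfold Brg
  rw [cM_zero, Matrix.zero_mul, Matrix.mul_zero]

omit [DecidableEq V] in
theorem cM_one' : cM (1 : Matrix (V × Fin s → Fin 2) (V × Fin s → Fin 2) ℝ) = 1 := by
  ext σ τ
  rw [cM_apply, Matrix.one_apply, Matrix.one_apply]
  split_ifs <;> simp

theorem one : Brg (1 : Matrix (V × Fin s → Fin 2) (V × Fin s → Fin 2) ℝ) 1 := by
  unfold Brg
  rw [cM_one', Matrix.one_mul, Matrix.mul_one]

theorem add (h : Brg A B) (h' : Brg A' B') : Brg (A + A') (B + B') := by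
  unfold Brg at *
  rw [cM_add, Matrix.add_mul, Matrix.mul_add, h, h']

theorem sub (h : Brg A B) (h' : Brg A' B') : Brg (A - A') (B - B') := by
  unfold Brg at *
  rw [cM_sub, Matrix.sub_mul, Matrix.mul_sub, h, h']

theorem neg (h : Brg A B) : Brg (-A) (-B) := by
  unfold Brg at *
  rw [cM_neg, Matrix.neg_mul, Matrix.mul_neg, h]

theorem smul (c : ℝ) (h : Brg A B) : Brg (c • A) ((c : ℂ) • B) := by
  unfold Brg at *
  rw [cM_smul, Matrix.smul_mul, Matrix.mul_smul, h]

theorem mul (h : Brg A B) (h' : Brg A' B') : Brg (A * A') (B * B') := by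
  unfold Brg at *
  rw [LRO.cM_mul, Matrix.mul_assoc, h', ← Matrix.mul_assoc, h, Matrix.mul_assoc]

theorem pow (h : Brg A B) (k : ℕ) : Brg (A ^ k) (B ^ k) := by
  induction k with
  | zero => rw [pow_zero, pow_zero]; exact one
  | succ k ih => rw [pow_succ, pow_succ]; exact ih.mul h

theorem sum {κ : Type*} (t : Finset κ)
    {f : κ → Matrix (V × Fin s → Fin 2) (V × Fin s → Fin 2) ℝ}
    {g : κ → Matrix (V → Fin (s + 1)) (V → Fin (s + 1)) ℂ} (h : ∀ k ∈ t, Brg (f k) (g k)) :
    Brg (∑ k ∈ t, f k) (∑ k ∈ t, g k) := by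
  unfold Brg at *
  rw [cM_sum, Matrix.sum_mul, Matrix.mul_sum]
  exact Finset.sum_congr rfl h

theorem listSum {κ : Type*} (l : List κ)
    {f : κ → Matrix (V × Fin s → Fin 2) (V × Fin s → Fin 2) ℝ}
    {g : κ → Matrix (V → Fin (s + 1)) (V → Fin (s + 1)) ℂ} (h : ∀ k ∈ l, Brg (f k) (g k)) :
    Brg (l.map f).sum (l.map g).sum := by
  induction l with
  | nil => exact zero
  | cons k l ih =>
    rw [List.map_cons, List.sum_cons, List.map_cons, List.sum_cons]
    exact (h k (by simp)).add (ih fun j hj => h j (by simp [hj]))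

theorem aeval (h : Brg A B) (G : Polynomial ℝ) :
    Brg (Polynomial.aeval A G) (Polynomial.aeval B (G.map (algebraMap ℝ ℂ))) := by
  induction G using Polynomial.induction_on with
  | C a =>
    rw [Polynomial.aeval_C, Algebra.algebraMap_eq_smul_one, Polynomial.map_C,
      Polynomial.aeval_C, Algebra.algebraMap_eq_smul_one]
    exact one.smul a
  | add p q hp hq => rw [map_add, Polynomial.map_add, map_add]; exact hp.add hq
  | monomial n a ih =>
    have e : Polynomial.map (algebraMap ℝ ℂ) (Polynomial.C a * Polynomial.X ^ n * Polynomial.X) =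
        Polynomial.map (algebraMap ℝ ℂ) (Polynomial.C a * Polynomial.X ^ n) * Polynomial.X := by
      rw [Polynomial.map_mul, Polynomial.map_X]
    rw [pow_succ, ← mul_assoc, e]
    have e1 : Polynomial.aeval A (Polynomial.C a * Polynomial.X ^ n * Polynomial.X) =
        Polynomial.aeval A (Polynomial.C a * Polynomial.X ^ n) * A := by
      rw [map_mul, Polynomial.aeval_X]
    have e2 : Polynomial.aeval B (Polynomial.map (algebraMap ℝ ℂ)
        (Polynomial.C a * Polynomial.X ^ n) * Polynomial.X) = Polynomial.aeval B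
        (Polynomial.map (algebraMap ℝ ℂ) (Polynomial.C a * Polynomial.X ^ n)) * B := by
      rw [map_mul, Polynomial.aeval_X]
    rw [e1, e2]
    exact ih.mul h

theorem exp (h : Brg A B) : Brg (NormedSpace.exp A) (NormedSpace.exp B) := by
  unfold Brg at *
  rw [← exp_cM]
  exact exp_intertwine h

theorem trace_eq [NeZero s] (h : Brg A B) :
    Matrix.trace B = ((Matrix.trace (A * symProd V s) : ℝ) : ℂ) := by
  unfold Brg at h
  calc Matrix.trace B = Matrix.trace ((WV s V)ᴴ * WV s V * B) := by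
        rw [WV_conj_mul, Matrix.one_mul]
    _ = Matrix.trace ((WV s V)ᴴ * (cM A * WV s V)) := by rw [Matrix.mul_assoc, h]
    _ = Matrix.trace (cM A * WV s V * (WV s V)ᴴ) := by rw [Matrix.trace_mul_comm]
    _ = Matrix.trace (cM A * symV s V) := by rw [Matrix.mul_assoc, WV_mul_conj]
    _ = Matrix.trace (cM (A * symProd V s)) := by rw [symV_eq, LRO.cM_mul]
    _ = _ := trace_cM _

theorem trace_re [NeZero s] (h : Brg A B) :
    (Matrix.trace B).re = Matrix.trace (A * symProd V s) := by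
  rw [h.trace_eq, Complex.ofReal_re]

theorem congr_right (h : Brg A B) (e : B = B') : Brg A B' := e ▸ h

theorem congr_left (h : Brg A B) (e : A = A') : Brg A' B := e ▸ h

end Brg

/-! ### Base cases -/

/-- Two different sites: `∑_{ij} h_{(x,i),(y,j)} = S² - S_x · S_y`. -/
theorem brg_pair {x y : V} (hxy : x ≠ y) :
    Brg (∑ ab : Fin s × Fin s, LRO.hM ((x, ab.1) : V × Fin s) (y, ab.2))
      ((((s : ℂ) / 2) ^ 2) • (1 : Matrix (V → Fin (s + 1)) (V → Fin (s + 1)) ℂ) -
        ∑ a : Fin 3, siteOpV x (Model.spin s a) * siteOpV y (Model.spin s a)) := by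
  unfold Brg
  have h1 := tot_mul_tot (m := s) x y hxy
  have h2 : cM (∑ ab : Fin s × Fin s, LRO.hM ((x, ab.1) : V × Fin s) (y, ab.2)) =
      (((s : ℂ) / 2) ^ 2) • (1 : Matrix (V × Fin s → Fin 2) (V × Fin s → Fin 2) ℂ) -
        ∑ a : Fin 3, tot s a x * tot s a y := by
    rw [h1]
    have e : ((s : ℂ) / 2) ^ 2 = (s : ℂ) ^ 2 * (1 / 4) := by ring
    rw [e]
    abel
  have h3 : (∑ a : Fin 3, tot s a x * tot s a y) * WV s V = WV s V *
      ∑ a : Fin 3, siteOpV x (Model.spin s a) * siteOpV y (Model.spin s a) := by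
    rw [Matrix.sum_mul, Matrix.mul_sum]
    refine Finset.sum_congr rfl fun a _ => ?_
    rw [Matrix.mul_assoc, tot_mul, ← Matrix.mul_assoc, tot_mul, Matrix.mul_assoc]
  rw [h2, Matrix.sub_mul, Matrix.mul_sub, h3, Matrix.smul_mul, Matrix.mul_smul,
    Matrix.one_mul, Matrix.mul_one]

/-- One site: `∑_i (1/2) σ³_{(x,i)} = S³_x`. -/
theorem brg_z (x : V) : Brg (∑ i : Fin s, (1 / 2 : ℝ) • szM ((x, i) : V × Fin s))
    (siteOpV x (Model.spin s 2)) := by
  unfold Brg
  rw [← tot_z]
  exact tot_mul s 2 x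

/-- One site: number of downs. -/
theorem brg_num (x : V) : Brg (∑ i : Fin s, (1 / 2 : ℝ) • (1 - szM ((x, i) : V × Fin s)))
    (((s : ℂ) / 2) • (1 : Matrix (V → Fin (s + 1)) (V → Fin (s + 1)) ℂ) -
      siteOpV x (Model.spin s 2)) := by
  have h1 := (Brg.one (V := V) (s := s)).smul ((s : ℝ) / 2)
  have h2 := h1.sub (brg_z (s := s) x)
  refine (h2.congr_left ?_).congr_right ?_
  · simp only [smul_sub, Finset.sum_sub_distrib, Finset.sum_const, Finset.card_univ,
      Fintype.card_fin]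
    rw [← Nat.cast_smul_eq_nsmul ℝ, smul_smul]
    congr 2
    ring
  · push_cast
    rfl

/-- Exchange of two copies of a site. -/
theorem brg_intra [NeZero s] (x : V) (a b : Fin s) :
    Brg (LRO.hM ((x, a) : V × Fin s) (x, b)) 0 := by
  unfold Brg
  rw [Matrix.mul_zero]
  have h1 : LRO.hM ((x, a) : V × Fin s) (x, b) * symProd V s = 0 := by
    rw [LRO.hM, Matrix.smul_mul, Matrix.sub_mul, Matrix.one_mul, swapM_mul_symProd, sub_self,
      smul_zero]
  have h2 : cM (LRO.hM ((x, a) : V × Fin s) (x, b)) * (WV s V * (WV s V)ᴴ) = 0 := by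
    rw [WV_mul_conj, symV_eq, ← LRO.cM_mul, h1, cM_zero]
  calc cM (LRO.hM ((x, a) : V × Fin s) (x, b)) * WV s V =
        cM (LRO.hM ((x, a) : V × Fin s) (x, b)) * (WV s V * (WV s V)ᴴ) * WV s V := by
          rw [Matrix.mul_assoc, Matrix.mul_assoc, WV_conj_mul, Matrix.mul_one]
    _ = 0 := by rw [h2, Matrix.zero_mul]

/-- The symmetriser itself. -/
theorem brg_sym [NeZero s] : Brg (symProd V s) 1 := by
  unfold Brg
  rw [← symV_eq, ← WV_mul_conj, Matrix.mul_assoc, WV_conj_mul]

/-- Number of downs in a block. -/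
theorem brg_Dn (b : Finset V) : Brg (TwJ.Dn (liftB s b))
    (∑ x ∈ b, (((s : ℂ) / 2) • (1 : Matrix (V → Fin (s + 1)) (V → Fin (s + 1)) ℂ) -
      siteOpV x (Model.spin s 2))) := by
  refine (Brg.sum b fun x _ => brg_num (s := s) x).congr_left ?_
  rw [TwJ.Dn, liftB, Finset.sum_product]

/-- Casimir of a block. -/
theorem brg_CM [NeZero s] (b : Finset V) : Brg (CM (liftB s b))
    (∑ x ∈ b, ∑ y ∈ b, if x = y then 0 else
      (((s : ℂ) / 2) ^ 2) • (1 : Matrix (V → Fin (s + 1)) (V → Fin (s + 1)) ℂ) -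
        ∑ a : Fin 3, siteOpV x (Model.spin s a) * siteOpV y (Model.spin s a)) := by
  have h1 : CM (liftB s b) = ∑ x ∈ b, ∑ y ∈ b, ∑ ab : Fin s × Fin s,
      LRO.hM ((x, ab.1) : V × Fin s) (y, ab.2) := by
    unfold CM liftB
    rw [Finset.sum_product]
    refine Finset.sum_congr rfl fun x _ => ?_
    have h2 : ∀ i : Fin s, ∑ z ∈ b ×ˢ (univ : Finset (Fin s)), LRO.hM ((x, i) : V × Fin s) z =
        ∑ y ∈ b, ∑ j : Fin s, LRO.hM ((x, i) : V × Fin s) (y, j) := fun i =>
      Finset.sum_product _ _ _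
    rw [Finset.sum_congr rfl fun i _ => h2 i, Finset.sum_comm]
    refine Finset.sum_congr rfl fun y _ => ?_
    rw [Fintype.sum_prod_type]
  rw [h1]
  refine Brg.sum b fun x _ => Brg.sum b fun y _ => ?_
  by_cases hxy : x = y
  · subst hxy
    rw [if_pos rfl]
    have h3 := Brg.sum (univ : Finset (Fin s × Fin s)) (f := fun ab =>
      LRO.hM ((x, ab.1) : V × Fin s) (x, ab.2)) (g := fun _ => 0) fun ab _ => brg_intra x ab.1 ab.2
    rw [Finset.sum_const_zero] at h3
    exact h3
  · rw [if_neg hxy]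
    exact brg_pair hxy

/-- The intra-site part. -/
theorem brg_intraSum [NeZero s] :
    Brg (((intraL V s).map fun e => LRO.hM e.1 e.2).sum) 0 := by
  have h1 := Brg.listSum (intraL V s) (f := fun e => LRO.hM e.1 e.2) (g := fun _ => 0)
    (fun e he => by
      obtain ⟨⟨x, a⟩, ⟨y, b⟩⟩ := e
      have h2 := (mem_intraL.1 he).1
      dsimp only at h2
      subst h2
      exact brg_intra x a b)
  refine h1.congr_right ?_
  simp

/-- The Hamiltonian of the copies, any list of edges between different sites. -/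
theorem brg_ham (L : List (V × V)) (hL : ∀ e ∈ L, e.1 ≠ e.2) (h : V → ℝ) :
    Brg (ham (interL L s) (lift s h))
      ((L.map fun e => (((s : ℂ) / 2) ^ 2) • (1 : Matrix (V → Fin (s + 1)) (V → Fin (s + 1)) ℂ) -
        ∑ a : Fin 3, siteOpV e.1 (Model.spin s a) * siteOpV e.2 (Model.spin s a)).sum -
        ∑ x, (h x : ℂ) • siteOpV x (Model.spin s 2)) := by
  rw [ham, sum_interL]
  refine Brg.sub (Brg.listSum L fun e he => brg_pair (hL e he)) ?_
  refine (Brg.sum univ fun x _ => (brg_z (s := s) x).smul (h x)).congr_left ?_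
  rw [Fintype.sum_prod_type]
  refine Finset.sum_congr rfl fun x _ => ?_
  rw [Finset.smul_sum]
  refine Finset.sum_congr rfl fun i _ => ?_
  rw [smul_smul, lift]
  congr 1
  ring

/-- The same with `M` intra-site terms. -/
theorem brg_hamM [NeZero s] (L : List (V × V)) (hL : ∀ e ∈ L, e.1 ≠ e.2) (h : V → ℝ) (M : ℕ) :
    Brg (ham (Lm L s M) (lift s h))
      ((L.map fun e => (((s : ℂ) / 2) ^ 2) • (1 : Matrix (V → Fin (s + 1)) (V → Fin (s + 1)) ℂ) -
        ∑ a : Fin 3, siteOpV e.1 (Model.spin s a) * siteOpV e.2 (Model.spin s a)).sum -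
        ∑ x, (h x : ℂ) • siteOpV x (Model.spin s 2)) := by
  have h1 : ham (Lm L s M) (lift s h) = ham (interL L s) (lift s h) +
      (M : ℝ) • ((intraL V s).map fun e => LRO.hM e.1 e.2).sum := by
    rw [Lm]
    exact Lim.ham_append_replicate _ _ M _
  rw [h1]
  refine ((brg_ham L hL h).add (brg_intraSum.smul (M : ℝ))).congr_right ?_
  rw [smul_zero, add_zero]

end gen

/-! ### Free regions -/

section free

variable {Λ : Finset Site} {s : ℕ}

theorem brg_hT : Brg ((1 / 2 : ℝ) • ham (interL (nnL Λ) s) 0) (B.hT s Λ) := by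
  have h0 : Brg (∑ x : Λ, ∑ y : Λ,
      if IsNN x.1 y.1 then (∑ ab : Fin s × Fin s, LRO.hM ((x, ab.1) : Λ × Fin s) (y, ab.2)) else 0)
      (∑ x : Λ, ∑ y : Λ, if IsNN x.1 y.1 then (((s : ℂ) / 2) ^ 2) • (1 : Matrix _ _ ℂ) -
        H.dotOp s x y else 0) := by
    refine Brg.sum univ fun x _ => Brg.sum univ fun y _ => ?_
    by_cases h : IsNN x.1 y.1
    · rw [if_pos h, if_pos h]
      exact brg_pair (H.isNN_ne h)
    · rw [if_neg h, if_neg h]
      exact Brg.zero
  have e1 : ham (interL (nnL Λ) s) (0 : Λ × Fin s → ℝ) = ∑ x : Λ, ∑ y : Λ,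
      if IsNN x.1 y.1 then (∑ ab : Fin s × Fin s, LRO.hM ((x, ab.1) : Λ × Fin s) (y, ab.2))
        else 0 := by
    have e2 : ham (interL (nnL Λ) s) (0 : Λ × Fin s → ℝ) =
        ∑ e ∈ (univ : Finset (Λ × Λ)).filter (fun e => IsNN e.1.1 e.2.1),
          ∑ ab : Fin s × Fin s, LRO.hM (e.1, ab.1) (e.2, ab.2) := by
      rw [ham, sum_interL, nnL, Finset.sum_map_toList]
      simp
    rw [e2, Finset.sum_filter, Fintype.sum_prod_type]
  rw [e1]
  refine (h0.smul (1 / 2)).congr_right ?_
  rw [B.hT]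
  push_cast
  rfl

theorem brg_numOp : Brg (TwJ.Dn (univ : Finset (Λ × Fin s))) (B.numOp s Λ) := by
  have h := brg_Dn (s := s) (univ : Finset Λ)
  have e : liftB s (univ : Finset Λ) = univ := by
    rw [liftB, Finset.univ_product_univ]
  rw [e] at h
  exact h

variable [NeZero s]

/-- **The partition function of the spin `s / 2` model in a free region.** -/
theorem Brg.Zt_spin (β t : ℝ) : B.Zt s Λ β t = trace (NormedSpace.exp
    (-(β / 2) • ham (interL (nnL Λ) s) 0 - t • TwJ.Dn (univ : Finset (Λ × Fin s))) *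
      symProd Λ s) := by
  have h : Brg (-(β / 2) • ham (interL (nnL Λ) s) 0 - t • TwJ.Dn (univ : Finset (Λ × Fin s)))
      (-((β : ℂ) • B.hT s Λ + (t : ℂ) • B.numOp s Λ)) := by
    have h1 := ((brg_hT (Λ := Λ) (s := s)).smul β).add ((brg_numOp (Λ := Λ) (s := s)).smul t)
    refine h1.neg.congr_left ?_
    rw [smul_smul]
    have : β * (1 / 2) = β / 2 := by ring
    rw [this]
    module
  exact h.exp.trace_re

/-- The same with `M` intra-site terms (they vanish on the symmetric tensors). -/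
theorem Brg.Zt_spinM (β t : ℝ) (M : ℕ) : B.Zt s Λ β t = trace (NormedSpace.exp
    (-(β / 2) • ham (Lm (nnL Λ) s M) 0 - t • TwJ.Dn (univ : Finset (Λ × Fin s))) *
      symProd Λ s) := by
  have h : Brg (-(β / 2) • ham (Lm (nnL Λ) s M) 0 - t • TwJ.Dn (univ : Finset (Λ × Fin s)))
      (-((β : ℂ) • B.hT s Λ + (t : ℂ) • B.numOp s Λ)) := by
    have h0 : Brg ((1 / 2 : ℝ) • ham (Lm (nnL Λ) s M) 0) (B.hT s Λ) := by
      have e : ham (Lm (nnL Λ) s M) (0 : Λ × Fin s → ℝ) = ham (interL (nnL Λ) s) 0 +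
          (M : ℝ) • ((intraL Λ s).map fun e => LRO.hM e.1 e.2).sum := by
        rw [Lm]
        exact Lim.ham_append_replicate _ _ M _
      have h2 := (brg_hT (Λ := Λ) (s := s)).add ((brg_intraSum (V := Λ) (s := s)).smul
        ((1 / 2 : ℝ) * M))
      rw [smul_zero, add_zero] at h2
      refine h2.congr_left ?_
      rw [e, smul_add, smul_smul]
    have h1 := (h0.smul β).add ((brg_numOp (Λ := Λ) (s := s)).smul t)
    refine h1.neg.congr_left ?_
    rw [smul_smul]
    have : β * (1 / 2) = β / 2 := by ring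
    rw [this]
    module
  exact h.exp.trace_re

end free

end

end Vale.Agent.P361.LRO.S3S
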