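import Vale.Agent.P361.LRO.Bloch.LongCC

/-!
P361, Bloch's law for all spins: long windows for any circuit whose trace formula is the one of the
physical circuit with an extra (entrywise nonnegative) factor `EM` between the layers `N` and `0`
(for spin `S`: the projector onto the symmetric subspace of the copies).
-/

namespace Vale.Agent.P361.LRO.Bloch

open Finset Matrix Vale.Agent.P361.LRO.Dict

set_option linter.unusedSectionVars false

noncomputable section

variable {V : Type} [Fintype V] [DecidableEq V]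

/-- The trace formula with the factor `EM`. -/
def TrE {N : ℕ} (μ : Equiv.Perm (Fin (N + 1) × V) → ℝ) (EM : MM V) (L : List (V × V)) (β : ℝ) : Prop :=
  ∀ A : Fin (N + 1) × V → Matrix (Fin 2) (Fin 2) ℝ, NZ μ A = trace (EM *
    (down (fun k => layM (fun x => A (Fin.ofNat (N + 1) k, x)) * gatM L (β / (2 * N))) N *
      layM (fun x => A (0, x))))

theorem NZ_splitE {N : ℕ} {μ : Equiv.Perm (Fin (N + 1) × V) → ℝ} {EM : MM V} {L : List (V × V)}
    {β : ℝ} (hμ : TrE μ EM L β) (A : Fin (N + 1) × V → Matrix (Fin 2) (Fin 2) ℝ)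
    {k m : ℕ} (h : k + m + 1 ≤ N) :
    NZ μ A = trace (EM * (
      down (fun j => (layM fun x => A (Fin.ofNat (N + 1) (k + m + 1 + j), x)) *
        gatM L (β / (2 * N))) (N - (k + m + 1)) *
      ((layM fun x => A (Fin.ofNat (N + 1) (k + m + 1), x)) *
        ((gatM L (β / (2 * N)) * down (fun j => (layM fun x => A (Fin.ofNat (N + 1) (k + j), x)) *
          gatM L (β / (2 * N))) m) * ((layM fun x => A (Fin.ofNat (N + 1) k, x)) *
          (if k = 0 then 1 else gatM L (β / (2 * N)) *
            down (fun j => (layM fun x => A (Fin.ofNat (N + 1) j, x)) *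
              gatM L (β / (2 * N))) (k - 1) * layM fun x => A (Fin.ofNat (N + 1) 0, x))))))) := by
  rw [hμ]
  have h0 : (layM fun x => A (0, x) : MM V) = layM fun x => A (Fin.ofNat (N + 1) 0, x) := rfl
  rw [h0, split_gen (fun j => (layM fun x => A (Fin.ofNat (N + 1) j, x) : MM V))
    (gatM L (β / (2 * N))) h]

theorem TrE.phys (L : List (V × V)) (β : ℝ) (N : ℕ) : TrE (phys L β N) 1 L β := by
  intro A
  rw [NZ_phys, one_mul]

/-- The product formula for the partition function is positive. -/
theorem TrE.pos {N : ℕ} {μ : Equiv.Perm (Fin (N + 1) × V) → ℝ} {EM : MM V} {L : List (V × V)}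
    {β : ℝ} (hμ : TrE μ EM L β) (hEM : PU EM) (hβ : 0 ≤ β) (hN : β ≤ N)
    {θ : Fin (N + 1) × V → ℝ} (hθ : ∀ z, 0 ≤ θ z ∧ θ z ≤ 1) :
    0 < NZ μ fun z => dgM (θ z) := by
  have hp0 : 0 ≤ β / (2 * N) := by positivity
  have hp1 : β / (2 * N) ≤ 1 := by
    rcases Nat.eq_zero_or_pos N with h | h
    · subst h; norm_num
    · have : (0 : ℝ) < N := by exact_mod_cast h
      rw [div_le_one (by positivity)]
      linarith
  rw [hμ]
  have hd : ∀ n, PU (down (fun k => layM (fun x => dgM (θ (Fin.ofNat (N + 1) k, x))) *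
      gatM L (β / (2 * N))) n) := by
    intro n
    induction n with
    | zero => exact PU.one
    | succ n ih => exact ((PU.layM fun _ => hθ _).mul (PU.gatM L hp0 hp1)).mul ih
  have h1 := (hEM.mul ((hd N).mul (PU.layM fun x => hθ (0, x)))).trace
  linarith

/-- From a trace inequality to the conductance. -/
theorem cc_of_trace (L : List (V × V)) {β : ℝ} {N : ℕ} {μ : Equiv.Perm (Fin (N + 1) × V) → ℝ}
    {EM : MM V} (hEM : Le 0 EM) (hμ : TrE μ EM L β) (hβ : 0 ≤ β) (hN : β ≤ N) (hN0 : 0 < N)
    {θ : Fin (N + 1) × V → ℝ} (hθ : ∀ z, 0 ≤ θ z ∧ θ z ≤ 1)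
    (hpos : 0 < NZ μ fun z => dgM (θ z)) {k m : ℕ} (hk : k + m + 1 ≤ N) (x y : V) (S : ℝ)
    (hS : S * trace ((EM * lctx L β N θ (k + m + 1) x) * wd (mword L β N θ k m) *
        rctx L β N θ k y) ≤
      trace ((EM * lctx L β N θ (k + m + 1) x) * sxM x * wd (mword L β N θ k m) *
        (sxM y * rctx L β N θ k y))) :
    S * (θ (Fin.ofNat (N + 1) (k + m + 1), x) * θ (Fin.ofNat (N + 1) k, y)) / 4 ≤
      cc μ θ (Fin.ofNat (N + 1) (k + m + 1), x) (Fin.ofNat (N + 1) k, y) := by
  classical
  have hNr : (0 : ℝ) < N := by exact_mod_cast hN0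
  set p : ℝ := β / (2 * N) with hp
  have hp0 : 0 ≤ p := by positivity
  have hp1 : p ≤ 1 := by
    rw [hp, div_le_one (by positivity)]
    linarith
  set u : Fin (N + 1) × V := (Fin.ofNat (N + 1) (k + m + 1), x) with hu
  set v : Fin (N + 1) × V := (Fin.ofNat (N + 1) k, y) with hv
  have huv : u ≠ v := by
    intro h
    have := ofNat_inj hk (by omega) (congrArg Prod.fst h)
    omega
  set A : MM V := EM * lctx L β N θ (k + m + 1) x with hA
  set C : MM V := rctx L β N θ k y with hC
  set w : List (Lt V) := mword L β N θ k m with hw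
  have hAn : Le 0 A := hEM.zero_mul
    ((preM_nonneg L hp0 hp1 hθ _).zero_mul (rmM_nonneg (fun _ => hθ _) _))
  have hCn : Le 0 C := (rmM_nonneg (fun _ => hθ _) _).zero_mul (restM_nonneg L hp0 hp1 hθ _)
  have hok : ∀ l ∈ w, Ok l := ok_mid L hp0 hp1 (fun _ _ => hθ _) m
  have hwd : wd w = gatM L p * down (fun j => (layM fun z =>
      dgM (θ (Fin.ofNat (N + 1) (k + j), z))) * gatM L p) m := wd_mid L p _ m
  -- layers away from `u`, `v`
  have hlay : ∀ j, j ≤ N → j ≠ k + m + 1 → j ≠ k →
      (layM fun z => (Function.update (Function.update (fun z => dgM (θ z)) u m1) v m1)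
        (Fin.ofNat (N + 1) j, z) : MM V) = layM fun z => dgM (θ (Fin.ofNat (N + 1) j, z)) := by
    intro j hj h1 h2
    congr 1
    funext z
    rw [Function.update_of_ne, Function.update_of_ne]
    · intro h
      exact h1 (ofNat_inj hj hk (congrArg Prod.fst h))
    · intro h
      exact h2 (ofNat_inj hj (by omega) (congrArg Prod.fst h))
  have hlayu : (layM fun z => (Function.update (Function.update (fun z => dgM (θ z)) u m1) v m1)
        (Fin.ofNat (N + 1) (k + m + 1), z) : MM V) =
      rmM (fun z => θ (Fin.ofNat (N + 1) (k + m + 1), z)) x * sxM x := by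
    rw [rmM_mul_sxM]
    congr 1
    funext z
    rw [Function.update_of_ne]
    · by_cases hz : z = x
      · subst hz
        rw [← hu, Function.update_self, Function.update_self]
      · rw [Function.update_of_ne hz, Function.update_of_ne]
        intro h
        exact hz (congrArg Prod.snd h)
    · intro h
      have := ofNat_inj hk (by omega) (congrArg Prod.fst h)
      omega
  have hlayv : (layM fun z => (Function.update (Function.update (fun z => dgM (θ z)) u m1) v m1)
        (Fin.ofNat (N + 1) k, z) : MM V) =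
      sxM y * rmM (fun z => θ (Fin.ofNat (N + 1) k, z)) y := by
    rw [sxM_mul_rmM]
    congr 1
    funext z
    by_cases hz : z = y
    · subst hz
      rw [← hv, Function.update_self, Function.update_self]
    · rw [Function.update_of_ne hz, Function.update_of_ne, Function.update_of_ne]
      · intro h
        have := ofNat_inj (by omega) hk (congrArg Prod.fst h)
        omega
      · intro h
        exact hz (congrArg Prod.snd h)
  have hnum : NZ μ (Function.update (Function.update (fun z => dgM (θ z)) u m1) v m1) =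
      trace (A * sxM x * wd w * (sxM y * C)) := by
    rw [NZ_splitE hμ _ hk, hlayu, hlayv, hwd]
    rw [down_congr (f := fun j => (layM fun z => (Function.update (Function.update
        (fun z => dgM (θ z)) u m1) v m1) (Fin.ofNat (N + 1) (k + m + 1 + j), z) : MM V) *
        gatM L (β / (2 * N)))
      (g := fun j => FM N θ (k + m + 1 + j) * gatM L (β / (2 * N)))
      (fun j h1 h2 => by rw [hlay _ (by omega) (by omega) (by omega)]; rfl)]
    rw [down_congr (f := fun j => (layM fun z => (Function.update (Function.update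
        (fun z => dgM (θ z)) u m1) v m1) (Fin.ofNat (N + 1) (k + j), z) : MM V) *
        gatM L (β / (2 * N)))
      (g := fun j => (layM fun z => dgM (θ (Fin.ofNat (N + 1) (k + j), z))) *
        gatM L (β / (2 * N)))
      (fun j h1 h2 => by rw [hlay _ (by omega) (by omega) (by omega)])]
    have hrest : (if k = 0 then 1 else gatM L (β / (2 * N)) *
            down (fun j => (layM fun z => (Function.update (Function.update (fun z => dgM (θ z)) u
              m1) v m1) (Fin.ofNat (N + 1) j, z) : MM V) * gatM L (β / (2 * N))) (k - 1) *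
            layM fun z => (Function.update (Function.update (fun z => dgM (θ z)) u m1) v m1)
              (Fin.ofNat (N + 1) 0, z)) = restM L (β / (2 * N)) N θ k := by
      unfold restM
      by_cases hk0 : k = 0
      · rw [if_pos hk0, if_pos hk0]
      · rw [if_neg hk0, if_neg hk0, hlay 0 (by omega) (by omega) (by omega),
          down_congr (f := fun j => (layM fun z => (Function.update (Function.update
            (fun z => dgM (θ z)) u m1) v m1) (Fin.ofNat (N + 1) j, z) : MM V) *
            gatM L (β / (2 * N)))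
          (g := fun j => FM N θ j * gatM L (β / (2 * N)))
          (fun j h1 h2 => by rw [hlay _ (by omega) (by omega) (by omega)]; rfl)]
        rfl
    rw [hrest, hA, hC]
    unfold lctx rctx preM
    simp only [Matrix.mul_assoc]
    rw [hp]
  have hden : NZ μ (fun z => dgM (θ z)) ≤
      (1 + θ u) * (1 + θ v) * trace (A * wd w * C) := by
    rw [NZ_splitE hμ _ hk, hwd]
    have hGn := gatM_nonneg' L hp0 hp1
    have hPn := preM_nonneg L hp0 hp1 hθ (k + m + 1)
    have hRn := restM_nonneg L hp0 hp1 hθ k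
    have hMn : Le (0 : MM V) (gatM L p * down (fun j => (layM fun z =>
      dgM (θ (Fin.ofNat (N + 1) (k + j), z))) * gatM L p) m) := by
      rw [← hwd]; exact wd_nonneg hok
    have h1 := (layM_le_rmM (t := fun z => θ (Fin.ofNat (N + 1) (k + m + 1), z))
      (fun _ => hθ _) x)
    have h2 := (layM_le_rmM (t := fun z => θ (Fin.ofNat (N + 1) k, z)) (fun _ => hθ _) y)
    have h3 : Le (preM L p N θ (k + m + 1) * ((layM fun z =>
        dgM (θ (Fin.ofNat (N + 1) (k + m + 1), z))) * ((gatM L p * down (fun j => (layM fun z =>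
        dgM (θ (Fin.ofNat (N + 1) (k + j), z))) * gatM L p) m) * ((layM fun z =>
        dgM (θ (Fin.ofNat (N + 1) k, z))) * restM L p N θ k))))
        (preM L p N θ (k + m + 1) * (((1 + θ u) • rmM (fun z =>
          θ (Fin.ofNat (N + 1) (k + m + 1), z)) x) * ((gatM L p * down (fun j => (layM fun z =>
        dgM (θ (Fin.ofNat (N + 1) (k + j), z))) * gatM L p) m) * (((1 + θ v) • rmM (fun z =>
          θ (Fin.ofNat (N + 1) k, z)) y) * restM L p N θ k)))) := by
      refine Le.mul_left ?_ hPn
      refine Le.trans (Le.mul_right h1 (hMn.zero_mul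
        ((layM_nonneg' fun _ => hθ _).zero_mul hRn))) ?_
      refine Le.mul_left ?_ ((rmM_nonneg (fun _ => hθ _) _).zero_smul (by linarith [(hθ u).1]))
      refine Le.mul_left ?_ hMn
      exact Le.mul_right h2 hRn
    have h4 := (h3.mul_left hEM).trace
    refine le_trans h4 (le_of_eq ?_)
    rw [hA, hC]
    unfold lctx rctx
    simp only [Matrix.smul_mul, Matrix.mul_smul, Matrix.trace_smul, smul_eq_mul, Matrix.mul_assoc]
    ring
  have hNZn : 0 < NZ μ fun z => dgM (θ z) := hpos
  have hccn : 0 ≤ cc μ θ u v := by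
    rw [cc_eq3 _ _ huv, hnum]
    refine div_nonneg (mul_nonneg (mul_nonneg (hθ u).1 (hθ v).1) ?_) hNZn.le
    have := (((hAn.zero_mul (sxM_nonneg x)).zero_mul (wd_nonneg hok)).zero_mul
      ((sxM_nonneg y).zero_mul hCn)).trace
    rwa [Matrix.trace_zero] at this
  have hmain' : S * trace (A * wd w * C) ≤ trace (A * sxM x * wd w * (sxM y * C)) := hS
  rcases le_or_gt S 0 with hS0 | hS0
  · refine le_trans ?_ hccn
    have : S * (θ u * θ v) ≤ 0 :=
      mul_nonpos_of_nonpos_of_nonneg hS0 (mul_nonneg (hθ u).1 (hθ v).1)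
    linarith
  · rw [cc_eq3 _ _ huv, hnum, le_div_iff₀ hNZn]
    have hZ' : 0 ≤ trace (A * wd w * C) := by
      have := ((hAn.zero_mul (wd_nonneg hok)).zero_mul hCn).trace
      rwa [Matrix.trace_zero] at this
    have h5 : NZ μ (fun z => dgM (θ z)) ≤ 4 * trace (A * wd w * C) := by
      refine hden.trans (mul_le_mul_of_nonneg_right ?_ hZ')
      nlinarith [(hθ u).1, (hθ u).2, (hθ v).1, (hθ v).2]
    have h6 : 0 ≤ S * (θ u * θ v) / 4 :=
      div_nonneg (mul_nonneg hS0.le (mul_nonneg (hθ u).1 (hθ v).1)) (by norm_num)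
    calc S * (θ u * θ v) / 4 * NZ μ (fun z => dgM (θ z))
        ≤ S * (θ u * θ v) / 4 * (4 * trace (A * wd w * C)) := mul_le_mul_of_nonneg_left h5 h6
      _ = θ u * θ v * (S * trace (A * wd w * C)) := by ring
      _ ≤ θ u * θ v * trace (A * sxM x * wd w * (sxM y * C)) :=
          mul_le_mul_of_nonneg_left hmain' (mul_nonneg (hθ u).1 (hθ v).1)


/-- From a trace inequality to the conductance of the physical circuit (any list `L`, any slice
parameters in `[0, 1]`). -/
theorem cc_of_trace_phys (L : List (V × V)) {β : ℝ} {N : ℕ} (hβ : 0 ≤ β) (hN : β ≤ N)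
    (hN0 : 0 < N) {θ : Fin (N + 1) × V → ℝ} (hθ : ∀ z, 0 ≤ θ z ∧ θ z ≤ 1)
    {k m : ℕ} (hk : k + m + 1 ≤ N) (x y : V) (S : ℝ)
    (hS : S * trace (lctx L β N θ (k + m + 1) x * wd (mword L β N θ k m) * rctx L β N θ k y) ≤
      trace (lctx L β N θ (k + m + 1) x * sxM x * wd (mword L β N θ k m) *
        (sxM y * rctx L β N θ k y))) :
    S * (θ (Fin.ofNat (N + 1) (k + m + 1), x) * θ (Fin.ofNat (N + 1) k, y)) / 4 ≤
      cc (phys L β N) θ (Fin.ofNat (N + 1) (k + m + 1), x) (Fin.ofNat (N + 1) k, y) := by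
  refine cc_of_trace (EM := 1) L one_nonneg (TrE.phys L β N) hβ hN hN0 hθ
    ((TrE.phys L β N).pos PU.one hβ hN hθ) hk x y S ?_
  rw [Matrix.one_mul]
  exact hS

/-- **Long windows**, conductances of the circuit with the factor `EM`. -/
theorem cc_longE (L : List (V × V)) {β : ℝ} {N : ℕ} {μ : Equiv.Perm (Fin (N + 1) × V) → ℝ}
    {EM : MM V} (hEM : Le 0 EM) (hμ : TrE μ EM L β) (hβ : 0 ≤ β) (hN : β ≤ N) (hN0 : 0 < N)
    {θ : Fin (N + 1) × V → ℝ} (hθ : ∀ z, 0 ≤ θ z ∧ θ z ≤ 1)
    (hpos : 0 < NZ μ fun z => dgM (θ z)) {D : ℝ}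
    (hD : ∀ v, (tch L v : ℝ) ≤ D) {k m : ℕ} (hk : k + m + 1 ≤ N) (x y : V) (J : ℕ) {δ : ℝ}
    (hδ : 0 ≤ δ)
    (hX : ∀ w1 w2 a b p, mword L β N θ k m = w1 ++ Lt.gate a b p :: w2 →
      trace ((EM * lctx L β N θ (k + m + 1) x) * wd w1 * exM a b * wd w2 * rctx L β N θ k y) ≤
        δ * trace ((EM * lctx L β N θ (k + m + 1) x) * wd (mword L β N θ k m) * rctx L β N θ k y) ∧
      trace ((EM * lctx L β N θ (k + m + 1) x) * wd w1 * neM a b * wd w2 * rctx L β N θ k y) ≤
        δ * trace ((EM * lctx L β N θ (k + m + 1) x) * wd (mword L β N θ k m) * rctx L β N θ k y)) :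
    (∑ j ∈ range J, qq (mword L β N θ k m) (q0 x) y j *
      (1 - δ * (β / (2 * N) * D * (m + 1) + (1 + β / (2 * N) * D) * j))) *
      (θ (Fin.ofNat (N + 1) (k + m + 1), x) * θ (Fin.ofNat (N + 1) k, y)) / 4 ≤
      cc μ θ (Fin.ofNat (N + 1) (k + m + 1), x) (Fin.ofNat (N + 1) k, y) := by
  have hNr : (0 : ℝ) < N := by exact_mod_cast hN0
  have hp0 : 0 ≤ β / (2 * N) := by positivity
  have hp1 : β / (2 * N) ≤ 1 := by
    rw [div_le_one (by positivity)]
    linarith
  have hAn : Le 0 (EM * lctx L β N θ (k + m + 1) x) := hEM.zero_mul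
    ((preM_nonneg L hp0 hp1 hθ _).zero_mul (rmM_nonneg (fun _ => hθ _) _))
  have hCn : Le 0 (rctx L β N θ k y) :=
    (rmM_nonneg (fun _ => hθ _) _).zero_mul (restM_nonneg L hp0 hp1 hθ _)
  have hmain := long_trace _ _ hAn hCn hδ (mword L β N θ k m)
    (ok_mid L hp0 hp1 (fun _ _ => hθ _) m) x y J _ (Pot_mid L hp0 hD _ m 0) (HX_of _ _ _ hX)
  refine cc_of_trace L hEM hμ hβ hN hN0 hθ hpos hk x y _ (le_trans (le_of_eq ?_) hmain)
  congr 1
  refine Finset.sum_congr rfl fun j _ => ?_
  ring

end

end Vale.Agent.P361.LRO.Bloch
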