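import Vale.Agent.P361.LRO.S3S.KernelS
import Vale.Agent.P361.LRO.S3S.LongCCE
import Vale.Agent.P361.LRO.Ind3.LocalInst
import Vale.Agent.P361.LRO.GenS.LocalInst3S

/-!
P361 LRO, stage 3, all spins: `CCgeS s` (input of `GenS/LocalInst3S.lean`) from the long-window
trace inequality `LongTr s` and the kernel bound `KerS.qS_lower1`.
-/

namespace Vale.Agent.P361.LRO.S3S

open Finset Matrix Vale.Agent.P361.LRO _root_.P361.LRO Vale.Agent.P361.LRO.Bloch
  Vale.Agent.P361.LRO.S3S.KerS Vale.Agent.P361.LRO.GenS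

noncomputable section

/-- Long windows on `edgesS n s M`, trace form, for every pair of copies (walk with at least one
move); only the inter gates have to be controlled. -/
def LongTr (s : ℕ) : Prop :=
  ∀ (n M : ℕ) [NeZero n] (β : ℝ) (N : ℕ), 2 ≤ n → 0 ≤ β → β ≤ N → 0 < N →
    ∀ θ : Fin (N + 1) × (Tor n × Fin s) → ℝ, (∀ z, 0 ≤ θ z ∧ θ z ≤ 1) →
    (∀ k x i j, θ (k, (x, i)) = θ (k, (x, j))) →
    ∀ τ : ℝ, 0 ≤ τ → τ ≤ 1 → (∀ z, z.1 ≠ 0 → θ z ≤ τ) →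
    ∀ k m : ℕ, k + m + 1 ≤ N → ∀ δ : ℝ, 0 ≤ δ → ∀ (x y : Tor n) (i j : Fin s),
      (∀ w1 w2 a b p, a.1 ≠ b.1 → mword (edgesS n s M) β N θ k m = w1 ++ Lt.gate a b p :: w2 →
        trace (lctx (edgesS n s M) β N θ (k + m + 1) (x, i) * wd w1 * exM a b * wd w2 *
            rctx (edgesS n s M) β N θ k (y, j)) ≤
          δ * trace (lctx (edgesS n s M) β N θ (k + m + 1) (x, i) *
            wd (mword (edgesS n s M) β N θ k m) * rctx (edgesS n s M) β N θ k (y, j)) ∧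
        trace (lctx (edgesS n s M) β N θ (k + m + 1) (x, i) * wd w1 * neM a b * wd w2 *
            rctx (edgesS n s M) β N θ k (y, j)) ≤
          δ * trace (lctx (edgesS n s M) β N θ (k + m + 1) (x, i) *
            wd (mword (edgesS n s M) β N θ k m) * rctx (edgesS n s M) β N θ k (y, j))) →
      ∀ J : ℕ,
      ((1 - τ) / (1 + τ)) ^ m * (∑ l ∈ Ico 1 J,
        qS ((1 - β / (2 * N)) ^ (6 * s)) (s * (β / (2 * N)) * (1 - β / (2 * N)) ^ (12 * s)) x
          (m + 1) y l *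
        (1 / s - δ * ((m + 1) * s * (β / (2 * N)) * (6 * s) +
          s * (1 + 2 * (β / (2 * N)) * (6 * s)) * l))) *
        trace (lctx (edgesS n s M) β N θ (k + m + 1) (x, i) *
          wd (mword (edgesS n s M) β N θ k m) * rctx (edgesS n s M) β N θ k (y, j)) ≤
      trace (lctx (edgesS n s M) β N θ (k + m + 1) (x, i) * sxM (x, i) *
        wd (mword (edgesS n s M) β N θ k m) * (sxM (y, j) * rctx (edgesS n s M) β N θ k (y, j)))

/-- The weight of the lumped walk, at least one move. -/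
theorem walkS_ge {n : ℕ} [NeZero n] {s : ℕ} (hs1 : 1 ≤ s) {β : ℝ} (hβ : 8 ≤ β) :
    ∃ N0 : ℕ, 1 ≤ N0 ∧ ∀ N W : ℕ, N0 ≤ N → N = 4 * W →
      ∀ m e : ℕ, m + 1 ≤ N → W ≤ m + 1 → (3:ℝ) ^ e ≤ 3 * √β → √β ≤ 3 * 3 ^ e →
      ∀ J : ℕ, Ker.cJ 18 * (s * (β / 2)) ≤ J →
      ∀ p x y : Tor n, x ∈ cube n p (2 * 3 ^ e) → y ∈ cube n p (2 * 3 ^ e) →
      Ker.cK 18 ^ 3 / (108 * s ^ 3 * 27 ^ e) ≤ ∑ j ∈ Ico 1 J,
        qS ((1 - β / (2 * N)) ^ (6 * s)) (s * (β / (2 * N)) * (1 - β / (2 * N)) ^ (12 * s)) x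
          (m + 1) y j := by
  have hcK : 0 < Ker.cK 18 := Ker.cK_pos 18
  have hβ0 : 0 < β := by linarith
  have hJ0 := Ind3.cJ_nonneg
  have hs0 : (1:ℝ) ≤ s := by exact_mod_cast hs1
  obtain ⟨N0, hN0⟩ := qS_lower1 (A := 18) (by norm_num) (n := n) hs1 hβ0
  refine ⟨max N0 (max 1 ⌈β⌉₊), le_max_of_le_right (le_max_left _ _), ?_⟩
  intro N W hN hNW m e hm hWm he1 he2 J hJ p x y hx hy
  have hN1 : 1 ≤ N := (le_max_left _ _).trans ((le_max_right _ _).trans hN)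
  have hNβ : β ≤ N := by
    have : ⌈β⌉₊ ≤ N := (le_max_right _ _).trans ((le_max_right _ _).trans hN)
    exact (Nat.le_ceil β).trans (by exact_mod_cast this)
  have hNp : (0:ℝ) < N := by linarith
  obtain ⟨z, hz, hyz⟩ := Ind3.cube_diff hx hy
  have hp0 : 0 ≤ β / (2 * N) := by positivity
  set t : ℝ := s * (((m + 1 : ℕ) : ℝ) * (β / (2 * N))) with ht
  have hm1 : ((m + 1 : ℕ) : ℝ) ≤ N := by exact_mod_cast hm
  have hm2 : (N : ℝ) / 4 ≤ ((m + 1 : ℕ) : ℝ) := by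
    have h1 : (N : ℝ) = 4 * W := by rw [hNW]; push_cast; ring
    have h2 : (W : ℝ) ≤ ((m + 1 : ℕ) : ℝ) := by exact_mod_cast hWm
    linarith
  have hs1' : ((m + 1 : ℕ) : ℝ) * (β / (2 * N)) ≤ β / 2 := by
    calc ((m + 1 : ℕ) : ℝ) * (β / (2 * N)) ≤ N * (β / (2 * N)) :=
          mul_le_mul_of_nonneg_right hm1 hp0
      _ = β / 2 := by field_simp
  have hs2' : β / 8 ≤ ((m + 1 : ℕ) : ℝ) * (β / (2 * N)) := by
    calc β / 8 = N / 4 * (β / (2 * N)) := by field_simp; norm_num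
      _ ≤ _ := mul_le_mul_of_nonneg_right hm2 hp0
  have ht1 : t ≤ s * (β / 2) := mul_le_mul_of_nonneg_left hs1' (by linarith)
  have ht2 : β / 8 ≤ t := by
    calc β / 8 ≤ 1 * (((m + 1 : ℕ) : ℝ) * (β / (2 * N))) := by rw [one_mul]; exact hs2'
      _ ≤ t := mul_le_mul_of_nonneg_right hs0 (by linarith)
  have ht3 : 1 ≤ t := by linarith
  have htp : 0 < t := by linarith
  have hsq : 0 < √t := Real.sqrt_pos.2 htp
  have hβs : √β ≤ 3 * √t := by
    have h1 : √β ≤ √(9 * t) := Real.sqrt_le_sqrt (by linarith)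
    rw [Real.sqrt_mul (by norm_num), show (9:ℝ) = 3 ^ 2 by norm_num,
      Real.sqrt_sq (by norm_num)] at h1
    exact h1
  have hker := hN0 N ((le_max_left _ _).trans hN) (m + 1) hm t rfl ht3 J
    ((mul_le_mul_of_nonneg_left ht1 hJ0).trans hJ) x z (fun i => by
      refine (hz i).trans ?_
      push_cast
      linarith)
  rw [← hyz] at hker
  refine le_trans ?_ hker
  have h27 : (27:ℝ) ^ e = (3 ^ e) ^ 3 := by
    rw [← pow_mul, mul_comm, pow_mul]; norm_num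
  have h1 : √t ≤ 3 * s * 3 ^ e := by
    have a1 : √t ≤ √((s : ℝ) ^ 2 * β) := by
      refine Real.sqrt_le_sqrt (ht1.trans ?_)
      nlinarith
    have a2 : √((s : ℝ) ^ 2 * β) = s * √β := by
      rw [Real.sqrt_mul (by positivity), Real.sqrt_sq (by linarith)]
    rw [a2] at a1
    calc √t ≤ s * √β := a1
      _ ≤ s * (3 * 3 ^ e) := mul_le_mul_of_nonneg_left he2 (by linarith)
      _ = _ := by ring
  have h2 : Ker.cK 18 / (3 * s * 3 ^ e) ≤ Ker.cK 18 / √t :=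
    div_le_div_of_nonneg_left hcK.le hsq h1
  have h3 := pow_le_pow_left₀ (by positivity) h2 3
  calc Ker.cK 18 ^ 3 / (108 * s ^ 3 * 27 ^ e) = (Ker.cK 18 / (3 * s * 3 ^ e)) ^ 3 / 4 := by
        rw [h27, div_pow, mul_pow, mul_pow]; field_simp; norm_num
    _ ≤ _ := by linarith

theorem ccgeS_of {s : ℕ} (hs : 0 < s) (hL : LongTr s) : CCgeS s := by
  have hs1 : (1:ℝ) ≤ s := by exact_mod_cast hs
  have hs0 : (0:ℝ) < s := by linarith
  have hcK : 0 < Ker.cK 18 := Ker.cK_pos 18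
  have hcJ := Ind3.cJ_nonneg
  -- `a_l ≤ X β`
  set X : ℝ := 3 * s ^ 2 + s * (1 + 6 * s) * (Ker.cJ 18 * (s / 2) + 1) with hX
  have hXp : 0 < X := by positivity
  refine ⟨Real.exp (-2) * Ker.cK 18 ^ 3 / (864 * s ^ 4), s * X, ?_, by positivity, ?_⟩
  · have := Real.exp_pos (-2)
    positivity
  intro n M _ β hn hβ
  obtain ⟨N0, hN01, hN0⟩ := walkS_ge (n := n) hs hβ
  refine ⟨max N0 ⌈β⌉₊, le_max_of_le_left hN01, ?_⟩
  intro N W hN hNW θ hθ hθ2 hcopy k m e hk hWm he1 he2 δ hδ hδ2 p x y i j hx hy hXX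
  have hN1 : 1 ≤ N := hN01.trans ((le_max_left _ _).trans hN)
  have hNβ : β ≤ N := by
    have : ⌈β⌉₊ ≤ N := (le_max_right _ _).trans hN
    exact (Nat.le_ceil β).trans (by exact_mod_cast this)
  have hβ0 : 0 < β := by linarith
  have hNp : (0:ℝ) < N := by linarith
  have hN1r : (1:ℝ) ≤ N := by exact_mod_cast hN1
  set J : ℕ := ⌈Ker.cJ 18 * (s * (β / 2))⌉₊ with hJ
  have hJ1 : Ker.cJ 18 * (s * (β / 2)) ≤ J := Nat.le_ceil _
  have hJ2 : (J:ℝ) ≤ Ker.cJ 18 * (s * (β / 2)) + 1 := (Nat.ceil_lt_add_one (by positivity)).le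
  have hwalk := hN0 N W ((le_max_left _ _).trans hN) hNW m e (by omega) hWm he1 he2 J hJ1
    p x y hx hy
  have hτ1 : 1 / (2 * (N:ℝ)) ≤ 1 := by
    rw [div_le_one (by positivity)]
    linarith
  have htr := hL n M β N hn hβ0.le hNβ (by omega) θ hθ hcopy (1 / (2 * N)) (by positivity) hτ1
    hθ2 k m hk δ hδ x y i j hXX J
  have hcc := cc_of_trace_phys (edgesS n s M) hβ0.le hNβ (by omega) hθ hk (x, i) (y, j) _ htr
  refine le_trans ?_ hcc
  have hp0 : 0 ≤ β / (2 * N) := by positivity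
  have hp1 : β / (2 * N) ≤ 1 / 2 := by
    rw [div_le_div_iff₀ (by positivity) (by norm_num)]; linarith
  set c0 : ℝ := (1 - β / (2 * N)) ^ (6 * s) with hc0
  set c1 : ℝ := s * (β / (2 * N)) * (1 - β / (2 * N)) ^ (12 * s) with hc1
  have hc0n : 0 ≤ c0 := pow_nonneg (by linarith) _
  have hc1n : 0 ≤ c1 := mul_nonneg (by positivity) (pow_nonneg (by linarith) _)
  set S := ∑ l ∈ Ico 1 J, qS c0 c1 x (m + 1) y l with hS
  have hhalf : S / (2 * s) ≤ ∑ l ∈ Ico 1 J, qS c0 c1 x (m + 1) y l *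
      (1 / s - δ * ((m + 1) * s * (β / (2 * N)) * (6 * s) +
        s * (1 + 2 * (β / (2 * N)) * (6 * s)) * l)) := by
    rw [hS, Finset.sum_div]
    refine Finset.sum_le_sum fun l hl => ?_
    rw [div_eq_mul_inv]
    refine mul_le_mul_of_nonneg_left ?_ (qS_nonneg hc0n hc1n x _ y l)
    have hl' : (l:ℝ) ≤ J := by exact_mod_cast (Finset.mem_Ico.1 hl).2.le
    have hm1 : ((m:ℝ) + 1) ≤ N := by exact_mod_cast (by omega : m + 1 ≤ N)
    have h1 : (m + 1) * s * (β / (2 * N)) * (6 * s) ≤ 3 * (s:ℝ) ^ 2 * β := by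
      calc ((m:ℝ) + 1) * s * (β / (2 * N)) * (6 * s) ≤ N * s * (β / (2 * N)) * (6 * s) := by
            gcongr
        _ = 3 * (s:ℝ) ^ 2 * β := by field_simp; norm_num
    have h2 : 2 * (β / (2 * N)) * (6 * (s:ℝ)) ≤ 6 * s := by
      nlinarith
    have h3 : (l:ℝ) ≤ (Ker.cJ 18 * (s / 2) + 1) * β := by
      refine (hl'.trans hJ2).trans ?_
      nlinarith
    have h4 : s * (1 + 2 * (β / (2 * N)) * (6 * s)) * l ≤
        s * (1 + 6 * s) * ((Ker.cJ 18 * (s / 2) + 1) * β) := by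
      refine mul_le_mul ?_ h3 (Nat.cast_nonneg _) (by positivity)
      exact mul_le_mul_of_nonneg_left (by linarith) hs0.le
    have h5 : (m + 1) * s * (β / (2 * N)) * (6 * s) +
        s * (1 + 2 * (β / (2 * N)) * (6 * s)) * l ≤ X * β := by
      rw [hX]
      linarith
    have h6 := mul_le_mul_of_nonneg_left h5 hδ
    have h7 : δ * (X * β) ≤ 1 / (2 * s) := by
      rw [le_div_iff₀ (by positivity)]
      have : δ * (X * β) * (2 * s) = 2 * (δ * (s * X * β)) := by ring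
      rw [this]; linarith
    have h8 : (1:ℝ) / s = 1 / (2 * s) + 1 / (2 * s) := by field_simp; norm_num
    rw [← one_div, h8]
    linarith
  have hloss := Ind3.loss_ge (N := N) (m := m) hN1 (by omega)
  have hθθ : 0 ≤ θ (Fin.ofNat (N + 1) (k + m + 1), (x, i)) * θ (Fin.ofNat (N + 1) k, (y, j)) :=
    mul_nonneg (hθ _).1 (hθ _).1
  have hS1 : Ker.cK 18 ^ 3 / (216 * s ^ 4 * 27 ^ e) ≤ ∑ l ∈ Ico 1 J, qS c0 c1 x (m + 1) y l *
      (1 / s - δ * ((m + 1) * s * (β / (2 * N)) * (6 * s) +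
        s * (1 + 2 * (β / (2 * N)) * (6 * s)) * l)) := by
    refine le_trans ?_ hhalf
    calc Ker.cK 18 ^ 3 / (216 * s ^ 4 * 27 ^ e) =
          Ker.cK 18 ^ 3 / (108 * s ^ 3 * 27 ^ e) / (2 * s) := by field_simp; norm_num
      _ ≤ S / (2 * s) := div_le_div_of_nonneg_right hwalk (by positivity)
  have h6 : Real.exp (-2) * Ker.cK 18 ^ 3 / (864 * s ^ 4) / 27 ^ e ≤
      ((1 - 1 / (2 * (N:ℝ))) / (1 + 1 / (2 * (N:ℝ)))) ^ m * (∑ l ∈ Ico 1 J,
      qS c0 c1 x (m + 1) y l * (1 / s - δ * ((m + 1) * s * (β / (2 * N)) * (6 * s) +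
        s * (1 + 2 * (β / (2 * N)) * (6 * s)) * l))) / 4 := by
    have e1 : Real.exp (-2) * Ker.cK 18 ^ 3 / (864 * s ^ 4) / 27 ^ e =
        Real.exp (-2) * (Ker.cK 18 ^ 3 / (216 * s ^ 4 * 27 ^ e)) / 4 := by
      field_simp
      norm_num
    rw [e1]
    refine div_le_div_of_nonneg_right ?_ (by norm_num)
    exact mul_le_mul hloss hS1 (by positivity) ((Real.exp_pos _).le.trans hloss)
  have h7 := mul_le_mul_of_nonneg_right h6 hθθ
  refine h7.trans (le_of_eq ?_)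
  ring

end

end Vale.Agent.P361.LRO.S3S
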