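import Vale.Agent.P361.LRO.Bloch.Kernel4

/-!
# P361, stage 3, all spins: the lumped walk on the torus and its lower bound
-/

namespace Vale.Agent.P361.LRO.S3S.KerS

open Finset NormedSpace Vale.Agent.P361.LRO.Bloch Vale.Agent.P361.LRO.Bloch.Ker

noncomputable section

variable {n : ℕ}

/-- sum over the six neighbours -/
def nb (f : Tor n → ℝ) (y : Tor n) : ℝ :=
  ∑ i : Fin 3, (f (y + Pi.single i 1) + f (y - Pi.single i 1))

theorem nb_mono {f g : Tor n → ℝ} (h : ∀ y, f y ≤ g y) (y : Tor n) : nb f y ≤ nb g y :=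
  Finset.sum_le_sum fun _ _ => add_le_add (h _) (h _)

theorem nb_zero (y : Tor n) : nb (fun _ => 0) y = 0 := by simp [nb]

theorem nb_nonneg {f : Tor n → ℝ} (h : ∀ y, 0 ≤ f y) (y : Tor n) : 0 ≤ nb f y :=
  Finset.sum_nonneg fun _ _ => add_nonneg (h _) (h _)

theorem nb_smul (c : ℝ) (f : Tor n → ℝ) (y : Tor n) : nb (fun v => c * f v) y = c * nb f y := by
  simp only [nb, ← mul_add, ← Finset.mul_sum]

theorem nb_sub (f g : Tor n → ℝ) (y : Tor n) : nb (fun v => f v - g v) y = nb f y - nb g y := by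
  simp only [nb, ← Finset.sum_sub_distrib]
  exact Finset.sum_congr rfl fun i _ => by ring

theorem nb_sum {ι : Type*} (s : Finset ι) (f : ι → Tor n → ℝ) (y : Tor n) :
    nb (fun v => ∑ j ∈ s, f j v) y = ∑ j ∈ s, nb (f j) y := by
  simp only [nb]
  rw [Finset.sum_comm]
  exact Finset.sum_congr rfl fun i _ => by rw [Finset.sum_add_distrib]

/-- The lumped walk: stay weight `c0`, move weight `c1` to each neighbour; `j` counts the moves. -/
def qS (c0 c1 : ℝ) (x0 : Tor n) : ℕ → Tor n → ℕ → ℝ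
  | 0 => q0 x0
  | k + 1 => fun y j => c0 * qS c0 c1 x0 k y j +
      c1 * (if j = 0 then 0 else nb (fun v => qS c0 c1 x0 k v (j - 1)) y)

theorem qS_nonneg {c0 c1 : ℝ} (h0 : 0 ≤ c0) (h1 : 0 ≤ c1) (x0 : Tor n) (k : ℕ) (y : Tor n)
    (j : ℕ) : 0 ≤ qS c0 c1 x0 k y j := by
  induction k generalizing y j with
  | zero => simp only [qS, q0]; split_ifs <;> norm_num
  | succ k ih =>
    simp only [qS]
    refine add_nonneg (mul_nonneg h0 (ih y j)) (mul_nonneg h1 ?_)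
    split_ifs
    · exact le_rfl
    · exact nb_nonneg (fun v => ih v _) y

theorem qS_mono {c0 c1 d0 d1 : ℝ} (h0 : 0 ≤ c0) (h1 : 0 ≤ c1) (h2 : c0 ≤ d0) (h3 : c1 ≤ d1)
    (x0 : Tor n) (k : ℕ) (y : Tor n) (j : ℕ) : qS c0 c1 x0 k y j ≤ qS d0 d1 x0 k y j := by
  induction k generalizing y j with
  | zero => exact le_rfl
  | succ k ih =>
    simp only [qS]
    refine add_le_add (mul_le_mul h2 (ih y j) (qS_nonneg h0 h1 _ _ _ _) (h0.trans h2)) ?_
    split_ifs
    · simp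
    · exact mul_le_mul h3 (nb_mono (fun v => ih v _) y) (nb_nonneg (fun v => qS_nonneg h0 h1 _ _ _ _) y)
        (h1.trans h3)

theorem qS_mul (r c0 c1 : ℝ) (x0 : Tor n) (k : ℕ) (y : Tor n) (j : ℕ) :
    qS (r * c0) (r * c1) x0 k y j = r ^ k * qS c0 c1 x0 k y j := by
  induction k generalizing y j with
  | zero => simp [qS]
  | succ k ih =>
    simp only [qS]
    have e : (fun v => qS (r * c0) (r * c1) x0 k v (j - 1)) =
        fun v => r ^ k * qS c0 c1 x0 k v (j - 1) := funext fun v => ih v _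
    rw [ih, e, nb_smul]
    split_ifs <;> ring

/-- truncation invariant -/
def Inv (q : Tor n → ℕ → ℝ) (Q1 Q2 : Tor n → ℝ) : Prop :=
  (∀ y, 0 ≤ Q1 y) ∧ (∀ y, Q1 y ≤ Q2 y) ∧
    ∀ y J, Q1 y - (1 / 2) ^ J * Q2 y ≤ ∑ j ∈ range J, q y j

theorem Inv.step {q : Tor n → ℕ → ℝ} {Q1 Q2 : Tor n → ℝ} (h : Inv q Q1 Q2) {c0 c1 : ℝ}
    (h0 : 0 ≤ c0) (h1 : 0 ≤ c1) :
    Inv (fun y j => c0 * q y j + c1 * (if j = 0 then 0 else nb (fun v => q v (j - 1)) y))
      (fun y => c0 * Q1 y + c1 * nb Q1 y) (fun y => c0 * Q2 y + 2 * c1 * nb Q2 y) := by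
  obtain ⟨i1, i2, i3⟩ := h
  have hle : ∀ y, c0 * Q1 y + c1 * nb Q1 y ≤ c0 * Q2 y + 2 * c1 * nb Q2 y := by
    intro y
    have a1 := mul_le_mul_of_nonneg_left (i2 y) h0
    have a2 := mul_le_mul_of_nonneg_left (nb_mono i2 y) h1
    have a3 : 0 ≤ c1 * nb Q2 y := mul_nonneg h1 (nb_nonneg (fun v => (i1 v).trans (i2 v)) y)
    linarith
  refine ⟨fun y => add_nonneg (mul_nonneg h0 (i1 y)) (mul_nonneg h1 (nb_nonneg i1 y)), hle, ?_⟩
  intro y J
  cases J with
  | zero =>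
    simp only [pow_zero, one_mul, Finset.range_zero, Finset.sum_empty]
    linarith [hle y]
  | succ J =>
    have e1 : ∑ j ∈ range (J + 1), (c0 * q y j +
        c1 * (if j = 0 then 0 else nb (fun v => q v (j - 1)) y)) =
        c0 * ∑ j ∈ range (J + 1), q y j + c1 * nb (fun v => ∑ j ∈ range J, q v j) y := by
      rw [Finset.sum_add_distrib, ← Finset.mul_sum, ← Finset.mul_sum, nb_sum]
      congr 2
      rw [Finset.sum_range_succ']
      simp
    rw [e1]
    have a1 := mul_le_mul_of_nonneg_left (i3 y (J + 1)) h0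
    have a2 : nb (fun v => Q1 v - (1 / 2) ^ J * Q2 v) y ≤ nb (fun v => ∑ j ∈ range J, q v j) y :=
      nb_mono (fun v => i3 v J) y
    have a3 := mul_le_mul_of_nonneg_left a2 h1
    rw [nb_sub, nb_smul] at a3
    rw [pow_succ] at a1 ⊢
    nlinarith

/-- The neighbour matrix. -/
def Bm (n : ℕ) : Matrix (Tor n) (Tor n) ℝ :=
  ∑ i : Fin 3, (Sh (Pi.single i 1) + Sh (-Pi.single i 1))

/-- One layer. -/
def Mm (n : ℕ) (c0 c1 : ℝ) : Matrix (Tor n) (Tor n) ℝ := c0 • 1 + c1 • Bm n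

theorem sum_mul_Sh [NeZero n] (f : Tor n → ℝ) (v y : Tor n) :
    ∑ x, f x * (Sh v : Matrix (Tor n) (Tor n) ℝ) x y = f (y - v) := by
  rw [Finset.sum_eq_single (y - v)]
  · simp [Sh]
  · intro x _ hx
    have : ¬ y = x + v := fun h => hx (by rw [h]; abel)
    simp [Sh, this]
  · intro h
    exact absurd (mem_univ _) h

theorem sum_mul_Bm [NeZero n] (f : Tor n → ℝ) (y : Tor n) : ∑ x, f x * Bm n x y = nb f y := by
  have h1 : ∀ x, f x * Bm n x y = ∑ i : Fin 3, (f x * (Sh (Pi.single i 1) : Matrix (Tor n) (Tor n) ℝ) x y +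
      f x * (Sh (-Pi.single i 1) : Matrix (Tor n) (Tor n) ℝ) x y) := by
    intro x
    rw [Bm, Matrix.sum_apply, Finset.mul_sum]
    exact Finset.sum_congr rfl fun i _ => by rw [Matrix.add_apply]; ring
  simp only [h1]
  rw [Finset.sum_comm]
  unfold nb
  refine Finset.sum_congr rfl fun i _ => ?_
  rw [Finset.sum_add_distrib, sum_mul_Sh, sum_mul_Sh, sub_neg_eq_add]
  ring

theorem sum_mul_Mm [NeZero n] (f : Tor n → ℝ) (c0 c1 : ℝ) (y : Tor n) :
    ∑ x, f x * Mm n c0 c1 x y = c0 * f y + c1 * nb f y := by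
  have h1 : ∀ x, f x * Mm n c0 c1 x y = c0 * (f x * (1 : Matrix (Tor n) (Tor n) ℝ) x y) +
      c1 * (f x * Bm n x y) := by
    intro x
    simp only [Mm, Matrix.add_apply, Matrix.smul_apply, smul_eq_mul]
    ring
  simp only [h1]
  rw [Finset.sum_add_distrib, ← Finset.mul_sum, ← Finset.mul_sum, sum_mul_Bm]
  congr 2
  rw [Finset.sum_eq_single y]
  · simp
  · intro x _ hx
    simp [hx]
  · intro h
    exact absurd (mem_univ _) h

theorem inv_qS [NeZero n] {c0 c1 : ℝ} (h0 : 0 ≤ c0) (h1 : 0 ≤ c1) (x0 : Tor n) (k : ℕ) :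
    Inv (qS c0 c1 x0 k) (fun y => (Mm n c0 c1 ^ k) x0 y) (fun y => (Mm n c0 (2 * c1) ^ k) x0 y) := by
  induction k with
  | zero =>
    refine ⟨fun y => ?_, fun y => ?_, fun y J => ?_⟩
    · simp only [pow_zero, Matrix.one_apply]
      split_ifs <;> norm_num
    · simp
    · simp only [pow_zero, Matrix.one_apply, qS, q0]
      cases J with
      | zero => simp
      | succ J =>
        by_cases h : x0 = y
        · subst h
          have e : ∑ j ∈ range (J + 1), (if x0 = x0 ∧ j = 0 then (1 : ℝ) else 0) = 1 := by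
            rw [Finset.sum_range_succ']
            simp
          rw [e]
          simp only [if_true]
          have : (0 : ℝ) ≤ (1 / 2) ^ (J + 1) := by positivity
          linarith
        · have h' : ¬ y = x0 := fun h'' => h h''.symm
          simp [h, h']
  | succ k ih =>
    have h := ih.step h0 h1
    have e1 : (fun y => (Mm n c0 c1 ^ (k + 1)) x0 y) =
        fun y => c0 * (Mm n c0 c1 ^ k) x0 y + c1 * nb (fun y => (Mm n c0 c1 ^ k) x0 y) y := by
      funext y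
      rw [pow_succ, Matrix.mul_apply, sum_mul_Mm (fun v => (Mm n c0 c1 ^ k) x0 v)]
    have e2 : (fun y => (Mm n c0 (2 * c1) ^ (k + 1)) x0 y) =
        fun y => c0 * (Mm n c0 (2 * c1) ^ k) x0 y +
          2 * c1 * nb (fun y => (Mm n c0 (2 * c1) ^ k) x0 y) y := by
      funext y
      rw [pow_succ, Matrix.mul_apply, sum_mul_Mm (fun v => (Mm n c0 (2 * c1) ^ k) x0 v)]
    rw [e1, e2]
    exact h

theorem one_sub_pow_le {p : ℝ} (h0 : 0 ≤ p) (h1 : p ≤ 1) (k : ℕ) :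
    (1 - p) ^ k ≤ 1 - k * p + (k * p) ^ 2 := by
  induction k with
  | zero => simp
  | succ k ih =>
    rw [pow_succ]
    have h2 : 0 ≤ 1 - p := by linarith
    have h3 := mul_le_mul_of_nonneg_right ih h2
    push_cast
    have hk : (0 : ℝ) ≤ k := Nat.cast_nonneg k
    have h4 : 0 ≤ (k * p) ^ 2 * p := by positivity
    have h5 : 0 ≤ (k : ℝ) * p ^ 2 := by positivity
    nlinarith

section Norm

open scoped Matrix.Norms.Operator

theorem norm_Bm [NeZero n] : ‖Bm n‖ ≤ 6 := by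
  unfold Bm
  refine (norm_sum_le _ _).trans ?_
  refine (sum_le_sum fun i _ => (norm_add_le _ _).trans
    (add_le_add (norm_Sh_le _) (norm_Sh_le _))).trans ?_
  rw [sum_const, card_univ, Fintype.card_fin]
  norm_num

theorem Lap_eq [NeZero n] : Lap n = Bm n - (6 : ℝ) • 1 := by
  rw [Lap, sum_sub_distrib, Bm, sum_const, card_univ, Fintype.card_fin,
    ← Nat.cast_smul_eq_nsmul ℝ, smul_smul]
  norm_num

/-- Discretization error, `a = 1, 2`. -/
theorem disc_err [NeZero n] {a : ℝ} (ha : 0 ≤ a) (ha2 : a ≤ 2) {s : ℕ} {p : ℝ} (h0 : 0 ≤ p) (h1 : p ≤ 1)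
    (m : ℕ) (x y : Tor n) :
    |(Mm n ((1 - p) ^ (6 * s)) (a * (s * p * (1 - p) ^ (12 * s))) ^ m) x y -
      exp ((m * p : ℝ) • ((a * s) • Bm n - (6 * s : ℝ) • 1)) x y| ≤
      180 * m * (s * p) ^ 2 * Real.exp (18 * s * p) ^ m +
      2 * m * (p * (18 * s)) ^ 2 * Real.exp ((m + 1) * (p * (18 * s))) := by
  set G : Matrix (Tor n) (Tor n) ℝ := (a * s) • Bm n - (6 * s : ℝ) • 1 with hG
  set M : Matrix (Tor n) (Tor n) ℝ :=
    Mm n ((1 - p) ^ (6 * s)) (a * (s * p * (1 - p) ^ (12 * s))) with hM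
  have hs0 : (0 : ℝ) ≤ s := Nat.cast_nonneg s
  have hone : ‖(1 : Matrix (Tor n) (Tor n) ℝ)‖ ≤ 1 := norm_one_le
  have hB := norm_Bm (n := n)
  have hGn : ‖G‖ ≤ 18 * s := by
    rw [hG]
    refine (norm_sub_le _ _).trans ?_
    rw [norm_smul, norm_smul, Real.norm_of_nonneg (by positivity),
      Real.norm_of_nonneg (by positivity)]
    nlinarith [mul_le_mul_of_nonneg_left hB (mul_nonneg ha hs0),
      mul_le_mul_of_nonneg_left hone (by positivity : (0 : ℝ) ≤ 6 * s),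
      mul_le_mul_of_nonneg_right ha2 hs0]
  have hp6 : 0 ≤ (1 - p) ^ (6 * s) := pow_nonneg (by linarith) _
  have hp6' : (1 - p) ^ (6 * s) ≤ 1 := pow_le_one₀ (by linarith) (by linarith)
  have hp12 : 0 ≤ (1 - p) ^ (12 * s) := pow_nonneg (by linarith) _
  have hp12' : (1 - p) ^ (12 * s) ≤ 1 := pow_le_one₀ (by linarith) (by linarith)
  have hb6 := one_add_mul_le_pow (a := -p) (by linarith) (6 * s)
  have hb12 := one_add_mul_le_pow (a := -p) (by linarith) (12 * s)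
  rw [← sub_eq_add_neg] at hb6 hb12
  push_cast at hb6 hb12
  have hu6 := one_sub_pow_le h0 h1 (6 * s)
  push_cast at hu6
  -- difference of one layer
  have hdiff : ‖M - (1 + p • G)‖ ≤ 180 * (s * p) ^ 2 := by
    have e : M - (1 + p • G) = ((1 - p) ^ (6 * s) - 1 + 6 * s * p) • 1 +
        (-(a * (s * p * (1 - (1 - p) ^ (12 * s))))) • Bm n := by
      rw [hM, hG, Mm]
      module
    rw [e]
    refine (norm_add_le _ _).trans ?_
    rw [norm_smul, norm_smul, norm_neg]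
    have c1 : ‖(1 - p) ^ (6 * s) - 1 + 6 * s * p‖ ≤ 36 * (s * p) ^ 2 := by
      rw [Real.norm_eq_abs, abs_le]
      constructor
      · have : 0 ≤ 36 * (s * p) ^ 2 := by positivity
        linarith
      · nlinarith
    have c2 : ‖a * (s * p * (1 - (1 - p) ^ (12 * s)))‖ ≤ 24 * (s * p) ^ 2 := by
      have d1 : 0 ≤ 1 - (1 - p) ^ (12 * s) := by linarith
      have d2 : 1 - (1 - p) ^ (12 * s) ≤ 12 * (s * p) := by linarith
      have d3 : 0 ≤ s * p := mul_nonneg hs0 h0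
      rw [Real.norm_of_nonneg (by positivity)]
      calc a * (s * p * (1 - (1 - p) ^ (12 * s))) ≤ 2 * (s * p * (12 * (s * p))) := by gcongr
        _ = _ := by ring
    have c3 : 0 ≤ ‖(1 - p) ^ (6 * s) - 1 + 6 * s * p‖ := norm_nonneg _
    have c4 : 0 ≤ ‖a * (s * p * (1 - (1 - p) ^ (12 * s)))‖ := norm_nonneg _
    nlinarith [mul_le_mul_of_nonneg_left hone c3, mul_le_mul_of_nonneg_left hB c4]
  have hexp1 : 1 ≤ Real.exp (18 * s * p) := Real.one_le_exp (by positivity)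
  have hMn : ‖M‖ ≤ Real.exp (18 * s * p) := by
    have : ‖M‖ ≤ 1 + 12 * s * p := by
      rw [hM, Mm]
      refine (norm_add_le _ _).trans ?_
      rw [norm_smul, norm_smul, Real.norm_of_nonneg hp6, Real.norm_of_nonneg (by positivity)]
      have c1 : (1 - p) ^ (6 * s) * ‖(1 : Matrix (Tor n) (Tor n) ℝ)‖ ≤ 1 * 1 := by gcongr
      have c2 : a * (s * p * (1 - p) ^ (12 * s)) * ‖Bm n‖ ≤ 2 * (s * p * 1) * 6 := by gcongr
      linarith
    have h3 := Real.add_one_le_exp (18 * s * p)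
    have : 0 ≤ (s : ℝ) * p := mul_nonneg hs0 h0
    nlinarith
  have hTn : ‖1 + p • G‖ ≤ Real.exp (18 * s * p) := by
    refine (norm_add_le _ _).trans ?_
    rw [norm_smul, Real.norm_of_nonneg h0]
    have h3 := Real.add_one_le_exp (18 * s * p)
    have := mul_le_mul_of_nonneg_left hGn h0
    linarith
  have hpow := Trot.norm_pow_sub_pow_le hexp1 hMn hTn m hone
  have hdisc := Disc.disc_bound hone [G] h0 (c := 18 * s) (by simpa using hGn) m
  simp only [List.map_cons, List.map_nil, List.prod_cons, List.prod_nil, mul_one, List.sum_cons,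
    List.sum_nil, add_zero] at hdisc
  have h5 := entry_le_norm (M ^ m - exp ((m * p : ℝ) • G)) x y
  rw [Matrix.sub_apply] at h5
  refine h5.trans ?_
  have e : M ^ m - exp ((m * p : ℝ) • G) =
      (M ^ m - (1 + p • G) ^ m) + ((1 + p • G) ^ m - exp ((m * p : ℝ) • G)) := by abel
  rw [e]
  refine (norm_add_le _ _).trans (add_le_add (hpow.trans ?_) hdisc)
  have h6 : (m : ℝ) * Real.exp (18 * s * p) ^ m * ‖M - (1 + p • G)‖ ≤
      m * Real.exp (18 * s * p) ^ m * (180 * (s * p) ^ 2) := by gcongr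
  refine h6.trans (le_of_eq ?_)
  ring

end Norm

/-- Lower bound for the lumped walk, in terms of the heat kernel. -/
theorem qS_lowerE {A : ℝ} (hA : 0 ≤ A) {n : ℕ} [NeZero n] {s : ℕ} (hs1 : 1 ≤ s) {β : ℝ}
    (hβ : 0 < β) :
    ∃ N0 : ℕ, ∀ N : ℕ, N0 ≤ N → β ≤ N ∧ ∀ m ≤ N, ∀ t : ℝ, t = s * (m * (β / (2 * N))) → 1 ≤ t →
      ∀ J : ℕ, cJ A * t ≤ J → ∀ (x : Tor n) (z : Fin 3 → ℤ), (∀ i, |(z i : ℝ)| ≤ A * √t) →
      exp (t • Lap n) x (x + fun i => (z i : ZMod n)) - (cK A / √t) ^ 3 / 2 ≤ ∑ j ∈ range J,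
        qS ((1 - β / (2 * N)) ^ (6 * s)) (s * (β / (2 * N)) * (1 - β / (2 * N)) ^ (12 * s)) x m
          (x + fun i => (z i : ZMod n)) j := by
  have hs0 : (1 : ℝ) ≤ s := by exact_mod_cast hs1
  have hcA := cK_pos A
  set K : ℝ := (180 + 648) * (s * β) ^ 2 * Real.exp (18 * s * β) with hK
  have hK0 : 0 ≤ K := by positivity
  set T0 : ℝ := (cK A / √(s * β / 2)) ^ 3 with hT0
  have hT0p : 0 < T0 := by
    have : 0 < √(s * β / 2) := Real.sqrt_pos.2 (by positivity)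
    positivity
  refine ⟨max 1 (max ⌈β⌉₊ ⌈8 * K / T0⌉₊), fun N hN => ?_⟩
  have hN1 : 1 ≤ N := (le_max_left _ _).trans hN
  have hNβ : β ≤ N := (Nat.le_ceil β).trans
    (by exact_mod_cast ((le_max_left _ _).trans (le_max_right _ _)).trans hN)
  refine ⟨hNβ, fun m hm t ht ht1 J hJ x z hz => ?_⟩
  have hNK : 8 * K / T0 ≤ N := (Nat.le_ceil _).trans
    (by exact_mod_cast ((le_max_right _ _).trans (le_max_right _ _)).trans hN)
  have hN0 : (0 : ℝ) < N := by exact_mod_cast hN1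
  have hN1' : (1 : ℝ) ≤ N := by exact_mod_cast hN1
  set p : ℝ := β / (2 * N) with hp
  have hp0 : 0 ≤ p := by positivity
  have hp1 : p ≤ 1 := by
    rw [hp, div_le_one (by positivity)]
    linarith
  have hmN : (m : ℝ) ≤ N := by exact_mod_cast hm
  have hm0 : (0 : ℝ) ≤ m := Nat.cast_nonneg m
  have hmp : (m : ℝ) * p ≤ β / 2 := by
    rw [hp, ← mul_div_assoc, div_le_iff₀ (by positivity)]
    nlinarith
  have hm1p : ((m : ℝ) + 1) * p ≤ β := by
    rw [hp, ← mul_div_assoc, div_le_iff₀ (by positivity)]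
    nlinarith
  have htβ : t ≤ s * β / 2 := by
    rw [ht]
    nlinarith [mul_le_mul_of_nonneg_left hmp (by linarith : (0 : ℝ) ≤ s)]
  have ht0 : 0 < t := by linarith
  set y : Tor n := x + fun i => (z i : ZMod n) with hy
  set T : ℝ := (cK A / √t) ^ 3 with hT
  have hTT : T0 ≤ T := by
    rw [hT0, hT]
    have h1 : 0 < √t := Real.sqrt_pos.2 ht0
    have h2 : √t ≤ √(s * β / 2) := Real.sqrt_le_sqrt htβ
    gcongr
  have hc0 : 0 ≤ (1 - p) ^ (6 * s) := pow_nonneg (by linarith) _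
  have hc1 : 0 ≤ s * p * (1 - p) ^ (12 * s) :=
    mul_nonneg (mul_nonneg (by linarith) hp0) (pow_nonneg (by linarith) _)
  -- the error of the discretization
  have herr : ∀ a : ℝ, 0 ≤ a → a ≤ 2 →
      |(Mm n ((1 - p) ^ (6 * s)) (a * (s * p * (1 - p) ^ (12 * s))) ^ m) x y -
        exp ((m * p : ℝ) • ((a * s) • Bm n - (6 * s : ℝ) • 1)) x y| ≤ T / 8 := by
    intro a ha ha2
    refine (disc_err ha ha2 hp0 hp1 m x y).trans ?_
    have e1 : Real.exp (18 * s * p) ^ m ≤ Real.exp (18 * s * β) := by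
      rw [← Real.exp_nat_mul]
      refine Real.exp_le_exp.2 ?_
      have : (m : ℝ) * p ≤ β := by linarith
      calc (m : ℝ) * (18 * s * p) = 18 * s * (m * p) := by ring
        _ ≤ 18 * s * β := by gcongr
    have e2 : Real.exp ((m + 1) * (p * (18 * s))) ≤ Real.exp (18 * s * β) := by
      refine Real.exp_le_exp.2 ?_
      calc ((m : ℝ) + 1) * (p * (18 * s)) = 18 * s * ((m + 1) * p) := by ring
        _ ≤ 18 * s * β := by gcongr
    have e3 : (m : ℝ) * (s * p) ^ 2 ≤ (s * β) ^ 2 / N := by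
      have b0 : (m : ℝ) * p ≤ β := by linarith
      have b1 : p ≤ β / N := by
        rw [hp]
        gcongr
        linarith
      calc (m : ℝ) * (s * p) ^ 2 = s ^ 2 * ((m * p) * p) := by ring
        _ ≤ s ^ 2 * (β * (β / N)) := by gcongr
        _ = _ := by ring
    calc 180 * (m : ℝ) * (s * p) ^ 2 * Real.exp (18 * s * p) ^ m +
          2 * m * (p * (18 * s)) ^ 2 * Real.exp ((m + 1) * (p * (18 * s)))
        = 180 * (m * (s * p) ^ 2) * Real.exp (18 * s * p) ^ m +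
          648 * (m * (s * p) ^ 2) * Real.exp ((m + 1) * (p * (18 * s))) := by ring
      _ ≤ 180 * ((s * β) ^ 2 / N) * Real.exp (18 * s * β) +
          648 * ((s * β) ^ 2 / N) * Real.exp (18 * s * β) := by gcongr
      _ = K / N := by rw [hK]; ring
      _ ≤ T0 / 8 := by
          rw [div_le_iff₀ hN0]
          rw [div_le_iff₀ hT0p] at hNK
          linarith
      _ ≤ T / 8 := by linarith
  have h1 := abs_le.1 (herr 1 (by norm_num) (by norm_num))
  have h2 := abs_le.1 (herr 2 (by norm_num) le_rfl)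
  have g1 : (m * p : ℝ) • ((1 * s : ℝ) • Bm n - (6 * s : ℝ) • (1 : Matrix (Tor n) (Tor n) ℝ)) =
      t • Lap n := by
    rw [Lap_eq, ht]
    module
  have g2 : (m * p : ℝ) • ((2 * s : ℝ) • Bm n - (6 * s : ℝ) • (1 : Matrix (Tor n) (Tor n) ℝ)) =
      t • ((2 : ℝ) • Lap n + (6 : ℝ) • 1) := by
    rw [Lap_eq, ht]
    module
  rw [g1, one_mul] at h1
  rw [g2] at h2
  have h3 := Lap_lower hA ht1 hz x
  have h4 := exp_two_le (n := n) ht0.le x y
  have h5 := half_pow_le ht1 hJ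
  have hInv := inv_qS (n := n) hc0 hc1 x m
  have h6 := hInv.2.2 y J
  simp only at h6
  refine le_trans ?_ h6
  have h7 : (1 / 2 : ℝ) ^ J * (Mm n ((1 - p) ^ (6 * s)) (2 * (s * p * (1 - p) ^ (12 * s))) ^ m) x y ≤
      (1 / 2 : ℝ) ^ J * (Real.exp (6 * t) + T / 8) :=
    mul_le_mul_of_nonneg_left (by linarith [h2.2]) (by positivity)
  have h8 : (1 / 2 : ℝ) ^ J * (T / 8) ≤ T / 8 := by
    have a1 : (1 / 2 : ℝ) ^ J ≤ 1 := pow_le_one₀ (by norm_num) (by norm_num)
    have a2 : 0 ≤ T / 8 := by linarith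
    nlinarith
  linarith [h1.1]

/-- **Lower bound for the lumped walk.** -/
theorem qS_lower {A : ℝ} (hA : 0 ≤ A) {n : ℕ} [NeZero n] {s : ℕ} (hs1 : 1 ≤ s) {β : ℝ}
    (hβ : 0 < β) :
    ∃ N0 : ℕ, ∀ N : ℕ, N0 ≤ N → ∀ m ≤ N, ∀ t : ℝ, t = s * (m * (β / (2 * N))) → 1 ≤ t →
      ∀ J : ℕ, cJ A * t ≤ J → ∀ (x : Tor n) (z : Fin 3 → ℤ), (∀ i, |(z i : ℝ)| ≤ A * √t) →
      (cK A / √t) ^ 3 / 2 ≤ ∑ j ∈ range J,
        qS ((1 - β / (2 * N)) ^ (6 * s)) (s * (β / (2 * N)) * (1 - β / (2 * N)) ^ (12 * s)) x m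
          (x + fun i => (z i : ZMod n)) j := by
  obtain ⟨N0, h⟩ := qS_lowerE hA (n := n) hs1 hβ
  refine ⟨N0, fun N hN m hm t ht ht1 J hJ x z hz => ?_⟩
  have h1 := (h N hN).2 m hm t ht ht1 J hJ x z hz
  have h3 := Lap_lower hA ht1 hz x
  linarith

theorem Bm_nonneg : Le 0 (Bm n) := by
  intro x y
  rw [Bm, Matrix.sum_apply]
  exact Finset.sum_nonneg fun i _ => add_nonneg (Sh_nonneg _ x y) (Sh_nonneg _ x y)

theorem Bm_add (x : Tor n) (i : Fin 3) : 1 ≤ Bm n x (x + Pi.single i 1) := by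
  rw [Bm, Matrix.sum_apply]
  have h1 : (Sh (Pi.single i 1) + Sh (-Pi.single i 1) : Matrix (Tor n) (Tor n) ℝ) x
      (x + Pi.single i 1) ≤ ∑ c : Fin 3,
      (Sh (Pi.single c 1) + Sh (-Pi.single c 1) : Matrix (Tor n) (Tor n) ℝ) x
      (x + Pi.single i 1) :=
    Finset.single_le_sum (f := fun c : Fin 3 =>
      (Sh (Pi.single c 1) + Sh (-Pi.single c 1) : Matrix (Tor n) (Tor n) ℝ) x
      (x + Pi.single i 1)) (fun c _ => add_nonneg (Sh_nonneg _ _ _) (Sh_nonneg _ _ _))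
      (mem_univ i)
  refine le_trans ?_ h1
  rw [Matrix.add_apply]
  have h2 : (Sh (Pi.single i 1) : Matrix (Tor n) (Tor n) ℝ) x (x + Pi.single i 1) = 1 := by
    simp [Sh]
  have h3 : (0 : ℝ) ≤ (Sh (-Pi.single i 1) : Matrix (Tor n) (Tor n) ℝ) x (x + Pi.single i 1) :=
    Sh_nonneg _ _ _
  linarith

theorem Bm_sub (x : Tor n) (i : Fin 3) : 1 ≤ Bm n x (x - Pi.single i 1) := by
  rw [Bm, Matrix.sum_apply]
  have h1 : (Sh (Pi.single i 1) + Sh (-Pi.single i 1) : Matrix (Tor n) (Tor n) ℝ) x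
      (x - Pi.single i 1) ≤ ∑ c : Fin 3,
      (Sh (Pi.single c 1) + Sh (-Pi.single c 1) : Matrix (Tor n) (Tor n) ℝ) x
      (x - Pi.single i 1) :=
    Finset.single_le_sum (f := fun c : Fin 3 =>
      (Sh (Pi.single c 1) + Sh (-Pi.single c 1) : Matrix (Tor n) (Tor n) ℝ) x
      (x - Pi.single i 1)) (fun c _ => add_nonneg (Sh_nonneg _ _ _) (Sh_nonneg _ _ _))
      (mem_univ i)
  refine le_trans ?_ h1
  rw [Matrix.add_apply]
  have h2 : (Sh (-Pi.single i 1) : Matrix (Tor n) (Tor n) ℝ) x (x - Pi.single i 1) = 1 := by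
    simp [Sh, sub_eq_add_neg]
  have h3 : (0 : ℝ) ≤ (Sh (Pi.single i 1) : Matrix (Tor n) (Tor n) ℝ) x (x - Pi.single i 1) :=
    Sh_nonneg _ _ _
  linarith

theorem Bm_sq_diag [NeZero n] (x : Tor n) : 6 ≤ (Bm n ^ 2) x x := by
  rw [pow_two, Matrix.mul_apply, sum_mul_Bm (fun v => Bm n x v)]
  unfold nb
  rw [Fin.sum_univ_three]
  linarith [Bm_add x 0, Bm_add x 1, Bm_add x 2, Bm_sub x 0, Bm_sub x 1, Bm_sub x 2]

theorem exp_Lap_eq [NeZero n] (t : ℝ) :
    exp (t • Lap n) = Real.exp (-(6 * t)) • exp (t • Bm n) := by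
  have h1 : t • Lap n = t • Bm n + (-(6 * t)) • (1 : Matrix (Tor n) (Tor n) ℝ) := by
    rw [Lap_eq]
    module
  rw [h1, Matrix.exp_add_of_commute _ _ ((Commute.one_right _).smul_right _)]
  have h2 : exp ((-(6 * t)) • (1 : Matrix (Tor n) (Tor n) ℝ)) = Real.exp (-(6 * t)) • 1 := by
    open scoped Matrix.Norms.Operator in
    rw [← Algebra.algebraMap_eq_smul_one, ← Algebra.algebraMap_eq_smul_one, Real.exp_eq_exp_ℝ]
    exact (algebraMap_exp_comm (-(6 * t))).symm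
  rw [h2, mul_smul_comm, mul_one]

/-- The walk returns to its starting point after two moves with a fixed fraction. -/
theorem exp_Lap_diag [NeZero n] {t : ℝ} (ht : 1 ≤ t) (x : Tor n) :
    4 * Real.exp (-(6 * t)) ≤ exp (t • Lap n) x x := by
  have ht0 : 0 ≤ t := by linarith
  have hX : Le 0 (t • Bm n) := by simpa using (Bm_nonneg (n := n)).smul ht0
  have h1 := exp_ge_sum hX {0, 2} x x
  rw [Finset.sum_pair (by norm_num), Matrix.add_apply, Matrix.smul_apply, Matrix.smul_apply,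
    pow_zero, Matrix.one_apply_eq, smul_pow, Matrix.smul_apply] at h1
  simp only [Nat.factorial, smul_eq_mul] at h1
  have h2 := Bm_sq_diag (n := n) x
  have h3 : 4 ≤ exp (t • Bm n) x x := by
    have h4 : (1 : ℝ) * 6 ≤ t ^ 2 * (Bm n ^ 2) x x :=
      mul_le_mul (by nlinarith) h2 (by norm_num) (by positivity)
    norm_num at h1
    linarith
  rw [exp_Lap_eq, Matrix.smul_apply, smul_eq_mul, mul_comm]
  exact mul_le_mul_of_nonneg_left h3 (Real.exp_pos _).le

theorem qS_zero (c0 c1 : ℝ) (x0 : Tor n) (k : ℕ) (y : Tor n) :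
    qS c0 c1 x0 k y 0 = c0 ^ k * (if y = x0 then 1 else 0) := by
  induction k with
  | zero => simp [qS, q0]
  | succ k ih =>
    simp only [qS, if_true, mul_zero, add_zero]
    rw [ih, pow_succ]
    ring

/-- **Lower bound for the lumped walk with at least one move.** -/
theorem qS_lower1 {A : ℝ} (hA : 0 ≤ A) {n : ℕ} [NeZero n] {s : ℕ} (hs1 : 1 ≤ s) {β : ℝ}
    (hβ : 0 < β) :
    ∃ N0 : ℕ, ∀ N : ℕ, N0 ≤ N → ∀ m ≤ N, ∀ t : ℝ, t = s * (m * (β / (2 * N))) → 1 ≤ t →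
      ∀ J : ℕ, cJ A * t ≤ J → ∀ (x : Tor n) (z : Fin 3 → ℤ), (∀ i, |(z i : ℝ)| ≤ A * √t) →
      (cK A / √t) ^ 3 / 4 ≤ ∑ j ∈ Ico 1 J,
        qS ((1 - β / (2 * N)) ^ (6 * s)) (s * (β / (2 * N)) * (1 - β / (2 * N)) ^ (12 * s)) x m
          (x + fun i => (z i : ZMod n)) j := by
  have hcA := cK_pos A
  obtain ⟨N0, h⟩ := qS_lowerE hA (n := n) hs1 hβ
  refine ⟨max 1 N0, fun N hN m hm t ht ht1 J hJ x z hz => ?_⟩
  obtain ⟨hNβ, h'⟩ := h N ((le_max_right _ _).trans hN)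
  have hN1 : (1 : ℝ) ≤ N := by exact_mod_cast (le_max_left _ _).trans hN
  have h1 := h' m hm t ht ht1 J hJ x z hz
  have h3 := Lap_lower hA ht1 hz x
  have ht0 : 0 < √t := Real.sqrt_pos.2 (by linarith)
  have hT : 0 < (cK A / √t) ^ 3 := by positivity
  set p : ℝ := β / (2 * N) with hp
  have hp0 : 0 ≤ p := by positivity
  have hp1 : p ≤ 1 := by
    rw [hp, div_le_one (by positivity)]
    linarith
  have hJ0 : 0 < J := by
    rcases Nat.eq_zero_or_pos J with h0 | h0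
    · subst h0
      rw [Finset.range_zero, Finset.sum_empty] at h1
      linarith
    · exact h0
  rw [Finset.range_eq_Ico, Finset.sum_eq_sum_Ico_succ_bot hJ0, zero_add, qS_zero] at h1
  by_cases hy : x + (fun i => (z i : ZMod n)) = x
  · rw [if_pos hy, mul_one] at h1
    have h4 := exp_Lap_diag (n := n) ht1 x
    rw [hy] at h1 h3 ⊢
    have h5 : ((1 - p) ^ (6 * s)) ^ m ≤ Real.exp (-(6 * t)) := by
      have a1 : 1 - p ≤ Real.exp (-p) := by
        have := Real.add_one_le_exp (-p)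
        linarith
      have a2 : 0 ≤ 1 - p := by linarith
      calc ((1 - p) ^ (6 * s)) ^ m = (1 - p) ^ (6 * s * m) := by rw [← pow_mul]
        _ ≤ Real.exp (-p) ^ (6 * s * m) := pow_le_pow_left₀ a2 a1 _
        _ = Real.exp (-(6 * t)) := by
          rw [← Real.exp_nat_mul, ht]
          congr 1
          push_cast
          ring
    linarith
  · rw [if_neg hy, mul_zero, zero_add] at h1
    linarith

end

end Vale.Agent.P361.LRO.S3S.KerS
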