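import Vale.Agent.P361.LRO.S3S.LongLocH2
import Vale.Agent.P361.LRO.S3S.KernelS
import Vale.Agent.P361.LRO.GenS.Iface

/-!
P361, Bloch's law for all spins: counting the gates between different sites.
-/

namespace Vale.Agent.P361.LRO.Bloch.H1.C527

open Finset Matrix Vale.Agent.P361.LRO.GenS Vale.Agent.P361.LRO.S3S.KerS

set_option linter.unusedSectionVars false

noncomputable section

variable {V : Type} [Fintype V] [DecidableEq V]

theorem cE_sum (y v : V) (E : List (V × V)) : cE y v E =
    (E.map fun e => if (y = e.1 ∨ y = e.2) ∧ v = Equiv.swap e.1 e.2 y then 1 else 0).sum := by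
  induction E with
  | nil => simp [cE]
  | cons e E ih => simp [cE, ih]

theorem nE_sum (y : V) (E : List (V × V)) : nE y E =
    (E.map fun e => if y = e.1 ∨ y = e.2 then 1 else 0).sum := by
  induction E with
  | nil => simp [nE]
  | cons e E ih => simp [nE, ih]

variable {n s : ℕ} [NeZero n]

theorem sum_interE_map (f : (Tor n × Fin s) × (Tor n × Fin s) → ℕ) :
    ((interE n s).map f).sum =
      ∑ d : Fin 3, ∑ z : Tor n, ∑ i : Fin s, ∑ j : Fin s, f ((z, i), (z + Pi.single d 1, j)) := by
  have hf : ∀ g : Fin s → ℕ, ((List.finRange s).map g).sum = ∑ i, g i := by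
    intro g
    rw [← List.sum_ofFn, List.ofFn_eq_map]
  have h0 : ∀ (l : List (Tor n × Tor n)),
      ((l.flatMap fun e => (List.finRange s).flatMap fun i => (List.finRange s).map fun j =>
        ((e.1, i), (e.2, j))).map f).sum =
      (l.map fun e => ∑ i : Fin s, ∑ j : Fin s, f ((e.1, i), (e.2, j))).sum := by
    intro l
    induction l with
    | nil => simp
    | cons e l ih =>
      rw [List.flatMap_cons, List.map_append, List.sum_append, ih, List.map_cons, List.sum_cons]
      congr 1
      rw [List.map_flatMap, ← hf]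
      have h4 : ∀ (q : List (Fin s)) (F : Fin s → List ℕ),
          (q.flatMap F).sum = (q.map fun i => (F i).sum).sum := by
        intro q F
        induction q with
        | nil => simp
        | cons a q ih => rw [List.flatMap_cons, List.sum_append, ih, List.map_cons, List.sum_cons]
      rw [h4]
      congr 1
      refine List.map_congr_left fun i _ => ?_
      rw [List.map_map, ← hf]
      rfl
  unfold interE
  rw [h0]
  unfold edges
  rw [List.map_map]
  have h1 := Finset.sum_map_toList (Finset.univ : Finset (Tor n × Fin 3))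
    (fun z => ∑ i : Fin s, ∑ j : Fin s, f ((z.1, i), (z.1 + Pi.single z.2 1, j)))
  have h2 : ((fun e : Tor n × Tor n => ∑ i : Fin s, ∑ j : Fin s, f ((e.1, i), (e.2, j))) ∘
      fun z : Tor n × Fin 3 => (z.1, z.1 + Pi.single z.2 1)) =
      fun z => ∑ i : Fin s, ∑ j : Fin s, f ((z.1, i), (z.1 + Pi.single z.2 1, j)) := rfl
  rw [h2, h1, Fintype.sum_prod_type, Finset.sum_comm]

theorem sum_reverse_map (f : (Tor n × Fin s) × (Tor n × Fin s) → ℕ)
    (E : List ((Tor n × Fin s) × (Tor n × Fin s))) :
    (E.reverse.map f).sum = (E.map f).sum := by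
  rw [List.map_reverse, List.sum_reverse]

theorem single_ne {n : ℕ} (hn : 2 ≤ n) (d : Fin 3) : (Pi.single d 1 : Tor n) ≠ 0 := by
  intro h
  have := congrFun h d
  rw [Pi.single_eq_same, Pi.zero_apply] at this
  have : Fact (1 < n) := ⟨hn⟩
  exact one_ne_zero ‹_›

/-- Every copy is touched by at most `6 s` gates. -/
theorem nE_inter (v : Tor n × Fin s) : nE v (interE n s).reverse ≤ 6 * s := by
  rw [nE_sum, sum_reverse_map, sum_interE_map]
  have h1 : ∀ (d : Fin 3) (z : Tor n) (i j : Fin s),
      (if v = (z, i) ∨ v = (z + Pi.single d 1, j) then 1 else 0) ≤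
      (if z = v.1 then (if i = v.2 then 1 else 0) else 0) +
      (if z = v.1 - Pi.single d 1 then (if j = v.2 then 1 else 0) else 0) := by
    intro d z i j
    obtain ⟨x, a⟩ := v
    simp only [Prod.mk.injEq]
    by_cases h : x = z ∧ a = i
    · obtain ⟨rfl, rfl⟩ := h
      simp
    · by_cases h' : x = z + Pi.single d 1 ∧ a = j
      · obtain ⟨rfl, rfl⟩ := h'
        have : z = z + Pi.single d 1 - Pi.single d 1 := by abel
        simp
      · rw [if_neg (by tauto)]
        exact Nat.zero_le _
  refine (Finset.sum_le_sum fun d _ => Finset.sum_le_sum fun z _ => Finset.sum_le_sum fun i _ =>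
    Finset.sum_le_sum fun j _ => h1 d z i j).trans ?_
  have h2 : ∀ d : Fin 3, ∑ z : Tor n, ∑ i : Fin s, ∑ j : Fin s,
      ((if z = v.1 then (if i = v.2 then 1 else 0) else 0) +
      (if z = v.1 - Pi.single d 1 then (if j = v.2 then 1 else 0) else 0)) = 2 * s := by
    intro d
    simp only [Finset.sum_add_distrib, Finset.sum_const, Finset.card_univ, Fintype.card_fin,
      smul_eq_mul]
    have e1 : ∀ z : Tor n, ∑ i : Fin s, s * (if z = v.1 then (if i = v.2 then 1 else 0) else 0) =
        if z = v.1 then s else 0 := by
      intro z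
      by_cases hz : z = v.1
      · simp [hz]
      · simp [hz]
    have e2 : ∀ z : Tor n, s * ∑ j : Fin s,
        (if z = v.1 - Pi.single d 1 then (if j = v.2 then 1 else 0) else 0) =
        if z = v.1 - Pi.single d 1 then s else 0 := by
      intro z
      by_cases hz : z = v.1 - Pi.single d 1
      · simp [hz]
      · simp [hz]
    rw [Finset.sum_congr rfl fun z _ => e1 z, Finset.sum_congr rfl fun z _ => e2 z]
    simp
    ring
  rw [Finset.sum_congr rfl fun d _ => h2 d, Finset.sum_const, Finset.card_univ, Fintype.card_fin,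
    smul_eq_mul]
  omega

/-- Number of edges between two sites. -/
def cT (n : ℕ) [NeZero n] (x' x : Tor n) : ℕ :=
  ∑ d : Fin 3, ((if x' = x + Pi.single d 1 then 1 else 0) +
    (if x' = x - Pi.single d 1 then 1 else 0))

theorem cE_inter (hn : 2 ≤ n) (y v : Tor n × Fin s) :
    cE y v (interE n s).reverse = cT n y.1 v.1 := by
  rw [cE_sum, sum_reverse_map, sum_interE_map]
  unfold cT
  refine Finset.sum_congr rfl fun d _ => ?_
  obtain ⟨y, b⟩ := y
  obtain ⟨x, a⟩ := v
  have hne : ∀ (z : Tor n) (i j : Fin s), ((z, i) : Tor n × Fin s) ≠ (z + Pi.single d 1, j) := by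
    intro z i j h
    have h2 := congrArg Prod.fst h
    exact single_ne hn d (left_eq_add.1 h2)
  have h1 : ∀ (z : Tor n) (i j : Fin s),
      (if ((y, b) = (z, i) ∨ (y, b) = (z + Pi.single d 1, j)) ∧
        (x, a) = Equiv.swap (z, i) (z + Pi.single d 1, j) (y, b) then 1 else 0) =
      (if z = x then (if i = a then (if j = b then
        (if y = x + Pi.single d 1 then 1 else 0) else 0) else 0) else 0) +
      (if z = y then (if i = b then (if j = a then
        (if y = x - Pi.single d 1 then 1 else 0) else 0) else 0) else 0) := by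
    intro z i j
    by_cases hA : (y, b) = ((z, i) : Tor n × Fin s)
    · have hy : y = z := congrArg Prod.fst hA
      have hb : b = i := congrArg Prod.snd hA
      subst hy hb
      rw [Equiv.swap_apply_left]
      have e1 : ¬ (y = x ∧ y = x + Pi.single d 1) := by
        rintro ⟨h1, h2⟩
        rw [h1] at h2
        exact single_ne hn d (left_eq_add.1 h2)
      have e2 : (((y, b) = ((y, b) : Tor n × Fin s) ∨ (y, b) = (y + Pi.single d 1, j)) ∧
          (x, a) = ((y + Pi.single d 1, j) : Tor n × Fin s)) ↔
          (j = a ∧ y = x - Pi.single d 1) := by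
        simp only [true_or, true_and, Prod.mk.injEq]
        constructor
        · rintro ⟨h1, h2⟩; exact ⟨h2.symm, by rw [h1]; abel⟩
        · rintro ⟨h1, h2⟩; exact ⟨by rw [h2]; abel, h1.symm⟩
      have e3 : (if y = x then (if b = a then (if j = b then
          (if y = x + Pi.single d 1 then (1:ℕ) else 0) else 0) else 0) else 0) = 0 := by
        by_cases h1 : y = x
        · rw [if_pos h1]
          have : ¬ (y = x + Pi.single d 1) := fun h2 => e1 ⟨h1, h2⟩
          simp [this]
        · rw [if_neg h1]
      rw [if_congr e2 rfl rfl, e3, zero_add, if_pos (rfl : y = y), if_pos (rfl : b = b), ite_and]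
    · by_cases hB : (y, b) = ((z + Pi.single d 1, j) : Tor n × Fin s)
      · have hy : y = z + Pi.single d 1 := congrArg Prod.fst hB
        have hb : b = j := congrArg Prod.snd hB
        subst hy hb
        rw [Equiv.swap_apply_right]
        have hz : ¬ z = z + Pi.single d 1 := fun h => single_ne hn d (left_eq_add.1 h)
        have e2 : (((z + Pi.single d 1, b) = ((z, i) : Tor n × Fin s) ∨
            (z + Pi.single d 1, b) = ((z + Pi.single d 1, b) : Tor n × Fin s)) ∧
            (x, a) = ((z, i) : Tor n × Fin s)) ↔ (z = x ∧ i = a) := by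
          simp only [or_true, true_and, Prod.mk.injEq]
          constructor
          · rintro ⟨h1, h2⟩; exact ⟨h1.symm, h2.symm⟩
          · rintro ⟨h1, h2⟩; exact ⟨h1.symm, h2.symm⟩
        rw [if_congr e2 rfl rfl, if_neg hz, add_zero, ite_and]
        by_cases h1 : z = x
        · rw [if_pos h1, if_pos h1, if_pos (rfl : b = b), h1, if_pos rfl]
        · rw [if_neg h1, if_neg h1]
      · rw [if_neg (by tauto)]
        symm
        rw [Nat.add_eq_zero_iff]
        constructor
        · by_cases h1 : z = x
          · by_cases h2 : j = b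
            · have : ¬ (y = x + Pi.single d 1) := by
                intro h3
                apply hB
                rw [h3, h1, h2]
              simp [this]
            · simp [h2]
          · rw [if_neg h1]
        · by_cases h1 : z = y
          · by_cases h2 : i = b
            · exact absurd (by rw [h1, h2]) hA
            · simp [h2]
          · rw [if_neg h1]
  simp only [h1]
  simp only [Finset.sum_add_distrib]
  congr 1
  · have e1 : ∀ z : Tor n, ∑ i : Fin s, ∑ j : Fin s, (if z = x then (if i = a then (if j = b then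
        (if y = x + Pi.single d 1 then (1:ℕ) else 0) else 0) else 0) else 0) =
        if z = x then (if y = x + Pi.single d 1 then 1 else 0) else 0 := by
      intro z
      by_cases hz : z = x
      · simp [hz]
      · simp [hz]
    rw [Finset.sum_congr rfl fun z _ => e1 z]
    simp
  · have e1 : ∀ z : Tor n, ∑ i : Fin s, ∑ j : Fin s, (if z = y then (if i = b then (if j = a then
        (if y = x - Pi.single d 1 then (1:ℕ) else 0) else 0) else 0) else 0) =
        if z = y then (if y = x - Pi.single d 1 then 1 else 0) else 0 := by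
      intro z
      by_cases hz : z = y
      · simp [hz]
      · simp [hz]
    rw [Finset.sum_congr rfl fun z _ => e1 z]
    simp

theorem sum_cT (q : Tor n → ℝ) (x : Tor n) : ∑ x', (cT n x' x : ℝ) * q x' = nb q x := by
  unfold cT nb
  have h1 : ∀ x', ((∑ d : Fin 3, ((if x' = x + Pi.single d 1 then 1 else 0) +
      (if x' = x - Pi.single d 1 then 1 else 0)) : ℕ) : ℝ) * q x' =
      ∑ d : Fin 3, ((if x' = x + Pi.single d 1 then q x' else 0) +
        (if x' = x - Pi.single d 1 then q x' else 0)) := by
    intro x'
    push_cast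
    rw [Finset.sum_mul]
    refine Finset.sum_congr rfl fun d _ => ?_
    split_ifs <;> ring
  simp only [h1]
  rw [Finset.sum_comm]
  refine Finset.sum_congr rfl fun d _ => ?_
  rw [Finset.sum_add_distrib, Finset.sum_ite_eq', Finset.sum_ite_eq']
  simp

theorem card_fiber (x : Tor n) :
    (univ.filter fun v : Tor n × Fin s => v.1 = x).card = s := by
  have : (univ.filter fun v : Tor n × Fin s => v.1 = x) =
      (univ : Finset (Fin s)).map ⟨fun i => (x, i), fun i j h => (Prod.mk.inj h).2⟩ := by
    ext ⟨y, i⟩
    simp only [mem_filter, mem_univ, true_and, mem_map]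
    constructor
    · intro h
      exact ⟨i, by rw [h]; rfl⟩
    · rintro ⟨j, h⟩
      exact (congrArg Prod.fst h).symm
  rw [this, Finset.card_map, Finset.card_univ, Fintype.card_fin]

theorem inter_ne (hn : 2 ≤ n) : ∀ e ∈ (interE n s).reverse, e.1.1 ≠ e.2.1 := by
  intro e he
  rw [List.mem_reverse] at he
  unfold interE at he
  simp only [List.mem_flatMap, List.mem_map] at he
  obtain ⟨e', he', i, -, j, -, rfl⟩ := he
  unfold edges at he'
  obtain ⟨z, -, rfl⟩ := List.mem_map.1 he'
  intro h
  exact single_ne hn z.2 (left_eq_add.1 h)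

theorem intra_eq (M : ℕ) : ∀ e ∈ ((List.replicate M (intraE n s)).flatten).reverse,
    e.1.1 = e.2.1 := by
  intro e he
  rw [List.mem_reverse, List.mem_flatten] at he
  obtain ⟨l, hl, he⟩ := he
  rw [List.eq_of_mem_replicate hl] at he
  unfold intraE at he
  obtain ⟨z, -, rfl⟩ := List.mem_map.1 he
  rfl

theorem gl_edgesS (M : ℕ) (p : ℝ) : gl (edgesS n s M) p =
    ((((List.replicate M (intraE n s)).flatten).reverse).map fun e => Lt.gate e.1 e.2 p) ++
      ((interE n s).reverse.map fun e => Lt.gate e.1 e.2 p) := by
  unfold gl edgesS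
  rw [List.reverse_append, List.map_append]

end

end Vale.Agent.P361.LRO.Bloch.H1.C527
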