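import Vale.Agent.P361.LRO.S3.Iface
import Vale.Agent.P361.LRO.GenS.Iface

/-!
P361, STAGE 3 for all spins `S = s / 2` (Bloch's law with the constant), route M: the graph
`edgesS n s M` on `Tor n × Fin s`, `M → ∞` at fixed `n`.  Exact outputs of the blocks.
Fields are `h = g / (s β)`, `g ∈ Fam n g0 (β ^ (-9/2))`.
`DirStmt3` and `DirSharpStmt3` of `S3/Iface.lean` are used verbatim (any graph).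
-/

namespace Vale.Agent.P361.LRO.S3S

open Finset Matrix Filter Topology Vale.Agent.P361.LRO.GenS Vale.Agent.P361.LRO.S3

noncomputable section

/-- Bloch's constant for spin `s / 2`. -/
def BCS (s : ℕ) : ℝ :=
  (riemannZeta (3 / 2)).re / (8 * Real.pi ^ (3 / 2 : ℝ) * ((s : ℝ) / 2) ^ (3 / 2 : ℝ))

/-- Bootstrap hypothesis on the capped family. -/
def BH3S (n s M : ℕ) [NeZero n] (β η g0 : ℝ) : Prop :=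
  ∀ g : Tor n → ℝ, Fam n g0 (β ^ (-(9 / 2) : ℝ)) g →
    ∀ z, rho (edgesS n s M) β (hS fun y => g y / (s * β)) z ≤ η

/-- (K) network block. -/
def KappaStmt3S (s : ℕ) : Prop :=
  ∃ c2 c3 : ℝ, 0 < c2 ∧ 0 < c3 ∧ ∀ C7 Lam : ℝ, 0 < C7 → 0 < Lam → ∃ β0 : ℝ, ∀ β : ℝ, β0 ≤ β →
    ∃ n0 : ℕ, ∀ (n : ℕ) [NeZero n], n0 ≤ n → Odd n → ∀ M : ℕ, ∀ a : ℕ,
    Real.sqrt β ≤ (3 : ℝ) ^ a → (3 : ℝ) ^ a ≤ β ^ (3 / 4 : ℝ) →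
    ∀ K : ℝ, 1 ≤ K → K ≤ Lam * β ^ (3 / 2 : ℝ) → K ≤ c2 * β * 3 ^ a →
    ∀ g0 : ℝ, (n : ℝ) ^ (-(1 / 4) : ℝ) ≤ g0 → g0 ≤ 1 → BH3S n s M β (C7 * β ^ (-(3 / 2) : ℝ)) g0 →
    ∀ g : Tor n → ℝ, Fam n g0 (β ^ (-(9 / 2) : ℝ)) g → ∀ x : Tor n,
      ∃ᶠ N : ℕ in atTop,
        c3 * K ≤ kap (edgesS n s M) β N (hS fun y => g y / (s * β)) K (cubeS n s x (3 ^ a))

/-- (E) crude energy for all profiles. -/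
def EnergyStmt3S (s : ℕ) : Prop :=
  ∃ C β0 : ℝ, ∀ β : ℝ, β0 ≤ β → ∃ n0 : ℕ, ∀ (n : ℕ) [NeZero n], n0 ≤ n →
    ∃ M0 : ℕ, ∀ M : ℕ, M0 ≤ M → ∀ g : Tor n → ℝ,
    (∀ x, 0 < g x ∧ g x ≤ 1) → ∀ (x : Tor n) (w m : ℕ), 1 ≤ w → (w : ℝ) ≤ 3 * Real.sqrt β →
    β ^ (3 : ℝ) ≤ w * m → (w : ℝ) * m ≤ 2 * β ^ (3 : ℝ) →
    (∑ y : Fin 3 → Fin m, yb (edgesS n s M) β (hS fun z => g z / (s * β))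
      (cubeS n s (x + fun i => ((w * (y i : ℕ) : ℕ) : ZMod n)) w)) / (m : ℝ) ^ 3 ≤
      C * β ^ (-(3 / 2) : ℝ)

/-- (B0) start of the bootstrap: the uniform field `1/(sβ)`. -/
def StartStmt3S (s : ℕ) : Prop :=
  ∃ C β0 : ℝ, ∀ β : ℝ, β0 ≤ β → ∃ n0 : ℕ, ∀ (n : ℕ) [NeZero n], n0 ≤ n → Odd n →
    ∃ M0 : ℕ, ∀ M : ℕ, M0 ≤ M → ∀ z : Tor n × Fin s,
      rho (edgesS n s M) β (hS fun _ => 1 / (s * β)) z ≤ C * β ^ (-(3 / 2) : ℝ)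

/-- (B) output of the bootstrap: Bloch's order for all profiles. -/
def BootStmt3S (s : ℕ) : Prop :=
  ∃ C7 β0 : ℝ, 0 < C7 ∧ ∀ β : ℝ, β0 ≤ β → ∃ n0 : ℕ, ∀ (n : ℕ) [NeZero n], n0 ≤ n → Odd n →
    ∃ M0 : ℕ, ∀ M : ℕ, M0 ≤ M → ∀ g0 : ℝ, (n : ℝ) ^ (-(1 / 4) : ℝ) ≤ g0 → g0 ≤ 1 →
      BH3S n s M β (C7 * β ^ (-(3 / 2) : ℝ)) g0

/-- (M) sharp mean of `N_b` (`|b| = s w^3`), uniform small field. -/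
def MeanStmt3S (s : ℕ) : Prop :=
  ∃ d : ℝ, 0 < d ∧ d ≤ 1 / 100 ∧ ∀ δ : ℝ, 0 < δ → ∃ β0 : ℝ, ∀ β : ℝ, β0 ≤ β → ∀ a : ℕ,
    β ^ (1 / 2 + d) ≤ (3 : ℝ) ^ a → (3 : ℝ) ^ a ≤ 3 * β ^ (1 / 2 + d) →
    ∀ h : ℝ, 0 < h → h ≤ β ^ (-(10 : ℝ)) → ∃ n0 : ℕ, ∀ (n : ℕ) [NeZero n], n0 ≤ n → Odd n →
    ∃ M0 : ℕ, ∀ M : ℕ, M0 ≤ M → ∀ x : Tor n,
      yb (edgesS n s M) β (hS fun _ => h) (cubeS n s x (3 ^ a)) ≤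
        (1 + δ) * (BCS s / s) * β ^ (-(3 / 2) : ℝ)

/-- (T) lower tail of `N_b`. -/
def TailStmt3S (s : ℕ) : Prop :=
  ∀ d : ℝ, 0 < d → d ≤ 1 / 100 → ∀ δ : ℝ, 0 < δ → ∃ β0 : ℝ, ∀ β : ℝ, β0 ≤ β → ∀ a : ℕ,
    β ^ (1 / 2 + d) ≤ (3 : ℝ) ^ a → (3 : ℝ) ^ a ≤ 3 * β ^ (1 / 2 + d) →
    ∀ h : ℝ, 0 < h → h ≤ β ^ (-(10 : ℝ)) → ∃ n0 : ℕ, ∀ (n : ℕ) [NeZero n], n0 ≤ n → Odd n →
    ∀ (x : Tor n) (P : Polynomial ℝ),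
      (∀ r : ℕ, 2 * r ≤ (cubeS n s x (3 ^ a)).card →
        P.eval ((r : ℝ) * (((cubeS n s x (3 ^ a)).card : ℝ) - r + 1)) ≤
          if (r : ℝ) < (1 - δ) * (BCS s / s) * β ^ (-(3 / 2) : ℝ) * (cubeS n s x (3 ^ a)).card
          then 1 else 0) →
      ∃ M0 : ℕ, ∀ M : ℕ, M0 ≤ M →
        gib (edgesS n s M) β (hS fun _ => h) (Polynomial.aeval (CM (cubeS n s x (3 ^ a))) P) ≤ δ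

/-- (F) output for the torus: `s ρ = S - m` per site. -/
def FinalStmt3S (s : ℕ) : Prop :=
  ∀ ε : ℝ, 0 < ε → ∃ β0 : ℝ, ∀ β : ℝ, β0 ≤ β → ∀ h : ℝ, 0 < h → h ≤ β ^ (-(10 : ℝ)) →
    ∃ n0 : ℕ, ∀ (n : ℕ) [NeZero n], n0 ≤ n → Odd n → ∃ M0 : ℕ, ∀ M : ℕ, M0 ≤ M →
      ∀ z : Tor n × Fin s,
        s * rho (edgesS n s M) β (hS fun _ => h) z ≤ (1 + ε) * BCS s * β ^ (-(3 / 2) : ℝ)

end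

end Vale.Agent.P361.LRO.S3S
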