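import Vale.Agent.P361.LRO.Bloch.EnergyTorus
import Vale.Agent.P361.LRO.GenS.EnergyS
import Vale.Agent.P361.LRO.GenS.PiFacts
import Vale.Agent.P361.LRO.GenS.LimS
import Vale.Agent.P361.LRO.S3S.Iface

/-! # P361 LRO, stage 3 for all spins (E): geometry half (helper793) -/

namespace Vale.Agent.P361.LRO.S3S

open Finset Matrix Vale.Agent.P361.LRO.GenS

noncomputable section

/-- inter-site part of the free box with `s` copies of each site -/
def boxA (s l : ℕ) : Matrix (B.cube l × Fin s → Fin 2) (B.cube l × Fin s → Fin 2) ℝ :=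
  (1 / 2 : ℝ) • ham (interL (S3.nnL (B.cube l)) s) 0

/-- intra-site part of the free box with `s` copies of each site -/
def boxB (s l : ℕ) : Matrix (B.cube l × Fin s → Fin 2) (B.cube l × Fin s → Fin 2) ℝ :=
  ham (intraL (B.cube l) s) 0

/-- partition function of the free box with copies -/
def ZbM (s l M : ℕ) (β : ℝ) : ℝ :=
  Matrix.trace (NormedSpace.exp (-β • (boxA s l + (M : ℝ) • boxB s l)))

end

end Vale.Agent.P361.LRO.S3S

namespace Vale.Agent.P361.LRO.Energy.ETS

open Matrix Finset Vale.Agent.P361.LRO.Loc3 Vale.Agent.P361.LRO.Energy.ET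
open Vale.Agent.P361.LRO.GenS Vale.Agent.P361.LRO.GenS.EnS
open scoped ComplexOrder

set_option linter.unusedSectionVars false

noncomputable section

theorem cpx_list_sum {α ι : Type*} [Fintype ι] [DecidableEq ι] (L : List α)
    (F : α → Matrix ι ι ℝ) : cpx ((L.map F).sum) = (L.map fun e => cpx (F e)).sum := by
  induction L with
  | nil => ext i j; simp [cpx]
  | cons a L ih => simp only [List.map_cons, List.sum_cons, cpx_add, ih]

theorem cpx_ham0 {V : Type} [Fintype V] [DecidableEq V] (L : List (V × V)) :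
    cpx (ham L (0 : V → ℝ)) =
      (L.map fun e => (hM e.1 e.2 : Matrix (Cfg V) (Cfg V) ℂ)).sum := by
  have h : ham L (0 : V → ℝ) = (L.map fun e => LRO.hM e.1 e.2).sum := by
    rw [ham]; simp
  rw [h, cpx_list_sum]
  simp only [cpx_hM]

theorem hM_ab_symm {V : Type} [Fintype V] [DecidableEq V] {s : ℕ} (u v : V) :
    (∑ ab : Fin s × Fin s, (hM (u, ab.1) (v, ab.2) : Matrix (Cfg (V × Fin s)) (Cfg (V × Fin s)) ℂ)) =
      ∑ ab : Fin s × Fin s, hM (v, ab.1) (u, ab.2) := by
  rw [Fintype.sum_prod_type, Fintype.sum_prod_type, Finset.sum_comm]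
  exact Finset.sum_congr rfl fun i _ => Finset.sum_congr rfl fun j _ => hM_symm _ _

theorem cpx_boxA (s l : ℕ) : cpx (S3S.boxA s l) =
    ∑ u : B.cube l, ∑ v : B.cube l, ∑ i : Fin 3, if v.1 = u.1 + Pi.single i 1 then
      ∑ ab : Fin s × Fin s,
        (hM (u, ab.1) (v, ab.2) : Matrix (Cfg (B.cube l × Fin s)) (Cfg (B.cube l × Fin s)) ℂ)
      else 0 := by
  have h0 : cpx (ham (interL (S3.nnL (B.cube l)) s) 0) = ∑ x : B.cube l, ∑ y : B.cube l,
      if IsNN x.1 y.1 then ∑ ab : Fin s × Fin s,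
        (hM (x, ab.1) (y, ab.2) : Matrix (Cfg (B.cube l × Fin s)) (Cfg (B.cube l × Fin s)) ℂ)
      else 0 := by
    rw [cpx_ham0, sum_interL, S3.nnL, Finset.sum_map_toList, Finset.sum_filter,
      Fintype.sum_prod_type]
  rw [S3S.boxA, cpx_smul, h0, sum_isNN (fun u v => ∑ ab : Fin s × Fin s,
        (hM (u, ab.1) (v, ab.2) : Matrix (Cfg (B.cube l × Fin s)) (Cfg (B.cube l × Fin s)) ℂ))
      (fun u v => hM_ab_symm u v), smul_add, ← add_smul]
  norm_num

theorem cpx_boxB (s l : ℕ) : cpx (S3S.boxB s l) =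
    ∑ u : B.cube l, ∑ ab : Fin s × Fin s with ab.1 < ab.2,
        (hM (u, ab.1) (u, ab.2) : Matrix (Cfg (B.cube l × Fin s)) (Cfg (B.cube l × Fin s)) ℂ) := by
  rw [S3S.boxB, cpx_ham0, intraL, List.map_map, Finset.sum_map_toList, Finset.sum_filter,
    Fintype.sum_prod_type]
  refine Finset.sum_congr rfl fun u _ => ?_
  rw [Finset.sum_filter]
  rfl

variable {n s : ℕ} [NeZero n]

/-- the box with copies in the torus with copies -/
def eS (s : ℕ) (x : Tor n) (l : ℕ) (p : B.cube l × Fin s) : Tor n × Fin s := (eC x l p.1, p.2)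

theorem eS_injective {x : Tor n} {l : ℕ} (hl : l ≤ n) : Function.Injective (eS s x l) := by
  intro p q h
  have h2 := Prod.mk.inj h
  exact Prod.ext (eC_injective hl h2.1) h2.2

/-- inter-site energy in `Q` -/
def inA (s : ℕ) (Q : Finset (Tor n)) : Matrix (Cfg (Tor n × Fin s)) (Cfg (Tor n × Fin s)) ℂ :=
  ∑ z ∈ ins Q, ∑ ab : Fin s × Fin s, hM (z.1, ab.1) (nxt z, ab.2)

/-- intra-site energy in `Q` -/
def inB (s : ℕ) (Q : Finset (Tor n)) : Matrix (Cfg (Tor n × Fin s)) (Cfg (Tor n × Fin s)) ℂ :=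
  ∑ y ∈ Q, ∑ ab : Fin s × Fin s with ab.1 < ab.2, hM (y, ab.1) (y, ab.2)

theorem emb_boxA_le (x : Tor n) {l : ℕ} (hl : l ≤ n) :
    (inA s (cube n x l) - emb (eS s x l) (cpx (S3S.boxA s l))).PosSemidef := by
  classical
  have he := eC_injective (x := x) hl
  have heS := eS_injective (s := s) (x := x) hl
  set T : Finset (B.cube l × Fin 3) := Finset.univ.filter fun p => p.1.1 + Pi.single p.2 1 ∈ B.cube l
    with hT
  have h1 : emb (eS s x l) (cpx (S3S.boxA s l)) =
      ∑ p ∈ T, ∑ ab : Fin s × Fin s, (hM (eC x l p.1, ab.1) (nxt (eC x l p.1, p.2), ab.2) :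
        Matrix (Cfg (Tor n × Fin s)) (Cfg (Tor n × Fin s)) ℂ) := by
    rw [cpx_boxA, emb_sum, hT, Finset.sum_filter, Fintype.sum_prod_type]
    refine Finset.sum_congr rfl fun u _ => ?_
    rw [Finset.sum_comm, emb_sum]
    refine Finset.sum_congr rfl fun i _ => ?_
    rw [emb_sum]
    have e1 : ∀ v : B.cube l, emb (eS s x l) (if v.1 = u.1 + Pi.single i 1 then
        ∑ ab : Fin s × Fin s, hM (u, ab.1) (v, ab.2) else 0) =
        if v.1 = u.1 + Pi.single i 1 then
          (∑ ab : Fin s × Fin s, hM (eC x l u, ab.1) (nxt (eC x l u, i), ab.2) :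
            Matrix (Cfg (Tor n × Fin s)) (Cfg (Tor n × Fin s)) ℂ) else 0 := by
      intro v
      split_ifs with h
      · rw [emb_sum]
        refine Finset.sum_congr rfl fun ab _ => ?_
        rw [emb_hM heS, ← nxt_eC x l u v i h]
        rfl
      · exact emb_zero _
    simp only [e1]
    refine (Finset.sum_coe_sort (B.cube l) (fun v => if v = u.1 + Pi.single i 1 then
      (∑ ab : Fin s × Fin s, hM (eC x l u, ab.1) (nxt (eC x l u, i), ab.2) :
            Matrix (Cfg (Tor n × Fin s)) (Cfg (Tor n × Fin s)) ℂ) else 0)).trans ?_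
    rw [Finset.sum_ite_eq']
  have hinj : Function.Injective fun p : B.cube l × Fin 3 => (eC x l p.1, p.2) := by
    intro p q h
    have h2 := Prod.mk.inj h
    exact Prod.ext (he h2.1) h2.2
  have h2 : emb (eS s x l) (cpx (S3S.boxA s l)) =
      ∑ z ∈ T.image fun p => (eC x l p.1, p.2), ∑ ab : Fin s × Fin s,
        (hM (z.1, ab.1) (nxt z, ab.2) :
          Matrix (Cfg (Tor n × Fin s)) (Cfg (Tor n × Fin s)) ℂ) := by
    rw [h1, Finset.sum_image fun p _ q _ h => hinj h]
  have h3 : (T.image fun p => (eC x l p.1, p.2)) ⊆ ins (cube n x l) := by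
    intro z hz
    obtain ⟨p, hp, rfl⟩ := Finset.mem_image.1 hz
    have hp' := (Finset.mem_filter.1 hp).2
    refine Finset.mem_filter.2 ⟨Finset.mem_univ _, eC_mem x l p.1, ?_⟩
    have := nxt_eC x l p.1 ⟨_, hp'⟩ p.2 rfl
    rw [← this]
    exact eC_mem x l _
  rw [h2, inA, ← Finset.sum_sdiff h3, add_sub_cancel_right]
  exact Matrix.posSemidef_sum _ fun z _ => Matrix.posSemidef_sum _ fun ab _ => hM_posSemidef _ _

theorem emb_boxB_le (x : Tor n) {l : ℕ} (hl : l ≤ n) :
    (inB s (cube n x l) - emb (eS s x l) (cpx (S3S.boxB s l))).PosSemidef := by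
  classical
  have he := eC_injective (x := x) hl
  have heS := eS_injective (s := s) (x := x) hl
  have h1 : emb (eS s x l) (cpx (S3S.boxB s l)) =
      ∑ y ∈ (Finset.univ : Finset (B.cube l)).image (eC x l), ∑ ab : Fin s × Fin s with ab.1 < ab.2,
        (hM (y, ab.1) (y, ab.2) :
          Matrix (Cfg (Tor n × Fin s)) (Cfg (Tor n × Fin s)) ℂ) := by
    rw [cpx_boxB, emb_sum, Finset.sum_image fun p _ q _ h => he h]
    refine Finset.sum_congr rfl fun u _ => ?_
    rw [emb_sum]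
    refine Finset.sum_congr rfl fun ab _ => ?_
    rw [emb_hM heS]
    rfl
  have h3 : ((Finset.univ : Finset (B.cube l)).image (eC x l)) ⊆ cube n x l := by
    intro z hz
    obtain ⟨p, -, rfl⟩ := Finset.mem_image.1 hz
    exact eC_mem x l p
  rw [h1, inB, ← Finset.sum_sdiff h3, add_sub_cancel_right]
  exact Matrix.posSemidef_sum _ fun z _ => Matrix.posSemidef_sum _ fun ab _ => hM_posSemidef _ _

theorem sum_replicate {α M' : Type*} [AddCommMonoid M'] (M : ℕ) (l : List α) (F : α → M') :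
    (((List.replicate M l).flatten).map F).sum = M • (l.map F).sum := by
  induction M with
  | zero => simp
  | succ M ih =>
    rw [List.replicate_succ, List.flatten_cons, List.map_append, List.sum_append, ih, succ_nsmul,
      add_comm]

/-- sum over the edges with copies -/
theorem sum_edgesS {M' : Type*} [AddCommMonoid M'] (M : ℕ)
    (F : (Tor n × Fin s) × (Tor n × Fin s) → M') :
    ((edgesS n s M).map F).sum =
      (∑ z : Tor n × Fin 3, ∑ ab : Fin s × Fin s, F ((z.1, ab.1), (nxt z, ab.2))) +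
      M • ∑ y : Tor n, ∑ ab : Fin s × Fin s with ab.1 < ab.2, F ((y, ab.1), (y, ab.2)) := by
  rw [edgesS, List.map_append, List.sum_append, sum_replicate, sum_interE, sum_interL]
  congr 1
  · exact sum_edges (n := n) fun e => ∑ ab : Fin s × Fin s, F ((e.1, ab.1), (e.2, ab.2))
  · congr 1
    rw [intraE, List.map_map, Finset.sum_map_toList, Finset.sum_filter, Fintype.sum_prod_type]
    refine Finset.sum_congr rfl fun u _ => ?_
    rw [Finset.sum_filter]
    rfl

theorem sum_getL {α M' : Type*} [AddCommMonoid M'] (L : List α) (F : α → M') :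
    ∑ i : Fin L.length, F (L.get i) = (L.map F).sum := by
  rw [← Fin.sum_univ_fun_getElem]
  rfl

/-- the bonds inside in the exponent -/
theorem inX_edgesS (M : ℕ) (Q : Finset (Tor n)) (β : ℝ) :
    inX (Q ×ˢ (Finset.univ : Finset (Fin s))) β
      (fun i : Fin (edgesS n s M).length => ((edgesS n s M).get i).1)
      (fun i => ((edgesS n s M).get i).2) (fun _ => 1) =
      (β : ℂ) • (inA s Q + (M : ℂ) • inB s Q) := by
  rw [inX, Finset.sum_filter]
  refine (sum_getL (edgesS n s M) (fun e => if e.1 ∈ Q ×ˢ (Finset.univ : Finset (Fin s)) ∧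
    e.2 ∈ Q ×ˢ (Finset.univ : Finset (Fin s)) then
    (((β * 1 : ℝ)) : ℂ) • (hM e.1 e.2 : Matrix (Cfg (Tor n × Fin s)) (Cfg (Tor n × Fin s)) ℂ)
      else 0)).trans ?_
  rw [sum_edgesS]
  have hA : (∑ z : Tor n × Fin 3, ∑ ab : Fin s × Fin s,
      if (((z.1, ab.1), (nxt z, ab.2)) : (Tor n × Fin s) × (Tor n × Fin s)).1 ∈
          Q ×ˢ (Finset.univ : Finset (Fin s)) ∧
        (((z.1, ab.1), (nxt z, ab.2)) : (Tor n × Fin s) × (Tor n × Fin s)).2 ∈
          Q ×ˢ (Finset.univ : Finset (Fin s)) then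
        (((β * 1 : ℝ)) : ℂ) • (hM (z.1, ab.1) (nxt z, ab.2) :
          Matrix (Cfg (Tor n × Fin s)) (Cfg (Tor n × Fin s)) ℂ) else 0) = (β : ℂ) • inA s Q := by
    rw [inA, ins, Finset.sum_filter, Finset.smul_sum]
    refine Finset.sum_congr rfl fun z _ => ?_
    by_cases hz : z.1 ∈ Q ∧ nxt z ∈ Q
    · rw [if_pos hz, Finset.smul_sum]
      refine Finset.sum_congr rfl fun ab _ => ?_
      rw [if_pos (by simpa using hz), mul_one]
    · rw [if_neg hz, smul_zero]
      refine Finset.sum_eq_zero fun ab _ => ?_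
      rw [if_neg (by simpa using hz)]
  have hB : (∑ y : Tor n, ∑ ab : Fin s × Fin s with ab.1 < ab.2,
      if (((y, ab.1), (y, ab.2)) : (Tor n × Fin s) × (Tor n × Fin s)).1 ∈
          Q ×ˢ (Finset.univ : Finset (Fin s)) ∧
        (((y, ab.1), (y, ab.2)) : (Tor n × Fin s) × (Tor n × Fin s)).2 ∈
          Q ×ˢ (Finset.univ : Finset (Fin s)) then
        (((β * 1 : ℝ)) : ℂ) • (hM (y, ab.1) (y, ab.2) :
          Matrix (Cfg (Tor n × Fin s)) (Cfg (Tor n × Fin s)) ℂ) else 0) = (β : ℂ) • inB s Q := by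
    rw [inB, Finset.smul_sum, ← Finset.sum_subset (Finset.subset_univ Q)]
    · refine Finset.sum_congr rfl fun y hy => ?_
      rw [Finset.smul_sum]
      refine Finset.sum_congr rfl fun ab _ => ?_
      rw [if_pos (by simpa using hy), mul_one]
    · intro y _ hy
      refine Finset.sum_eq_zero fun ab _ => ?_
      rw [if_neg (by simpa using hy)]
  refine (congrArg₂ (· + ·) hA (congrArg (M • ·) hB)).trans ?_
  show _ + _ = _
  rw [← Nat.cast_smul_eq_nsmul ℂ, smul_add, smul_smul, smul_smul, mul_comm (M : ℂ)]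

theorem cpx_isHermitian {ι : Type*} [Fintype ι] [DecidableEq ι] {A : Matrix ι ι ℝ} (hA : A.IsSymm) :
    (cpx A).IsHermitian := by
  ext i j
  rw [Matrix.conjTranspose_apply, cpx, Matrix.map_apply, Matrix.map_apply, hA.apply]
  simp

theorem box_symm (s l M : ℕ) (c : ℝ) : (c • (S3S.boxA s l + (M : ℝ) • S3S.boxB s l)).IsSymm := by
  unfold S3S.boxA S3S.boxB
  exact (((ham_symm _ _).smul _).add ((ham_symm _ _).smul _)).smul _

/-- the free cube of the torus with copies against the free box with copies -/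
theorem log_resQS_le (M : ℕ) (x : Tor n) {l : ℕ} (hl : l ≤ n) {β : ℝ} (hβ : 0 ≤ β) :
    Real.log (trace (NormedSpace.exp (resQ (cube n x l ×ˢ (Finset.univ : Finset (Fin s)))
      (((-(1 / 2) : ℝ) : ℂ) • inX (cube n x l ×ˢ (Finset.univ : Finset (Fin s))) β
        (fun i : Fin (edgesS n s M).length => ((edgesS n s M).get i).1)
        (fun i => ((edgesS n s M).get i).2) (fun _ => 1))))).re ≤
      Real.log (S3S.ZbM s l M (β / 2)) := by
  set QS := cube n x l ×ˢ (Finset.univ : Finset (Fin s)) with hQS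
  have hin := inX_isHermitian QS β (fun i : Fin (edgesS n s M).length => ((edgesS n s M).get i).1)
        (fun i => ((edgesS n s M).get i).2) (fun _ => 1)
  have hon := inX_onQ QS β (fun i : Fin (edgesS n s M).length => ((edgesS n s M).get i).1)
        (fun i => ((edgesS n s M).get i).2) (fun _ => 1)
  have hX : (cpx (-(β / 2) • (S3S.boxA s l + (M : ℝ) • S3S.boxB s l))).IsHermitian :=
    cpx_isHermitian (box_symm s l M _)
  rw [log_resQ _ (onQ_smul _ hon) (smul_real_isHermitian hin _)]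
  have h1 : nlt (((-(1 / 2) : ℝ) : ℂ) •
      inX QS β (fun i : Fin (edgesS n s M).length => ((edgesS n s M).get i).1)
        (fun i => ((edgesS n s M).get i).2) (fun _ => 1)) ≤
      nlt (cpx (-(β / 2) • (S3S.boxA s l + (M : ℝ) • S3S.boxB s l))) := by
    rw [← nlt_emb (eS s x l) (eS_injective hl) hX]
    unfold nlt
    refine sub_le_sub_right (Real.log_le_log (trace_exp_pos (smul_real_isHermitian hin _)) ?_) _
    refine trace_exp_mono (smul_real_isHermitian hin _) (emb_isHermitian _ hX) ?_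
    have e : emb (eS s x l) (cpx (-(β / 2) • (S3S.boxA s l + (M : ℝ) • S3S.boxB s l))) -
        ((-(1 / 2) : ℝ) : ℂ) • inX QS β
          (fun i : Fin (edgesS n s M).length => ((edgesS n s M).get i).1)
        (fun i => ((edgesS n s M).get i).2) (fun _ => 1) =
        (((β / 2 : ℝ)) : ℂ) • ((inA s (cube n x l) - emb (eS s x l) (cpx (S3S.boxA s l))) +
          (((M : ℝ)) : ℂ) • (inB s (cube n x l) - emb (eS s x l) (cpx (S3S.boxB s l)))) := by
      rw [cpx_smul, cpx_add, cpx_smul, emb_smul, emb_add, emb_smul, hQS, inX_edgesS, smul_smul,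
        smul_sub]
      push_cast
      module
    rw [e]
    exact smul_real_posSemidef ((emb_boxA_le x hl).add
      (smul_real_posSemidef (emb_boxB_le x hl) (Nat.cast_nonneg M))) (by positivity)
  have h2 : Real.log (S3S.ZbM s l M (β / 2)) =
      nlt (cpx (-(β / 2) • (S3S.boxA s l + (M : ℝ) • S3S.boxB s l))) +
        ((l : ℝ) ^ 3 * s) * Real.log 2 := by
    have hc : Fintype.card (B.cube l × Fin s) = l ^ 3 * s := by
      rw [Fintype.card_prod, Fintype.card_coe, B.cube_eq, card_cube, Fintype.card_fin]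
    unfold nlt
    rw [hc, ← cpx_exp, cpx_trace, S3S.ZbM]
    push_cast
    ring
  have h3 : ((QS.card : ℕ) : ℝ) ≤ (l : ℝ) ^ 3 * s := by
    rw [hQS, Finset.card_product, Finset.card_univ, Fintype.card_fin]
    push_cast
    have : ((cube n x l).card : ℝ) ≤ (l : ℝ) ^ 3 := by exact_mod_cast card_cube_le x l
    exact mul_le_mul_of_nonneg_right this (by positivity)
  have h4 : 0 ≤ Real.log 2 := Real.log_nonneg (by norm_num)
  have h5 := mul_le_mul_of_nonneg_right h3 h4
  rw [h2]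
  linarith

/-- **Energy of a cube with copies.** -/
theorem energyS_ins (M : ℕ) {β : ℝ} (hβ : 0 ≤ β) {h : Tor n → ℝ} (hh : ∀ x, 0 ≤ h x) (x : Tor n)
    {l : ℕ} (hl0 : 0 < l) (hl : l ≤ n) :
    β * ∑ i : Fin s, ∑ j : Fin s, ∑ z ∈ ins (cube n x l), ee n s M β h z i j ≤
      2 * (Real.log (S3S.ZbM s l M (β / 2)) + 6 * s ^ 2 * β * (l : ℝ) ^ 2) := by
  set Q := cube n x l with hQ
  set QS := Q ×ˢ (Finset.univ : Finset (Fin s)) with hQS
  have h1 := energy_half QS (hS h) (fun i : Fin (edgesS n s M).length => ((edgesS n s M).get i).1)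
    (fun i => ((edgesS n s M).get i).2) hβ (c := fun _ => 1) (fun _ => zero_le_one)
    (fun y _ => hh y.1)
  have h2 := log_resQS_le (s := s) M x hl hβ
  have h3 : ∑ i : Fin s, ∑ j : Fin s, ∑ z ∈ ins Q, ee n s M β h z i j ≤
      ∑ i : Fin (edgesS n s M).length with (((edgesS n s M).get i).1 ∈ QS ∧
      ((edgesS n s M).get i).2 ∈ QS), (1 : ℝ) * ex (gibX β (hS h)
        (fun i : Fin (edgesS n s M).length => ((edgesS n s M).get i).1)
        (fun i => ((edgesS n s M).get i).2) (fun _ => 1))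
        (hM ((edgesS n s M).get i).1 ((edgesS n s M).get i).2) := by
    rw [Finset.sum_filter]
    simp only [one_mul, ← gib_hM]
    rw [sum_getL (edgesS n s M) (fun e => if e.1 ∈ QS ∧ e.2 ∈ QS then
      gib (edgesS n s M) β (hS h) (LRO.hM e.1 e.2) else 0), sum_edgesS]
    refine le_trans (le_of_eq ?_) (le_add_of_nonneg_right ?_)
    · have e1 : ∀ i j : Fin s, ∑ z ∈ ins Q, ee n s M β h z i j =
          ∑ z : Tor n × Fin 3, if z.1 ∈ Q ∧ nxt z ∈ Q then ee n s M β h z i j else 0 := by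
        intro i j
        rw [ins, Finset.sum_filter]
      simp only [e1]
      rw [Finset.sum_congr rfl fun i _ => Finset.sum_comm, Finset.sum_comm]
      refine Finset.sum_congr rfl fun z _ => ?_
      rw [Fintype.sum_prod_type]
      refine Finset.sum_congr rfl fun i _ => Finset.sum_congr rfl fun j _ => ?_
      simp only [hQS, Finset.mem_product, Finset.mem_univ, and_true]
      rfl
    · refine nsmul_nonneg (Finset.sum_nonneg fun y _ => Finset.sum_nonneg fun ab _ => ?_) _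
      split_ifs
      · exact gib_hM_nonneg _ _ _ _ _
      · exact le_rfl
  have h4 : ∑ i : Fin (edgesS n s M).length with ((((edgesS n s M).get i).1 ∈ QS ∨
      ((edgesS n s M).get i).2 ∈ QS) ∧ ¬ (((edgesS n s M).get i).1 ∈ QS ∧
      ((edgesS n s M).get i).2 ∈ QS)), (1 : ℝ) = (s : ℝ) ^ 2 * ((bdy Q).card : ℝ) := by
    rw [Finset.sum_filter, sum_getL (edgesS n s M) (fun e => if (e.1 ∈ QS ∨ e.2 ∈ QS) ∧
      ¬ (e.1 ∈ QS ∧ e.2 ∈ QS) then (1 : ℝ) else 0), sum_edgesS]
    have e2 : (∑ y : Tor n, ∑ ab : Fin s × Fin s with ab.1 < ab.2,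
        if ((y, ab.1) ∈ QS ∨ (y, ab.2) ∈ QS) ∧ ¬ ((y, ab.1) ∈ QS ∧ (y, ab.2) ∈ QS) then
          (1 : ℝ) else 0) = 0 := by
      refine Finset.sum_eq_zero fun y _ => Finset.sum_eq_zero fun ab _ => ?_
      rw [if_neg]
      simp only [hQS, Finset.mem_product, Finset.mem_univ, and_true]
      tauto
    rw [e2, smul_zero, add_zero, bdy, Finset.card_filter]
    push_cast
    rw [Finset.mul_sum]
    refine Finset.sum_congr rfl fun z _ => ?_
    simp only [hQS, Finset.mem_product, Finset.mem_univ, and_true]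
    rw [Finset.sum_const, Finset.card_univ, Fintype.card_prod, Fintype.card_fin, nsmul_eq_mul]
    push_cast
    ring
  rw [h4] at h1
  have h5 : ((bdy Q).card : ℝ) ≤ 6 * (l : ℝ) ^ 2 := by exact_mod_cast card_bdy_le x hl0
  have h6 : β * ((s : ℝ) ^ 2 * ((bdy Q).card : ℝ)) ≤ β * ((s : ℝ) ^ 2 * (6 * (l : ℝ) ^ 2)) := by
    gcongr
  have h7 := mul_le_mul_of_nonneg_left h3 hβ
  linarith

/-- the bonds touching a cube are inside the cube with one more layer -/
theorem tch_subset_ins (x : Tor n) (l : ℕ) :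
    tch (cube n x l) ⊆ ins (cube n (x - 1) (l + 2)) := by
  have key : ∀ (y : Tor n) (a : Fin 3 → Fin l) (k : Fin 3) (c : ℕ), c ≤ 2 →
      y = (x + fun i => ((a i : ℕ) : ZMod n)) - Pi.single k 1 + Pi.single k (c : ZMod n) →
      y ∈ cube n (x - 1) (l + 2) := by
    intro y a k c hc hy
    refine mem_cube.2 ⟨fun i => ⟨if i = k then (a i : ℕ) + c else (a i : ℕ) + 1, ?_⟩, ?_⟩
    · have := (a i).2
      split_ifs <;> omega
    · rw [hy]
      funext i
      by_cases hi : i = k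
      · subst hi
        simp only [Pi.add_apply, Pi.sub_apply, Pi.single_eq_same, if_true, Pi.one_apply]
        push_cast
        ring
      · simp only [Pi.add_apply, Pi.sub_apply, Pi.single_eq_of_ne hi, if_neg hi, Pi.one_apply]
        push_cast
        ring
  intro z hz
  rw [tch, Finset.mem_filter] at hz
  rw [ins, Finset.mem_filter]
  refine ⟨Finset.mem_univ _, ?_⟩
  rcases hz.2 with h | h
  · obtain ⟨a, ha⟩ := mem_cube.1 h
    refine ⟨key _ a z.2 1 (by norm_num) ?_, key _ a z.2 2 le_rfl ?_⟩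
    · rw [ha]; push_cast; abel
    · rw [nxt, ha]
      have : (Pi.single z.2 ((2 : ℕ) : ZMod n) : Tor n) = Pi.single z.2 1 + Pi.single z.2 1 := by
        rw [← Pi.single_add]; norm_num
      rw [this]; abel
  · obtain ⟨a, ha⟩ := mem_cube.1 h
    have hz1 : z.1 = nxt z - Pi.single z.2 1 := by rw [nxt]; abel
    refine ⟨key _ a z.2 0 (by norm_num) ?_, key _ a z.2 1 (by norm_num) ?_⟩
    · rw [hz1, ha]; push_cast; simp
    · rw [ha]; push_cast; abel

end

end Vale.Agent.P361.LRO.Energy.ETS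

namespace Vale.Agent.P361.LRO.S3S

open Finset Matrix Vale.Agent.P361.LRO.GenS Vale.Agent.P361.LRO.S3
open Vale.Agent.P361.LRO.GenS.EnS

noncomputable section

variable {n s : ℕ} [NeZero n]

theorem gib_CM {V : Type} [Fintype V] [DecidableEq V] (L : List (V × V)) (β : ℝ) (h : V → ℝ)
    (b : Finset V) : gib L β h (CM b) = ∑ x ∈ b, ∑ y ∈ b, gib L β h (hM x y) := by
  rw [CM]
  have hs : ∀ {κ : Type} (t : Finset κ) (F : κ → Matrix (V → Fin 2) (V → Fin 2) ℝ),
      gib L β h (∑ k ∈ t, F k) = ∑ k ∈ t, gib L β h (F k) := by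
    intro κ t F
    unfold gib
    rw [Matrix.mul_sum, Matrix.trace_sum, Finset.sum_div]
  rw [hs]
  exact Finset.sum_congr rfl fun x _ => hs _ _

/-- **Energy of the blocks** (geometry half of `EnergyStmt3S`). -/
theorem energyS_blocks (hs : 0 < s) (M : ℕ) {β : ℝ} (hβ : 0 < β) {h : Tor n → ℝ}
    (hh : ∀ x, 0 ≤ h x) (x : Tor n) (w m : ℕ) (hw : 1 ≤ w) (hm : 1 ≤ m) (hwm : w * m + 2 ≤ n) :
    (∑ y : Fin 3 → Fin m, yb (edgesS n s M) β (hS h)
      (cubeS n s (x + fun i => ((w * (y i : ℕ) : ℕ) : ZMod n)) w)) / (m : ℝ) ^ 3 ≤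
      (40 * s + 64) / ((s : ℝ) ^ 2 * β * w * (m : ℝ) ^ 3) *
        (2 * (Real.log (ZbM s (w * m + 2) M (β / 2)) +
          6 * s ^ 2 * β * (((w * m + 2 : ℕ)) : ℝ) ^ 2)) := by
  have hw' : (0 : ℝ) < w := by exact_mod_cast hw
  have hm' : (0 : ℝ) < m := by exact_mod_cast hm
  have hs' : (0 : ℝ) < s := by exact_mod_cast hs
  have hwn : w ≤ n := by nlinarith
  have h1 := total_le (s := s) M β h x w m hw hwn (by omega)
  have h2 := Energy.ETS.energyS_ins (s := s) M hβ.le hh (x - 1) (l := w * m + 2) (by omega) hwm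
  have h3 : ∑ i : Fin s, ∑ j : Fin s, ∑ z ∈ Energy.tch (cube n x (w * m)), ee n s M β h z i j ≤
      ∑ i : Fin s, ∑ j : Fin s, ∑ z ∈ Energy.ET.ins (cube n (x - 1) (w * m + 2)),
        ee n s M β h z i j :=
    Finset.sum_le_sum fun i _ => Finset.sum_le_sum fun j _ =>
      Finset.sum_le_sum_of_subset_of_nonneg (Energy.ETS.tch_subset_ins x (w * m))
        fun z _ _ => ee_nonneg _ _ _ _ _ _
  have h4 : ∀ y : Fin 3 → Fin m, yb (edgesS n s M) β (hS h)
      (cubeS n s (x + fun i => ((w * (y i : ℕ) : ℕ) : ZMod n)) w) =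
      1 / ((w : ℝ) ^ 6 * s ^ 2) *
      ∑ z ∈ cubeS n s (x + fun i => ((w * (y i : ℕ) : ℕ) : ZMod n)) w,
      ∑ z' ∈ cubeS n s (x + fun i => ((w * (y i : ℕ) : ℕ) : ZMod n)) w,
        gib (edgesS n s M) β (hS h) (hM z z') := by
    intro y
    rw [yb, gib_CM, card_cubeS _ hwn]
    field_simp
  simp only [h4]
  rw [← Finset.mul_sum]
  set E := 2 * (Real.log (ZbM s (w * m + 2) M (β / 2)) +
          6 * s ^ 2 * β * (((w * m + 2 : ℕ)) : ℝ) ^ 2) with hE
  have h5 : ∑ i : Fin s, ∑ j : Fin s, ∑ z ∈ Energy.tch (cube n x (w * m)), ee n s M β h z i j ≤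
      E / β := by
    rw [le_div_iff₀ hβ, mul_comm]
    exact (mul_le_mul_of_nonneg_left h3 hβ.le).trans h2
  have h6 : (40 * (s : ℝ) + 64) * (w : ℝ) ^ 5 * ∑ i : Fin s, ∑ j : Fin s,
      ∑ z ∈ Energy.tch (cube n x (w * m)), ee n s M β h z i j ≤
      (40 * s + 64) * (w : ℝ) ^ 5 * (E / β) := mul_le_mul_of_nonneg_left h5 (by positivity)
  rw [div_le_iff₀ (by positivity)]
  calc 1 / ((w : ℝ) ^ 6 * s ^ 2) * _ ≤ 1 / ((w : ℝ) ^ 6 * s ^ 2) *
        ((40 * s + 64) * (w : ℝ) ^ 5 * (E / β)) :=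
        mul_le_mul_of_nonneg_left (h1.trans h6) (by positivity)
    _ = (40 * s + 64) / ((s : ℝ) ^ 2 * β * w * (m : ℝ) ^ 3) * E * (m : ℝ) ^ 3 := by
        field_simp

theorem ham_zero {V : Type} [Fintype V] [DecidableEq V] (L : List (V × V)) :
    ham L (0 : V → ℝ) = (L.map fun e => hM e.1 e.2).sum := by
  rw [ham]; simp

theorem ham_Lm_zero {V : Type} [Fintype V] [DecidableEq V] (L : List (V × V)) (s m : ℕ) :
    ham (Lm L s m) (0 : V × Fin s → ℝ) = ham (interL L s) 0 + (m : ℝ) • ham (intraL V s) 0 := by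
  rw [ham_zero, ham_zero, ham_zero, Lm, List.map_append, List.sum_append,
    Energy.ETS.sum_replicate, Nat.cast_smul_eq_nsmul]

theorem ZbM_eq (s l M : ℕ) (β : ℝ) : ZbM s l M (β / 2) =
    trace (NormedSpace.exp (-(β / 4) • ham (Lm (nnL (B.cube l)) s (2 * M)) 0)) := by
  rw [ZbM, boxA, boxB, ham_Lm_zero]
  congr 2
  push_cast
  module

/-- **Seam** (683's form). -/
theorem seamE (M : ℕ) {β : ℝ} (hβ : 0 ≤ β) {h : Tor n → ℝ} (hh : ∀ x, 0 ≤ h x) (x : Tor n) {l : ℕ}
    (hl0 : 0 < l) (hl : l ≤ n) :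
    β * ∑ z ∈ Energy.ET.ins (cube n x l), ∑ i : Fin s, ∑ j : Fin s, ee n s M β h z i j ≤
      2 * (Real.log (trace (NormedSpace.exp
        (-(β / 4) • ham (Lm (nnL (B.cube l)) s (2 * M)) 0))) + 6 * s ^ 2 * β * (l : ℝ) ^ 2) := by
  rw [← ZbM_eq]
  refine le_trans (le_of_eq ?_) (Energy.ETS.energyS_ins (s := s) M hβ hh x hl0 hl)
  congr 1
  rw [Finset.sum_comm]
  refine Finset.sum_congr rfl fun i _ => ?_
  rw [Finset.sum_comm]

end

end Vale.Agent.P361.LRO.S3S
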