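import Vale.Agent.P361.LRO.S3S.Iface
import Vale.Agent.P361.LRO.GenS.Lm
import Vale.Agent.P361.LRO.S3.LT0Bridge
import Vale.Agent.P361.LRO.Bloch.ZeroField

/-!
P361, stage 3, all spins, block (E): the numbers (helper683).  Inputs: the geometry half `GeoE` and
the limit `M → ∞` on the free box `BoxE`.
-/

namespace Vale.Agent.P361.LRO.S3S

open Finset Matrix Filter Topology Vale.Agent.P361.LRO.GenS Vale.Agent.P361.LRO.S3

noncomputable section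

/-- Partition function of the free box with `2 M`-fold coupling inside the sites. -/
def ZbE (s l M : ℕ) (β : ℝ) : ℝ :=
  trace (NormedSpace.exp (-(β / 4) • ham (Lm (nnL (B.cube l)) s (2 * M)) 0))

/-- Geometry half. -/
def GeoE (s : ℕ) : Prop :=
  ∀ (n M : ℕ) [NeZero n] (β : ℝ) (h : Tor n → ℝ) (x : Tor n) (w m : ℕ), 0 < β →
    (∀ x, 0 ≤ h x) → 1 ≤ w → 1 ≤ m → w * m + 2 ≤ n →
    (∑ y : Fin 3 → Fin m, yb (edgesS n s M) β (hS h)
      (cubeS n s (x + fun i => ((w * (y i : ℕ) : ℕ) : ZMod n)) w)) / (m : ℝ) ^ 3 ≤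
      (40 * s + 64) / ((s : ℝ) ^ 2 * β * w * (m : ℝ) ^ 3) *
        (2 * (Real.log (ZbE s (w * m + 2) M β) + 6 * (s : ℝ) ^ 2 * β * ((w * m + 2 : ℕ) : ℝ) ^ 2))

/-- Free box, `M → ∞`. -/
def BoxE (s : ℕ) : Prop :=
  ∀ (l : ℕ) (β : ℝ), 0 < β →
    Tendsto (fun M : ℕ => ZbE s l M β) atTop (𝓝 (B.Zt s (B.cube l) (β / 2) 0))

/-- `M0` uniform in the finitely many boxes. -/
theorem energy_M0 {s : ℕ} (hZ : BoxE s) {β : ℝ} (hβ : 0 < β) (K : ℕ) :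
    ∃ M0 : ℕ, ∀ M : ℕ, M0 ≤ M → ∀ l : ℕ, l ≤ K →
      Real.log (ZbE s l M β) ≤ Real.log (B.Zt s (B.cube l) (β / 2) 0) + 1 := by
  have h1 : ∀ l : ℕ, ∀ᶠ M : ℕ in atTop,
      Real.log (ZbE s l M β) ≤ Real.log (B.Zt s (B.cube l) (β / 2) 0) + 1 := by
    intro l
    have hpos : 0 < B.Zt s (B.cube l) (β / 2) 0 := B.Zt_pos _ _
    have h2 := (hZ l β hβ).log hpos.ne'
    exact (h2.eventually (Iio_mem_nhds (lt_add_one _))).mono fun M hM => le_of_lt hM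
  have h2 : ∀ᶠ M : ℕ in atTop, ∀ l ∈ Finset.range (K + 1),
      Real.log (ZbE s l M β) ≤ Real.log (B.Zt s (B.cube l) (β / 2) 0) + 1 :=
    (Filter.eventually_all_finset _).2 fun l _ => h1 l
  obtain ⟨M0, hM0⟩ := Filter.eventually_atTop.1 h2
  exact ⟨M0, fun M hM l hl => hM0 M hM l (Finset.mem_range.2 (by omega))⟩

/-- The arithmetic. -/
theorem energy_num {A C β w m l E : ℝ} (hA : 0 ≤ A) (hC : 0 ≤ C) (hβ : 1 ≤ β) (hw : 1 ≤ w)
    (hm : 0 < m) (hw3 : w ≤ 3 * Real.sqrt β) (h1 : β ^ (3 : ℝ) ≤ w * m) (h2 : 2 ≤ w * m)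
    (hl : l = w * m + 2) (hE : E ≤ C * l ^ 3 * β ^ (-(3 / 2) : ℝ) + C * β * l ^ 2) :
    A / (β * w * m ^ 3) * E ≤ 9 * A * (12 * C) * β ^ (-(3 / 2) : ℝ) := by
  have hβ0 : 0 < β := by linarith
  have hw0 : 0 < w := by linarith
  have hr : 0 < β ^ (-(3 / 2) : ℝ) := Real.rpow_pos_of_pos hβ0 _
  set r : ℝ := β ^ (-(3 / 2) : ℝ) with hrdef
  set q : ℝ := w * m with hq
  have hq0 : 0 < q := mul_pos hw0 hm
  have hl2 : l ≤ 2 * q := by rw [hl]; linarith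
  have hl0 : 0 ≤ l := by rw [hl]; linarith
  have e3 : β ^ (3 : ℝ) = β ^ 3 := by
    rw [← Real.rpow_natCast]; norm_num
  rw [e3] at h1
  have hw2 : w ^ 2 ≤ 9 * β := by
    have h3 : w ^ 2 ≤ (3 * Real.sqrt β) ^ 2 := pow_le_pow_left₀ hw0.le hw3 2
    rw [mul_pow, Real.sq_sqrt hβ0.le] at h3
    linarith
  -- r ≥ β^{-2}
  have hr2 : 1 / β ^ 2 ≤ r := by
    have h4 : β ^ (-(2 : ℝ)) ≤ β ^ (-(3 / 2) : ℝ) :=
      Real.rpow_le_rpow_of_exponent_le hβ (by norm_num)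
    have h5 : β ^ (-(2 : ℝ)) = 1 / β ^ 2 := by
      rw [Real.rpow_neg hβ0.le, one_div]
      congr 1
      rw [← Real.rpow_natCast]; norm_num
    rw [← h5]; exact h4
  have hE1 : E ≤ 8 * C * q ^ 3 * r + 4 * C * β * q ^ 2 := by
    have h3 : l ^ 3 ≤ (2 * q) ^ 3 := pow_le_pow_left₀ hl0 hl2 3
    have h4 : l ^ 2 ≤ (2 * q) ^ 2 := pow_le_pow_left₀ hl0 hl2 2
    have h5 : C * l ^ 3 * r ≤ C * (2 * q) ^ 3 * r := by gcongr
    have h6 : C * β * l ^ 2 ≤ C * β * (2 * q) ^ 2 := by gcongr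
    nlinarith
  have hpos : 0 < β * w * m ^ 3 := by positivity
  have hid : A / (β * w * m ^ 3) * (8 * C * q ^ 3 * r + 4 * C * β * q ^ 2) =
      8 * A * C * r * (w ^ 2 / β) + 4 * A * C * (w ^ 2 / q) := by
    rw [hq]
    field_simp
  have h7 : w ^ 2 / β ≤ 9 := by
    rw [div_le_iff₀ hβ0]; linarith
  have h8 : w ^ 2 / q ≤ 9 * r := by
    have h9 : w ^ 2 / q ≤ 9 * β / β ^ 3 := by
      apply div_le_div₀ (by positivity) hw2 (by positivity) h1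
    refine h9.trans ?_
    have h10 : 9 * β / β ^ 3 = 9 * (1 / β ^ 2) := by
      field_simp
    rw [h10]
    exact mul_le_mul_of_nonneg_left hr2 (by norm_num)
  calc A / (β * w * m ^ 3) * E ≤ A / (β * w * m ^ 3) * (8 * C * q ^ 3 * r + 4 * C * β * q ^ 2) :=
        mul_le_mul_of_nonneg_left hE1 (by positivity)
    _ = 8 * A * C * r * (w ^ 2 / β) + 4 * A * C * (w ^ 2 / q) := hid
    _ ≤ 8 * A * C * r * 9 + 4 * A * C * (9 * r) := by
        gcongr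
    _ = _ := by ring

/-- **(E) for all spins** from the two inputs. -/
theorem energyStmt3S_of {s : ℕ} (hs : 1 ≤ s) (hG : GeoE s) (hZ : BoxE s) : EnergyStmt3S s := by
  obtain ⟨C0, b0, hC0, hb0, hlog⟩ := B.log_Zt_zero' (n := s) hs
  have hs' : (0 : ℝ) < s := by exact_mod_cast hs
  set A : ℝ := 2 * (40 * s + 64) / (s : ℝ) ^ 2 with hA
  set C : ℝ := 8 * C0 + 6 * (s : ℝ) ^ 2 + 1 with hC
  refine ⟨9 * A * (12 * C), max (4 * b0) 2, ?_⟩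
  intro β hβ
  have hβb : 4 * b0 ≤ β := (le_max_left _ _).trans hβ
  have hβ2 : 2 ≤ β := (le_max_right _ _).trans hβ
  have hβ0 : 0 < β := by linarith
  refine ⟨⌈2 * β ^ (3 : ℝ)⌉₊ + 2, ?_⟩
  intro n _ hn
  obtain ⟨M0, hM0⟩ := energy_M0 hZ hβ0 n
  refine ⟨M0, ?_⟩
  intro M hM g hg x w m hw hw3 h1 h2
  have e3 : β ^ (3 : ℝ) = β ^ 3 := by
    rw [← Real.rpow_natCast]; norm_num
  have hβ3 : 2 ≤ β ^ (3 : ℝ) := by
    rw [e3]
    nlinarith [sq_nonneg (β - 1), sq_nonneg β]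
  have hwm : w * m + 2 ≤ n := by
    have h3 : ((w * m : ℕ) : ℝ) ≤ ((⌈2 * β ^ (3 : ℝ)⌉₊ : ℕ) : ℝ) := by
      push_cast
      exact h2.trans (Nat.le_ceil _)
    have h4 : w * m ≤ ⌈2 * β ^ (3 : ℝ)⌉₊ := by exact_mod_cast h3
    omega
  have hm0 : 1 ≤ m := by
    rcases Nat.eq_zero_or_pos m with rfl | h
    · exfalso
      rw [Nat.cast_zero, mul_zero] at h1
      linarith
    · exact h
  have hw' : (1 : ℝ) ≤ w := by exact_mod_cast hw
  have hm' : (0 : ℝ) < m := by exact_mod_cast hm0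
  have h5 := hG n M β (fun z => g z / (s * β)) x w m hβ0
    (fun z => (div_pos (hg z).1 (by positivity)).le) hw hm0 hwm
  refine h5.trans ?_
  have h6 := hM0 M hM (w * m + 2) hwm
  have h7 := hlog (β / 4) (by linarith) (w * m + 2)
  have e1 : 2 * (β / 4) = β / 2 := by ring
  rw [e1] at h7
  set l : ℝ := ((w * m + 2 : ℕ) : ℝ) with hl
  have hl' : l = w * m + 2 := by rw [hl]; push_cast; ring
  have e2 : (β / 4) ^ (-(3 / 2) : ℝ) = 8 * β ^ (-(3 / 2) : ℝ) := by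
    rw [Real.div_rpow hβ0.le (by norm_num)]
    have : (4 : ℝ) ^ (-(3 / 2) : ℝ) = 1 / 8 := by
      rw [show (4 : ℝ) = 2 ^ (2 : ℝ) by norm_num, ← Real.rpow_mul (by norm_num),
        show (2 : ℝ) * (-(3 / 2)) = -(3 : ℝ) by norm_num, Real.rpow_neg (by norm_num)]
      norm_num
    rw [this]
    ring
  have e4 : (β / 4) ^ (0.51 : ℝ) ≤ β := by
    have h8 : (β / 4) ^ (0.51 : ℝ) ≤ β ^ (0.51 : ℝ) :=
      Real.rpow_le_rpow (by positivity) (by linarith) (by norm_num)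
    have h9 : β ^ (0.51 : ℝ) ≤ β ^ (1 : ℝ) :=
      Real.rpow_le_rpow_of_exponent_le (by linarith) (by norm_num)
    rw [Real.rpow_one] at h9
    exact h8.trans h9
  rw [e2] at h7
  have hr : 0 < β ^ (-(3 / 2) : ℝ) := Real.rpow_pos_of_pos hβ0 _
  have hl1 : 1 ≤ l := by
    rw [hl']
    have : 0 ≤ (w : ℝ) * m := by positivity
    linarith
  have h10 : Real.log (ZbE s (w * m + 2) M β) + 6 * (s : ℝ) ^ 2 * β * l ^ 2 ≤
      C * l ^ 3 * β ^ (-(3 / 2) : ℝ) + C * β * l ^ 2 := by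
    have a1 : C0 * (β / 4) ^ (0.51 : ℝ) * l ^ 2 ≤ C0 * β * l ^ 2 := by gcongr
    have a2 : (1 : ℝ) ≤ β * l ^ 2 := by nlinarith
    have a3 : 0 ≤ (6 * (s : ℝ) ^ 2 + 1) * l ^ 3 * β ^ (-(3 / 2) : ℝ) := by positivity
    have a4 : 0 ≤ C0 * β * l ^ 2 := by positivity
    have a5 : C * l ^ 3 * β ^ (-(3 / 2) : ℝ) + C * β * l ^ 2 =
        (8 * C0 * l ^ 3 * β ^ (-(3 / 2) : ℝ) + (6 * (s : ℝ) ^ 2 + 1) * l ^ 3 * β ^ (-(3 / 2) : ℝ)) +
          (8 * (C0 * β * l ^ 2) + 6 * (s : ℝ) ^ 2 * β * l ^ 2 + β * l ^ 2) := by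
      rw [hC]; ring
    have a6 : C0 * l ^ 3 * (8 * β ^ (-(3 / 2) : ℝ)) = 8 * C0 * l ^ 3 * β ^ (-(3 / 2) : ℝ) := by ring
    rw [a5]
    rw [a6] at h7
    linarith
  have hq2 : (2 : ℝ) ≤ w * m := hβ3.trans h1
  have h11 := energy_num (A := A) (C := C) (β := β) (w := w) (m := m) (l := l)
    (E := Real.log (ZbE s (w * m + 2) M β) + 6 * (s : ℝ) ^ 2 * β * l ^ 2)
    (by rw [hA]; positivity) (by rw [hC]; positivity) (by linarith) hw' hm' hw3 h1 hq2 hl' h10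
  refine le_trans (le_of_eq ?_) h11
  rw [hA]
  field_simp

end

end Vale.Agent.P361.LRO.S3S
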