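import Vale.Agent.P361.LRO.S3.LT0Bridge
import Vale.Agent.P361.LRO.Tw.J.PSym
import Vale.Agent.P361.LRO.GenS.ExpProj

/-!
P361, stage 3, all spins, lower tail: (LT0S) from the identification of the spin `s / 2` trace,
by (LT0) at `M` intra edges and the limit `M → ∞`.
-/

namespace Vale.Agent.P361.LRO.S3S

open Matrix Finset Filter Topology
open Vale.Agent.P361.LRO.TwJ Vale.Agent.P361.LRO.GenS Vale.Agent.P361.LRO.S3

set_option linter.all false

noncomputable section

section general

variable {V : Type} [Fintype V] [DecidableEq V]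

theorem trace_exp_pos_real {A : Matrix (V → Fin 2) (V → Fin 2) ℝ} (hA : Aᵀ = A) :
    0 < trace (NormedSpace.exp A) := by
  have hC : NormedSpace.exp A = (NormedSpace.exp ((1 / 2 : ℝ) • A))ᴴ *
      NormedSpace.exp ((1 / 2 : ℝ) • A) := by
    rw [Matrix.conjTranspose_eq_transpose_of_trivial, ← Matrix.exp_transpose, transpose_smul,
      hA, ← Matrix.exp_add_of_commute _ _ rfl, ← add_smul]
    norm_num
  have hpsd : (NormedSpace.exp A).PosSemidef := by
    rw [hC]
    exact Matrix.posSemidef_conjTranspose_mul_self _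
  refine lt_of_le_of_ne hpsd.trace_nonneg fun h0 => ?_
  rw [hC] at h0
  have h1 := (Matrix.trace_conjTranspose_mul_self_eq_zero_iff).1 h0.symm
  exact (Matrix.isUnit_exp ((1 / 2 : ℝ) • A)).ne_zero h1

theorem aeval_transpose {A : Matrix (V → Fin 2) (V → Fin 2) ℝ} (hA : Aᵀ = A)
    (P : Polynomial ℝ) : (Polynomial.aeval A P)ᵀ = Polynomial.aeval A P := by
  induction P using Polynomial.induction_on with
  | C a =>
    rw [Polynomial.aeval_C, Algebra.algebraMap_eq_smul_one, transpose_smul, transpose_one]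
  | add p q hp hq => rw [map_add, transpose_add, hp, hq]
  | monomial n a ih =>
    rw [pow_succ, ← mul_assoc, map_mul, Polynomial.aeval_X, transpose_mul, ih, hA]
    exact commute_aeval (Commute.refl A) _

theorem Om_transpose (b : Finset V) : (Om b)ᵀ = Om b := by
  rw [Om, transpose_sum]
  refine Finset.sum_congr rfl fun x _ => ?_
  rw [transpose_sum]
  exact Finset.sum_congr rfl fun y _ => Lim.hM_transpose x y

end general

variable {Λ : Finset Site} {s : ℕ} [NeZero s]

/-- The limit `M → ∞` of one partition function. -/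
theorem tendsto_Z1 (hs : 1 ≤ s) {β : ℝ} (hβ : 0 < β) (τ : ℝ) :
    Tendsto (fun M : ℕ => trace (NormedSpace.exp (-(β / 2) • ham (Lm (nnL Λ) s M)
        0 - τ • Dn (univ : Finset (Λ × Fin s))))) atTop
      (𝓝 (trace (symProd Λ s * NormedSpace.exp (-(β / 2) • ham (interL (nnL Λ) s) 0 -
        τ • Dn (univ : Finset (Λ × Fin s)))))) := by
  have hz : (0 : Λ × Fin s → ℝ) = fun _ => 0 := rfl
  have hl : lift s (fun _ : Λ => (0 : ℝ)) = (0 : Λ × Fin s → ℝ) := rfl
  -- everything commutes with the total spin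
  have hcomm : ∀ L : List ((Λ × Fin s) × (Λ × Fin s)),
      Commute (ham L (fun _ => 0)) (Dn (univ : Finset (Λ × Fin s))) := fun L =>
    (comm_of_Sg (ham_comm_Sg (b := univ) (L := L) fun e _ => ⟨mem_univ _, mem_univ _⟩)).2
  have e1 : ∀ L : List ((Λ × Fin s) × (Λ × Fin s)),
      NormedSpace.exp (-(β / 2) • ham L (fun _ => 0) - τ • Dn (univ : Finset (Λ × Fin s))) =
      NormedSpace.exp (-(β / 2) • ham L (fun _ => 0)) *
        NormedSpace.exp (-τ • Dn (univ : Finset (Λ × Fin s))) := by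
    intro L
    rw [sub_eq_add_neg, ← neg_smul]
    exact Matrix.exp_add_of_commute _ _ (((hcomm L).smul_left _).smul_right _)
  simp only [e1, hz]
  have hpsd : (intraM Λ s).PosSemidef := Lim.sum_hM_posSemidef _
  have hker : ∀ v, intraM Λ s *ᵥ v = 0 → symProd Λ s *ᵥ v = v := fun v hv =>
    symProd_mulVec_of_intra v hv
  have hAB : Commute (intraM Λ s) (ham (interL (nnL Λ) s) (fun _ => 0)) := by
    rw [intraM]
    have key : ∀ l : List ((Λ × Fin s) × (Λ × Fin s)), (∀ e ∈ l, e.1.1 = e.2.1) →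
        Commute (l.map fun e => hM e.1 e.2).sum (ham (interL (nnL Λ) s) (fun _ => 0)) := by
      intro l hl'
      induction l with
      | nil => simp
      | cons e l ih =>
        rw [List.map_cons, List.sum_cons]
        refine Commute.add_left ?_ (ih fun e he => hl' e (by simp [he]))
        have he := hl' e (by simp)
        obtain ⟨⟨x, a⟩, ⟨y, c⟩⟩ := e
        dsimp only at he
        subst he
        rw [hM]
        have h1 := comm_ham (nnL Λ) (fun _ : Λ => (0 : ℝ)) x a c
        exact ((Commute.one_left _).sub_left h1).smul_left _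
    exact key _ fun e he => (mem_intraL.1 he).1
  have h3 := Lim.tendsto_trace_proj (intraM Λ s) (ham (interL (nnL Λ) s) (fun _ => 0))
    (NormedSpace.exp (-τ • Dn (univ : Finset (Λ × Fin s)))) (symProd Λ s) hpsd
    symProd_transpose intraM_mul_symProd hker hAB (b := β / 2) (by positivity)
  rw [mul_assoc] at h3
  refine h3.congr fun M => ?_
  rw [ham_Lm]

/-- The same along the even numbers. -/
theorem tendsto_Z (hs : 1 ≤ s) {β : ℝ} (hβ : 0 < β) (τ : ℝ) :
    Tendsto (fun M : ℕ => trace (NormedSpace.exp (-(β / 2) • ham (Lm (nnL Λ) s (2 * M))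
        (fun _ => 0) - τ • Dn (univ : Finset (Λ × Fin s))))) atTop
      (𝓝 (trace (symProd Λ s * NormedSpace.exp (-(β / 2) • ham (interL (nnL Λ) s) 0 -
        τ • Dn (univ : Finset (Λ × Fin s)))))) := by
  have h4 : Tendsto (fun M : ℕ => 2 * M) atTop atTop :=
    tendsto_atTop_mono (fun n => by simp only [id]; omega) tendsto_id
  exact (tendsto_Z1 hs hβ τ).comp h4

theorem lt0S_of (hs : 1 ≤ s) (Λ : Finset Site) {β : ℝ} (hβ : 0 < β)
    (hZ : ∀ τ : ℝ, B.Zt s Λ β τ = trace (symProd Λ s * NormedSpace.exp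
      (-(β / 2) • ham (interL (nnL Λ) s) 0 - τ • Dn (univ : Finset (Λ × Fin s)))))
    {G : Polynomial ℝ} {τ1 τ2 c1 c2 : ℝ} (h1 : 0 < τ1) (h2 : 0 < τ2)
    (hc1 : 0 ≤ c1) (hc2 : 0 ≤ c2)
    (hG : ∀ r : ℕ, 2 * r ≤ s * Λ.card →
      Real.exp (G.eval ((r : ℝ) * ((s : ℝ) * Λ.card - r + 1))) ≤
        c1 * Real.exp (-(τ1 * r)) + c2 * Real.exp (-(τ2 * r)))
    {ε : ℝ} (hε : 0 < ε) :
    ∃ M0 : ℕ, ∀ M, M0 ≤ M →
      Real.log (trace (NormedSpace.exp (-(β / 2) • ham (Lm (nnL Λ) s (2 * M)) 0 +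
        Polynomial.aeval (Om (univ : Finset (Λ × Fin s))) G))) ≤
      Real.log (((s : ℝ) * Λ.card + 1) * (c1 * B.Zt s Λ β τ1 + c2 * B.Zt s Λ β τ2)) + ε := by
  have hcard : (univ : Finset (Λ × Fin s)).card = s * Λ.card := by
    rw [Finset.card_univ, Fintype.card_prod, Fintype.card_fin, Fintype.card_coe, mul_comm]
  have hcard' : ((univ : Finset (Λ × Fin s)).card : ℝ) = (s : ℝ) * Λ.card := by
    rw [hcard]; push_cast; ring
  -- positivity of the coefficients
  have hc : 0 < c1 + c2 := by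
    have := hG 0 (by omega)
    simp only [Nat.cast_zero, mul_zero, neg_zero, Real.exp_zero, mul_one, zero_mul] at this
    exact lt_of_lt_of_le (Real.exp_pos _) this
  have hZ1 := B.Zt_pos (n := s) (Λ := Λ) β τ1
  have hZ2 := B.Zt_pos (n := s) (Λ := Λ) β τ2
  set R := ((s : ℝ) * Λ.card + 1) * (c1 * B.Zt s Λ β τ1 + c2 * B.Zt s Λ β τ2) with hR
  have hRpos : 0 < R := by
    have h3 : 0 < (s : ℝ) * Λ.card + 1 := by positivity
    have h4 : 0 < c1 * B.Zt s Λ β τ1 + c2 * B.Zt s Λ β τ2 := by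
      rcases eq_or_lt_of_le hc1 with h | h
      · rw [← h, zero_add] at hc
        have := mul_pos hc hZ2
        rw [← h, zero_mul, zero_add]
        exact this
      · have := mul_pos h hZ1
        have := mul_nonneg hc2 hZ2.le
        linarith
    exact mul_pos h3 h4
  -- finite `M`
  have hfin : ∀ M : ℕ, trace (NormedSpace.exp (-(β / 2) • ham (Lm (nnL Λ) s (2 * M)) 0 +
        Polynomial.aeval (Om (univ : Finset (Λ × Fin s))) G)) ≤
      ((s : ℝ) * Λ.card + 1) * (c1 * trace (NormedSpace.exp (-(β / 2) •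
          ham (Lm (nnL Λ) s (2 * M)) (fun _ => 0) - τ1 • Dn (univ : Finset (Λ × Fin s)))) +
        c2 * trace (NormedSpace.exp (-(β / 2) •
          ham (Lm (nnL Λ) s (2 * M)) (fun _ => 0) - τ2 • Dn (univ : Finset (Λ × Fin s))))) := by
    intro M
    have h := lt0_law (b := (univ : Finset (Λ × Fin s))) (L := Lm (nnL Λ) s (2 * M))
      (fun e _ => ⟨mem_univ _, mem_univ _⟩) (β / 2)
      (g := fun r : ℕ => G.eval ((r : ℝ) *
        (((univ : Finset (Λ × Fin s)).card : ℝ) - r + 1))) (G := G) (fun r _ => rfl)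
      hc1 hc2 h1.le h2.le (fun r hr => by
        rw [hcard'] at *
        have := hG r (by rw [hcard] at hr; exact hr)
        simp only [neg_mul]
        exact this)
    rw [hcard'] at h
    exact h
  have hlim : Tendsto (fun M : ℕ => ((s : ℝ) * Λ.card + 1) * (c1 * trace (NormedSpace.exp
      (-(β / 2) • ham (Lm (nnL Λ) s (2 * M)) (fun _ => 0) -
        τ1 • Dn (univ : Finset (Λ × Fin s)))) +
        c2 * trace (NormedSpace.exp (-(β / 2) • ham (Lm (nnL Λ) s (2 * M)) (fun _ => 0) -
          τ2 • Dn (univ : Finset (Λ × Fin s)))))) atTop (𝓝 R) := by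
    rw [hR, hZ, hZ]
    exact (((tendsto_Z hs hβ τ1).const_mul _).add ((tendsto_Z hs hβ τ2).const_mul _)).const_mul _
  have hev := hlim.eventually_le_const (u := R * Real.exp ε)
    (lt_mul_of_one_lt_right hRpos (Real.one_lt_exp_iff.2 hε))
  obtain ⟨M0, hM0⟩ := eventually_atTop.1 hev
  refine ⟨M0, fun M hM => ?_⟩
  have h5 := (hfin M).trans (hM0 M hM)
  have h6 : 0 < trace (NormedSpace.exp (-(β / 2) • ham (Lm (nnL Λ) s (2 * M)) 0 +
        Polynomial.aeval (Om (univ : Finset (Λ × Fin s))) G)) := by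
    apply trace_exp_pos_real
    rw [transpose_add, transpose_smul, EnR.ham_transpose, aeval_transpose (Om_transpose _)]
  calc _ ≤ Real.log (R * Real.exp ε) := Real.log_le_log h6 h5
    _ = _ := by rw [Real.log_mul hRpos.ne' (Real.exp_pos _).ne', Real.log_exp]

end

end Vale.Agent.P361.LRO.S3S
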