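import Vale.Agent.P361.LRO.GenS.LimS
import Vale.Agent.P361.LRO.S3.LT0Bridge
import Vale.Agent.P361.LRO.S3.TorLow

/-!
P361, stage 3, all spins: identification of the symmetrised partition functions of the copies with
the partition functions of the spin `s / 2` models: free boxes (`B.Zt`) and tori.
-/

namespace Vale.Agent.P361.LRO.S3S

open Finset Matrix Filter Topology Vale.Agent.P361.LRO.GenS Vale.Agent.P361.LRO.S3
open Vale.Agent.P361.LRO.TwJ

noncomputable section

section General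

variable {V : Type} [Fintype V] [DecidableEq V] {s : ℕ}

/-- `∑ (S² - S_x · S_y)` over the edges of `L`, spin `s / 2`. -/
def hamSp (s : ℕ) (L : List (V × V)) : Matrix (V → Fin (s + 1)) (V → Fin (s + 1)) ℂ :=
  (L.map fun e => (((s : ℂ) / 2) ^ 2) • (1 : Matrix (V → Fin (s + 1)) (V → Fin (s + 1)) ℂ) -
    ∑ a : Fin 3, siteOpV e.1 (Model.spin s a) * siteOpV e.2 (Model.spin s a)).sum

/-- `∑ (S - S³_x)`. -/
def numSp (s : ℕ) (V : Type) [Fintype V] [DecidableEq V] :
    Matrix (V → Fin (s + 1)) (V → Fin (s + 1)) ℂ :=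
  ∑ x : V, (((s : ℂ) / 2) • (1 : Matrix (V → Fin (s + 1)) (V → Fin (s + 1)) ℂ) -
    siteOpV x (Model.spin s 2))

theorem edge_mul {x y : V} (hxy : x ≠ y) :
    cM (∑ ab : Fin s × Fin s, LRO.hM (x, ab.1) (y, ab.2)) * WV s V =
      WV s V * ((((s : ℂ) / 2) ^ 2) • (1 : Matrix (V → Fin (s + 1)) (V → Fin (s + 1)) ℂ) -
        ∑ a : Fin 3, siteOpV x (Model.spin s a) * siteOpV y (Model.spin s a)) := by
  have h1 := tot_mul_tot (m := s) x y hxy
  have h2 : cM (∑ ab : Fin s × Fin s, LRO.hM ((x, ab.1) : V × Fin s) (y, ab.2)) =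
      ((s : ℂ) ^ 2 * (1 / 4)) • (1 : Matrix (V × Fin s → Fin 2) (V × Fin s → Fin 2) ℂ) -
        ∑ a : Fin 3, tot s a x * tot s a y := by
    rw [h1]
    abel
  rw [h2, Matrix.sub_mul, Matrix.mul_sub, Matrix.smul_mul, Matrix.mul_smul, Matrix.one_mul,
    Matrix.mul_one, Matrix.sum_mul, Matrix.mul_sum]
  congr 1
  · congr 1
    ring
  · refine Finset.sum_congr rfl fun a _ => ?_
    rw [Matrix.mul_assoc, tot_mul, ← Matrix.mul_assoc, tot_mul, Matrix.mul_assoc]

theorem inter_mul (L : List (V × V)) (hL : ∀ e ∈ L, e.1 ≠ e.2) :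
    cM (((interL L s).map fun e => LRO.hM e.1 e.2).sum) * WV s V = WV s V * hamSp s L := by
  rw [sum_interL, hamSp]
  induction L with
  | nil => simp [cM_zero]
  | cons e L ih =>
    rw [List.map_cons, List.map_cons, List.sum_cons, List.sum_cons, cM_add, Matrix.add_mul,
      Matrix.mul_add, ih fun e he => hL e (List.mem_cons_of_mem _ he),
      edge_mul (hL e List.mem_cons_self)]

theorem num_mul : cM (Dn (univ : Finset (V × Fin s))) * WV s V = WV s V * numSp s V := by
  have h1 : cM (Dn (univ : Finset (V × Fin s))) =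
      ∑ x : V, (((s : ℂ) / 2) • (1 : Matrix (V × Fin s → Fin 2) (V × Fin s → Fin 2) ℂ) -
        tot s 2 x) := by
    rw [Dn, Fintype.sum_prod_type, cM_sum]
    refine Finset.sum_congr rfl fun x _ => ?_
    have h2 : ∑ i : Fin s, (1 / 2 : ℝ) •
        (1 - szM ((x, i) : V × Fin s)) =
        ((s : ℝ) / 2) • (1 : Matrix (V × Fin s → Fin 2) (V × Fin s → Fin 2) ℝ) -
          ∑ i : Fin s, (1 / 2 : ℝ) • szM ((x, i) : V × Fin s) := by
      simp only [smul_sub, Finset.sum_sub_distrib, Finset.sum_const, Finset.card_univ,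
        Fintype.card_fin]
      congr 1
      rw [← Nat.cast_smul_eq_nsmul ℝ, smul_smul]
      congr 1
      ring
    rw [h2, cM_sub, ← tot_z, cM_smul, cM_one]
    push_cast
    rfl
  rw [h1, numSp, Matrix.sum_mul, Matrix.mul_sum]
  refine Finset.sum_congr rfl fun x _ => ?_
  rw [Matrix.sub_mul, Matrix.mul_sub, Matrix.smul_mul, Matrix.mul_smul, Matrix.one_mul,
    Matrix.mul_one, tot_mul]

/-- The bridge of the partition functions, general graph. -/
theorem trace_spin [NeZero s] (L : List (V × V)) (hL : ∀ e ∈ L, e.1 ≠ e.2) (β τ : ℝ) :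
    trace (NormedSpace.exp (-((β : ℂ) • hamSp s L + (τ : ℂ) • numSp s V))) =
      ((trace (symProd V s * NormedSpace.exp (-β • ham (interL L s) 0 -
        τ • Dn (univ : Finset (V × Fin s)))) : ℝ) : ℂ) := by
  have hA : cM (-β • ham (interL L s) 0 - τ • Dn (univ : Finset (V × Fin s))) * WV s V =
      WV s V * (-((β : ℂ) • hamSp s L + (τ : ℂ) • numSp s V)) := by
    have h0 : ham (interL L s) 0 = ((interL L s).map fun e => LRO.hM e.1 e.2).sum := by
      simp [ham]
    rw [h0, cM_sub, cM_smul, cM_smul, Matrix.sub_mul, Matrix.smul_mul, Matrix.smul_mul,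
      inter_mul L hL, num_mul, neg_add, Matrix.mul_add, Matrix.mul_neg, Matrix.mul_neg,
      Matrix.mul_smul, Matrix.mul_smul]
    push_cast
    module
  rw [trace_exp_bridge hA (WV_conj_mul s), WV_mul_conj, symV_eq, exp_cM, ← cM_mul, trace_cM,
    Matrix.trace_mul_comm]

end General

section Box

variable {Λ : Finset Site} {s : ℕ}

theorem hT_eq (s : ℕ) (Λ : Finset Site) : B.hT s Λ = (1 / 2 : ℂ) • hamSp s (nnL Λ) := by
  have h0 : hamSp s (nnL Λ) = ∑ x : Λ, ∑ y : Λ,
      if IsNN x.1 y.1 then ((((s : ℂ) / 2) ^ 2) •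
        (1 : Matrix (Λ → Fin (s + 1)) (Λ → Fin (s + 1)) ℂ) -
        ∑ a : Fin 3, siteOpV x (Model.spin s a) * siteOpV y (Model.spin s a)) else 0 := by
    rw [hamSp, nnL, Finset.sum_map_toList, Finset.sum_filter, Fintype.sum_prod_type]
  rw [h0]
  rfl

theorem numOp_eq (s : ℕ) (Λ : Finset Site) : B.numOp s Λ = numSp s Λ := rfl

/-- **Free boxes**: the spin `s / 2` partition function in terms of the copies. -/
theorem Zt_eq [NeZero s] (Λ : Finset Site) (β τ : ℝ) : B.Zt s Λ β τ =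
    trace (symProd Λ s * NormedSpace.exp (-(β / 2) • ham (interL (nnL Λ) s) 0 -
      τ • Dn (univ : Finset (Λ × Fin s)))) := by
  have hL : ∀ e ∈ nnL Λ, e.1 ≠ e.2 := by
    intro e he
    rw [nnL, Finset.mem_toList, Finset.mem_filter] at he
    exact H.isNN_ne he.2
  have h1 := trace_spin (s := s) (nnL Λ) hL (β / 2) τ
  rw [B.Zt, hT_eq, numOp_eq]
  have h2 : (β : ℂ) • ((1 / 2 : ℂ) • hamSp s (nnL Λ)) =
      ((β / 2 : ℝ) : ℂ) • hamSp s (nnL Λ) := by
    rw [smul_smul]
    congr 1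
    push_cast
    ring
  rw [h2, h1, Complex.ofReal_re]

end Box

end

end Vale.Agent.P361.LRO.S3S
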