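import Vale.Agent.P361.LRO.S3S.EnergyNum
import Vale.Agent.P361.LRO.S3S.EnergyGeoS
import Vale.Agent.P361.LRO.S3S.LT0SLim
import Vale.Agent.P361.LRO.S3S.ZCmpB

/-!
P361, stage 3, all spins: **block (E)**, `EnergyStmt3S s` (helper683; geometry helper793).
-/

namespace Vale.Agent.P361.LRO.S3S

open Finset Matrix Filter Topology Vale.Agent.P361.LRO.GenS Vale.Agent.P361.LRO.S3

noncomputable section

theorem geoE {s : ℕ} (hs : 1 ≤ s) : GeoE s := by
  intro n M _ β h x w m hβ hh hw hm hwm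
  have h1 := energyS_blocks (n := n) (s := s) hs M hβ hh x w m hw hm hwm
  rw [ZbM_eq] at h1
  exact h1

theorem boxE {s : ℕ} (hs : 1 ≤ s) : BoxE s := by
  haveI : NeZero s := ⟨by omega⟩
  intro l β hβ
  have h1 := tendsto_Z (Λ := B.cube l) (s := s) hs (β := β / 2) (by positivity) 0
  rw [← Zt_eq (s := s) (B.cube l) (β / 2) 0] at h1
  refine h1.congr fun M => ?_
  rw [ZbE]
  have e : -(β / 2 / 2) • ham (Lm (nnL (B.cube l)) s (2 * M)) (fun _ => 0) -
      (0 : ℝ) • TwJ.Dn (univ : Finset (B.cube l × Fin s)) =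
      -(β / 4) • ham (Lm (nnL (B.cube l)) s (2 * M)) 0 := by
    rw [zero_smul, sub_zero, show β / 2 / 2 = β / 4 by ring]
    rfl
  rw [e]

/-- **(E)** crude energy for all profiles, every spin. -/
theorem energyStmt3S (s : ℕ) (hs : 1 ≤ s) : EnergyStmt3S s :=
  energyStmt3S_of hs (geoE hs) (boxE hs)

end

end Vale.Agent.P361.LRO.S3S
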