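import Vale.Agent.P361.LRO.S3S.Iface
import Vale.Agent.P361.LRO.S3.FinalF
import Vale.Agent.P361.LRO.GenS.Trans

/-!
P361, stage 3 for all spins, block (F): the sharp bound on the torus of copies from the blocks
(K), (D), (B), (M), (T).
-/

namespace Vale.Agent.P361.LRO.S3S

open Finset Filter Topology Vale.Agent.P361.LRO.GenS Vale.Agent.P361.LRO.S3

namespace FS

theorem BCS_pos {s : ℕ} (hs : 1 ≤ s) : 0 < BCS s := by
  have hs' : (0 : ℝ) < s := by exact_mod_cast hs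
  have h0 := S3F.BC_pos
  have hz : 0 < (riemannZeta (3 / 2)).re := by
    unfold BC at h0
    by_contra hneg
    have h1 : (riemannZeta (3 / 2)).re ≤ 0 := not_lt.1 hneg
    have h2 : (riemannZeta (3 / 2)).re / (8 * Real.pi ^ (3 / 2 : ℝ) * (1 / 2) ^ (3 / 2 : ℝ)) ≤ 0 :=
      div_nonpos_of_nonpos_of_nonneg h1 (by positivity)
    linarith
  unfold BCS
  positivity

/-- The choice of the parameters. -/
theorem params {B d c2 Lam δ S : ℝ} (hd0 : 0 < d) (hd1 : d ≤ 1 / 100) (hc2 : 0 < c2)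
    (hLam : 0 < Lam) (hδ0 : 0 < δ) : ∀ᶠ β : ℝ in atTop, 1 ≤ β ∧ S ≤ β ∧
      4 * (B * β ^ (-(3 / 2) : ℝ)) ≤ δ ∧
      1 ≤ Lam * β ^ (3 / 2 : ℝ) ∧ ∃ a : ℕ, β ^ (1 / 2 + d) ≤ (3 : ℝ) ^ a ∧
      (3 : ℝ) ^ a ≤ 3 * β ^ (1 / 2 + d) ∧ Real.sqrt β ≤ (3 : ℝ) ^ a ∧
      (3 : ℝ) ^ a ≤ β ^ (3 / 4 : ℝ) ∧ Lam * β ^ (3 / 2 : ℝ) ≤ c2 * β * 3 ^ a := by
  have hlim1 : Tendsto (fun β : ℝ => β ^ (-(3 / 2) : ℝ)) atTop (𝓝 0) :=
    tendsto_rpow_neg_atTop (by norm_num)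
  have h1 : ∀ᶠ β : ℝ in atTop, 4 * (B * β ^ (-(3 / 2) : ℝ)) ≤ δ := by
    have h2 : Tendsto (fun β : ℝ => 4 * (B * β ^ (-(3 / 2) : ℝ))) atTop (𝓝 (4 * (B * 0))) :=
      (hlim1.const_mul B).const_mul 4
    rw [mul_zero, mul_zero] at h2
    exact h2.eventually_le_const hδ0
  filter_upwards [S3F.params hd0 hd1 hc2 hLam hδ0, h1, eventually_ge_atTop S] with β hb hb1 hb2
  exact ⟨hb.1, hb2, hb1, hb.2.2⟩

theorem rhoS_const {n s M : ℕ} [NeZero n] {β h : ℝ} (u v : Tor n × Fin s) :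
    rho (edgesS n s M) β (hS fun _ => h) u = rho (edgesS n s M) β (hS fun _ => h) v := by
  have h1 := transStmtS s n M β (fun _ => h) u.1 (v.1 - u.1) u.2 v.2
  rw [add_sub_cancel] at h1
  exact h1

theorem cubeS_nonempty {n s : ℕ} [NeZero n] (hs : 1 ≤ s) (x : Tor n) {w : ℕ} (hw : 0 < w) :
    (cubeS n s x w).Nonempty := by
  have : NeZero s := ⟨by omega⟩
  unfold cubeS
  exact (S3F.cube_nonempty x hw).product Finset.univ_nonempty

/-- The step for one state, for one test polynomial. -/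
theorem one_state {V : Type} [Fintype V] [DecidableEq V] {L : List (V × V)} {β : ℝ} {h : V → ℝ}
    {b : Finset V} (hbne : b.Nonempty) {C c3 K δ δ' q dd : ℝ} (hD : S3F.DirAt C L β h b)
    (hC : 0 < C)
    (hc3 : 0 < c3) (hK1 : 1 ≤ K) (hδ0 : 0 < δ) (hδ1 : δ ≤ 1 / 4) (hdd0 : 0 < dd)
    (hb6 : 4 * dd ≤ δ) (hq1 : (1 - δ) * dd ≤ q) (hq2 : q ≤ dd) (hδ'1 : δ' ≤ δ)
    (hδ'2 : δ' ≤ Real.exp (-(K * dd)))
    (hkap : ∃ᶠ N : ℕ in atTop, c3 * K ≤ kap L β N h K b)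
    (hM : yb L β h b ≤ (1 + δ) * dd) (P : Polynomial ℝ)
    (hP : ∀ r : ℕ, 2 * r ≤ b.card →
        P.eval ((r : ℝ) * ((b.card : ℝ) - r + 1)) = if (r : ℝ) < q * b.card then 1 else 0)
    (hT : gib L β h (Polynomial.aeval (CM b) P) ≤ δ') :
    (∑ y ∈ b, rho L β h y) / b.card ≤
      dd * (1 + 20 * δ + C * (1 / c3) * (21 * δ)) + C * (1 / c3) * (2 * C / K) := by
  have hbc : 0 < b.card := Finset.card_pos.2 hbne
  have hbc' : (0 : ℝ) < b.card := by exact_mod_cast hbc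
  have hq0 : 0 ≤ q := le_trans (mul_nonneg (by linarith) hdd0.le) hq1
  obtain ⟨ι, hι, μ, r, hμ0, hr, hμ1, hpoly, hsharp⟩ := hD
  have hR := hsharp K (c3 * K) q hK1 (by positivity) hq0 (by linarith) hkap
  have hKκ : C * (K / (c3 * K)) = C * (1 / c3) := by
    have : K ≠ 0 := by linarith
    field_simp
  rw [hKκ] at hR
  have hMm : ∑ i, μ i * ((r i : ℝ) * ((b.card : ℝ) - r i + 1)) ≤
      (1 + δ) * dd * (b.card : ℝ) ^ 2 := by
    have h1 := hpoly Polynomial.X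
    simp only [Polynomial.eval_X, Polynomial.aeval_X] at h1
    rw [h1]
    unfold yb at hM
    rwa [div_le_iff₀ (by positivity)] at hM
  have hTt : ∑ i, (if (r i : ℝ) < q * b.card then μ i else 0) ≤ δ' := by
    rw [← hpoly P] at hT
    refine le_trans (le_of_eq ?_) hT
    refine sum_congr rfl fun i _ => ?_
    rw [hP (r i) (hr i)]
    split_ifs <;> simp
  exact S3F.sharp_scalar μ r hbc hμ0 hμ1 hr (K := K) (δ := δ) (d := dd) (q := q) (C := C)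
    (c := C * (1 / c3)) (by linarith) hC (by positivity) hδ0 hδ1 hdd0 hb6 hq1 hq2 hMm
    (hTt.trans hδ'1) (hTt.trans hδ'2) hR

/-- The bound on one torus of copies; `B` is the density constant per copy. -/
theorem one_torus {n s M : ℕ} [NeZero n] (hs : 1 ≤ s) {β h : ℝ} (hβ : 0 < β) {a : ℕ} (x : Tor n)
    {B C c3 Lam δ δ' ε : ℝ} (hB : 0 < B)
    (hD : S3F.DirAt C (edgesS n s M) β (hS fun _ => h) (cubeS n s x (3 ^ a))) (hC : 0 < C)
    (hc3 : 0 < c3)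
    (hLam : 0 < Lam) (hK1 : 1 ≤ Lam * β ^ (3 / 2 : ℝ)) (hδ1 : δ ≤ 1 / 4)
    (hb6 : 4 * (B * β ^ (-(3 / 2) : ℝ)) ≤ δ) (hδ'0 : 0 < δ') (hδ'1 : δ' ≤ δ)
    (hδ'2 : δ' ≤ Real.exp (-(Lam * B)))
    (hε1 : 20 * δ + C * (1 / c3) * (21 * δ) ≤ ε / 2)
    (hε2 : C * (1 / c3) * (2 * C / Lam) = ε / 2 * B)
    (hkap : ∃ᶠ N : ℕ in atTop, c3 * (Lam * β ^ (3 / 2 : ℝ)) ≤
      kap (edgesS n s M) β N (hS fun _ => h) (Lam * β ^ (3 / 2 : ℝ)) (cubeS n s x (3 ^ a)))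
    (hM : yb (edgesS n s M) β (hS fun _ => h) (cubeS n s x (3 ^ a)) ≤
      (1 + δ') * B * β ^ (-(3 / 2) : ℝ))
    (P : Polynomial ℝ) (hP : ∀ r : ℕ, 2 * r ≤ (cubeS n s x (3 ^ a)).card →
        P.eval ((r : ℝ) * (((cubeS n s x (3 ^ a)).card : ℝ) - r + 1)) =
          if (r : ℝ) < (1 - δ') * B * β ^ (-(3 / 2) : ℝ) * (cubeS n s x (3 ^ a)).card
            then 1 else 0)
    (hT : gib (edgesS n s M) β (hS fun _ => h)
      (Polynomial.aeval (CM (cubeS n s x (3 ^ a))) P) ≤ δ') (z : Tor n × Fin s) :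
    rho (edgesS n s M) β (hS fun _ => h) z ≤ (1 + ε) * B * β ^ (-(3 / 2) : ℝ) := by
  set K : ℝ := Lam * β ^ (3 / 2 : ℝ) with hKdef
  set dd : ℝ := B * β ^ (-(3 / 2) : ℝ) with hdd
  have hdd0 : 0 < dd := mul_pos hB (Real.rpow_pos_of_pos hβ _)
  have hKd : K * dd = Lam * B := by
    rw [hKdef, hdd]
    have : β ^ (3 / 2 : ℝ) * β ^ (-(3 / 2) : ℝ) = 1 := by
      rw [← Real.rpow_add hβ]
      norm_num
    calc Lam * β ^ (3 / 2 : ℝ) * (B * β ^ (-(3 / 2) : ℝ)) =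
          Lam * B * (β ^ (3 / 2 : ℝ) * β ^ (-(3 / 2) : ℝ)) := by ring
      _ = Lam * B := by rw [this, mul_one]
  set q : ℝ := (1 - δ') * B * β ^ (-(3 / 2) : ℝ) with hq
  have hq' : q = (1 - δ') * dd := by rw [hq, hdd]; ring
  have hq1 : (1 - δ) * dd ≤ q := by
    rw [hq']
    exact mul_le_mul_of_nonneg_right (by linarith) hdd0.le
  have hq2 : q ≤ dd := by
    rw [hq']
    nlinarith
  have hbne : (cubeS n s x (3 ^ a)).Nonempty := cubeS_nonempty hs x (by positivity)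
  have hbc' : (0 : ℝ) < (cubeS n s x (3 ^ a)).card := by exact_mod_cast Finset.card_pos.2 hbne
  have hM' : yb (edgesS n s M) β (hS fun _ => h) (cubeS n s x (3 ^ a)) ≤ (1 + δ) * dd := by
    refine hM.trans ?_
    rw [mul_assoc, ← hdd]
    exact mul_le_mul_of_nonneg_right (by linarith) hdd0.le
  have hfin := one_state hbne hD hC hc3 hK1 (lt_of_lt_of_le hδ'0 hδ'1) hδ1 hdd0 hb6 hq1 hq2 hδ'1
    (by rw [hKd]; exact hδ'2) hkap hM' P hP hT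
  have havg : (∑ y ∈ cubeS n s x (3 ^ a), rho (edgesS n s M) β (hS fun _ => h) y) /
      (cubeS n s x (3 ^ a)).card = rho (edgesS n s M) β (hS fun _ => h) z := by
    rw [Finset.sum_congr rfl fun y _ => rhoS_const (M := M) (h := h) (β := β) y z,
      Finset.sum_const, nsmul_eq_mul]
    field_simp
  rw [havg] at hfin
  refine hfin.trans ?_
  have h5 : C * (1 / c3) * (2 * C / K) = ε / 2 * dd := by
    have h6 : 1 / K = β ^ (-(3 / 2) : ℝ) / Lam := by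
      rw [hKdef, Real.rpow_neg hβ.le]
      field_simp
    calc C * (1 / c3) * (2 * C / K) = C * (1 / c3) * (2 * C) * (1 / K) := by ring
      _ = C * (1 / c3) * (2 * C / Lam) * β ^ (-(3 / 2) : ℝ) := by rw [h6]; ring
      _ = ε / 2 * dd := by rw [hε2, hdd]; ring
  rw [h5]
  have h6 : (1 + ε) * B * β ^ (-(3 / 2) : ℝ) = (1 + ε) * dd := by rw [hdd]; ring
  rw [h6]
  have h7 := mul_le_mul_of_nonneg_left hε1 hdd0.le
  nlinarith

end FS

/-- **Block (F) for all spins.** -/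
theorem finalStmt3S_of (s : ℕ) (hs : 1 ≤ s) (hK : KappaStmt3S s) (hB : BootStmt3S s)
    (hD : DirSharpStmt3) (hM : MeanStmt3S s) (hT : TailStmt3S s) : FinalStmt3S s := by
  obtain ⟨c2, c3, hc2, hc3, hK⟩ := hK
  obtain ⟨C, hC, hD⟩ := hD
  obtain ⟨C7, β1, hC7, hB⟩ := hB
  obtain ⟨d, hd0, hd1, hM⟩ := hM
  have hs' : (0 : ℝ) < s := by exact_mod_cast hs
  have hBC : 0 < BCS s / s := div_pos (FS.BCS_pos hs) hs'
  intro ε hε
  have hc0 : 0 < C * (1 / c3) := by positivity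
  obtain ⟨δ, hδ0, hδ1, hδ2⟩ : ∃ δ : ℝ, 0 < δ ∧ δ ≤ 1 / 4 ∧
      20 * δ + C * (1 / c3) * (21 * δ) ≤ ε / 2 := by
    refine ⟨min (1 / 4) (ε / (2 * (20 + 21 * (C * (1 / c3))))), lt_min (by norm_num)
      (by positivity), min_le_left _ _, ?_⟩
    have h1 : min (1 / 4) (ε / (2 * (20 + 21 * (C * (1 / c3))))) ≤
      ε / (2 * (20 + 21 * (C * (1 / c3)))) := min_le_right _ _
    rw [le_div_iff₀ (by positivity)] at h1
    linarith
  obtain ⟨Lam, hLam0, hLam1⟩ : ∃ Lam : ℝ, 0 < Lam ∧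
      C * (1 / c3) * (2 * C / Lam) = ε / 2 * (BCS s / s) := by
    refine ⟨4 * (C * (1 / c3)) * C / (ε * (BCS s / s)), by positivity, ?_⟩
    set B := BCS s / s
    field_simp
    ring
  obtain ⟨δ', hδ'0, hδ'1, hδ'2⟩ : ∃ δ' : ℝ, 0 < δ' ∧ δ' ≤ δ ∧
      δ' ≤ Real.exp (-(Lam * (BCS s / s))) :=
    ⟨min δ (Real.exp (-(Lam * (BCS s / s)))), lt_min hδ0 (Real.exp_pos _), min_le_left _ _,
      min_le_right _ _⟩
  obtain ⟨β2, hM⟩ := hM δ' hδ'0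
  obtain ⟨β3, hT⟩ := hT d hd0 hd1 δ' hδ'0
  obtain ⟨β4, hK⟩ := hK C7 Lam hC7 hLam0
  obtain ⟨β0, hβ0⟩ := eventually_atTop.1 ((FS.params (B := BCS s / s) (S := s) hd0 hd1 hc2 hLam0
    hδ0).and ((eventually_ge_atTop β1).and ((eventually_ge_atTop β2).and
      ((eventually_ge_atTop β3).and (eventually_ge_atTop β4)))))
  refine ⟨β0, fun β hβ h hh0 hh1 => ?_⟩
  obtain ⟨⟨hb1, hbs, hb6, hK1, a, ha1, ha2, ha3, ha4, hK2⟩, hb2, hb3, hb4, hb5⟩ := hβ0 β hβ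
  have hβ' : 0 < β := by linarith
  obtain ⟨n1, hB⟩ := hB β hb2
  obtain ⟨n2, hM⟩ := hM β hb3 a ha1 ha2 h hh0 hh1
  obtain ⟨n3, hT⟩ := hT β hb4 a ha1 ha2 h hh0 hh1
  obtain ⟨n4, hK⟩ := hK β hb5
  have hg0 : 0 < s * β * h := by positivity
  have hg1 : s * β * h ≤ 1 := by
    have h1 : s * β * h ≤ β * β * β ^ (-(10 : ℝ)) := by
      refine mul_le_mul (mul_le_mul_of_nonneg_right hbs hβ'.le) hh1 hh0.le (by positivity)
    have h2 : β * β * β ^ (-(10 : ℝ)) = β ^ (-(8 : ℝ)) := by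
      have h3 : β * β = β ^ (2 : ℝ) := by
        rw [Real.rpow_two]
        ring
      rw [h3, ← Real.rpow_add hβ']
      norm_num
    rw [h2] at h1
    exact h1.trans (Real.rpow_le_one_of_one_le_of_nonpos hb1 (by norm_num))
  obtain ⟨n5, hn5⟩ : ∃ n5 : ℕ, ∀ n : ℕ, n5 ≤ n → (n : ℝ) ^ (-(1 / 4) : ℝ) ≤ s * β * h := by
    have h1 : Tendsto (fun n : ℕ => (n : ℝ) ^ (-(1 / 4) : ℝ)) atTop (𝓝 0) :=
      (tendsto_rpow_neg_atTop (by norm_num : (0 : ℝ) < 1 / 4)).comp tendsto_natCast_atTop_atTop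
    exact eventually_atTop.1 (h1.eventually_le_const hg0)
  refine ⟨max n1 (max n2 (max n3 (max n4 n5))), fun n _ hn hodd => ?_⟩
  simp only [max_le_iff] at hn
  obtain ⟨hn1, hn2, hn3, hn4, hn5'⟩ := hn
  have hgn := hn5 n hn5'
  set x : Tor n := 0 with hx
  obtain ⟨P, hP⟩ := S3F.exists_poly' (cubeS n s x (3 ^ a)).card fun r =>
    if (r : ℝ) < (1 - δ') * (BCS s / s) * β ^ (-(3 / 2) : ℝ) * (cubeS n s x (3 ^ a)).card
      then 1 else 0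
  obtain ⟨M1, hB⟩ := hB n hn1 hodd
  obtain ⟨M2, hM⟩ := hM n hn2 hodd
  obtain ⟨M3, hT⟩ := hT n hn3 hodd x P fun r hr => (hP r hr).le
  refine ⟨max M1 (max M2 M3), fun M hMM z => ?_⟩
  simp only [max_le_iff] at hMM
  obtain ⟨hM1, hM2, hM3⟩ := hMM
  have hfield : (hS fun y : Tor n => (fun _ : Tor n => s * β * h) y / (s * β) :
      Tor n × Fin s → ℝ) = hS fun _ => h := by
    funext y
    unfold hS
    field_simp
  have hFam : Fam n (s * β * h) (β ^ (-(9 / 2) : ℝ)) (fun _ => s * β * h) :=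
    S3F.fam_const hg0.le hg1 (Real.rpow_nonneg hβ'.le _)
  have hkap := hK n hn4 hodd M a ha3 ha4 _ hK1 le_rfl hK2 (s * β * h) hgn hg1
    (hB M hM1 (s * β * h) hgn hg1) (fun _ => s * β * h) hFam x
  rw [hfield] at hkap
  have hfin := FS.one_torus hs hβ' x hBC
    (hD (Tor n × Fin s) (edgesS n s M) β (hS fun _ => h) _ hβ' (fun _ => hh0.le)
      (FS.cubeS_nonempty hs x (by positivity)))
    hC hc3 hLam0 hK1 hδ1 hb6 hδ'0 hδ'1 hδ'2 hδ2 hLam1 hkap (hM M hM2 x) P hP (hT M hM3) z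
  have h1 := mul_le_mul_of_nonneg_left hfin hs'.le
  refine h1.trans (le_of_eq ?_)
  field_simp

end Vale.Agent.P361.LRO.S3S
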