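import Vale.Agent.P361.LRO.Ind3.Kappa
import Vale.Agent.P361.LRO.Ind.LowE
import Vale.Agent.P361.LRO.GenS.SlotsDefs
import Vale.Agent.P361.LRO.GenS.Merge
import Vale.Agent.P361.LRO.S3S.Iface

/-!
P361 LRO, stage 3, all spins: the stiffness statement `KappaStmt3S s` for the family of physical
fields `g / (s β)`, `g ∈ Fam n g0 β^{-9/2}`, from the abstract chapter `Block3E`, the local
instance `LocalStmt3S` and the lowering statement `LowStmt3S` for the slots network.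
-/

namespace Vale.Agent.P361.LRO.S3S

open Finset Filter Vale.Agent.P361.LRO _root_.P361.LRO Vale.Agent.P361.LRO.Ind
  Vale.Agent.P361.LRO.Ind3 Vale.Agent.P361.LRO.GenS

noncomputable section

/-- The slots network of a law `μ` in the scaled field `g` (physical field `g / (s β)`): one site
per node, `N s` layers, slice parameters `g / (2 N s)`. -/
def cS3 (n s : ℕ) [NeZero n] (N : ℕ) (μ : Equiv.Perm (Fin (N + 1) × (Tor n × Fin s)) → ℝ)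
    (K : ℝ) (b : Finset (Tor n)) (g : Tor n → ℝ) : Nd n (N * s) → Nd n (N * s) → ℝ :=
  mgC (slotF n s N) (Net.c0 μ (th (1 / (s : ℝ)) N (hS g) (blk K (b ×ˢ univ))))

/-- The slice parameters of the physical field `g / (s β)`. -/
theorem th_scaledS {n s : ℕ} (hs : 0 < s) {β : ℝ} (hβ : 0 < β) (N : ℕ) (g : Tor n → ℝ)
    (T : Tor n × Fin s → ℝ) :
    th β N (hS fun y => g y / (s * β)) T = th (1 / (s : ℝ)) N (hS g) T := by
  have hs' : (0 : ℝ) < s := by exact_mod_cast hs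
  funext z
  unfold th hS
  split_ifs
  · rfl
  · congr 1
    field_simp

/-- The local instance: `Local3` holds for the slots network, with `c1` depending only on `s`. -/
def LocalStmt3S (s : ℕ) : Prop :=
  ∃ c1 : ℝ, 0 < c1 ∧ ∀ C7 Lam : ℝ, 0 < C7 → 0 < Lam →
    ∃ β0 : ℝ, ∀ β : ℝ, β0 ≤ β → ∃ n0 : ℕ, ∀ (n : ℕ) [NeZero n], n0 ≤ n → ∀ M : ℕ,
    ∀ (e : ℕ) (K : ℝ) (b : Finset (Tor n)), β ^ (1 / 2 : ℝ) ≤ (3 : ℝ) ^ e →
    (3 : ℝ) ^ e ≤ 3 * β ^ (1 / 2 : ℝ) → 1 ≤ K → K ≤ Lam * β ^ (3 / 2 : ℝ) → K ≤ b.card →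
    ∃ W0 : ℕ, ∀ W : ℕ, W0 ≤ W → ∀ g : Tor n → ℝ, (∀ x, 0 < g x ∧ g x ≤ 1) →
      (∀ z, rho (edgesS n s M) β (hS fun y => g y / (s * β)) z ≤ C7 * β ^ (-(3 / 2) : ℝ)) →
      Local3 n (4 * W * s) (W * s) e K c1 b g
        (cS3 n s (4 * W) (phys (edgesS n s M) β (4 * W)) K b g)

/-- The abstract chapter with `LowE`. -/
def Block3E : Prop :=
  ∀ c1 : ℝ, 0 < c1 → ∃ (e0 : ℕ) (C5 c3 c4 : ℝ), 1 ≤ e0 ∧ 0 < C5 ∧
    0 < c3 ∧ 0 < c4 ∧ ∀ e : ℕ, e0 ≤ e → ∃ n0 : ℕ, ∀ (n N W : ℕ) [NeZero n]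
    (K h0 lam ε : ℝ) (o : Tor n) (a : ℕ) (h : Tor n → ℝ)
    (c : (Tor n → ℝ) → Nd n N → Nd n N → ℝ),
    n0 ≤ n → 0 < W → N = 4 * W → e ≤ a → a ≤ 2 * e →
    1 ≤ K → K ≤ 27 ^ (2 * e) → C5 * K ≤ 27 ^ a → C5 * K ≤ 9 ^ e * 3 ^ a →
    (n : ℝ) ^ (-(1 / 4 : ℝ)) ≤ h0 → h0 ≤ 1 → 1 / 3 ^ (10 * e) ≤ lam → 0 ≤ ε → ε * e ≤ c4 →
    (∀ g, Fam n h0 lam g → Local3 n N W e K c1 (cube n o (3 ^ a)) g (c g)) →
    LowE n N (cube n o (3 ^ a)) 1 h0 lam ε c →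
    Fam n h0 lam h →
    c3 * K ≤ netK (c h) (fun z => if z ∈ hatb N (cube n o (3 ^ a)) then 1 else 0)

/-- Lowering the field in the slots network. -/
def LowStmt3S (s : ℕ) : Prop :=
  ∀ (n N : ℕ) [NeZero n] (K h0 lam ε : ℝ) (b : Finset (Tor n))
    (μ : Equiv.Perm (Fin (N + 1) × (Tor n × Fin s)) → ℝ), 1 ≤ N → 0 ≤ K → 0 < h0 → 0 ≤ ε →
    ε ^ 2 ≤ 1 / 2 → Net.Good μ →
    (∀ g, Fam n h0 lam g → ∀ z : Fin (N + 1) × (Tor n × Fin s), z.1 ≠ 0 →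
      1 - ε ^ 2 ≤ mag μ (th (1 / (s : ℝ)) N (hS g) (blk K (b ×ˢ univ))) z) →
    LowE n (N * s) b 1 h0 lam ε (cS3 n s N μ K b)

/-- `κ_b` is the energy of the indicator of the extra slice on `b` in the slots network. -/
theorem kap_scaledS {n s : ℕ} [NeZero n] (hs : 0 < s) {β : ℝ} (hβ : 0 < β) (M N : ℕ) (K : ℝ)
    (x : Tor n) (w : ℕ) (g : Tor n → ℝ) :
    kap (edgesS n s M) β N (hS fun y => g y / (s * β)) K (cubeS n s x w) =
      netK (cS3 n s N (phys (edgesS n s M) β N) K (cube n x w) g)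
        fun z => if z ∈ hatb (N * s) (cube n x w) then 1 else 0 := by
  unfold kap cS3 cubeS
  rw [netK_mgC, Net.netK_c0, th_scaledS hs hβ]
  congr 1
  funext z
  have h1 : (slotF n s N z ∈ hatb (N * s) (cube n x w)) ↔
      z ∈ hatb N (cube n x w ×ˢ (univ : Finset (Fin s))) := by
    unfold hatb
    simp only [Finset.mem_product, Finset.mem_singleton, Finset.mem_univ, and_true]
    constructor
    · rintro ⟨h, h'⟩
      refine ⟨?_, h'⟩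
      by_contra h2
      exact slotL_ne h2 z.2.2 h
    · rintro ⟨h, h'⟩
      refine ⟨?_, h'⟩
      show slotL s N z.1 z.2.2 = 0
      rw [h, slotL_zero]
  by_cases h : z ∈ hatb N (cube n x w ×ˢ (univ : Finset (Fin s)))
  · rw [if_pos h, if_pos (h1.2 h)]
  · rw [if_neg h, if_neg fun h2 => h (h1.1 h2)]

theorem kappaStmt3S_of {s : ℕ} (hs : 0 < s) (h3 : Block3E) (hL : LocalStmt3S s)
    (hlo : LowStmt3S s) : KappaStmt3S s := by
  have hsr : (1 : ℝ) ≤ s := by exact_mod_cast hs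
  obtain ⟨c1, hc1, HL⟩ := hL
  obtain ⟨e0, C5, c3, c4, he0, hC5, hc3, hc4, H3⟩ := h3 c1 hc1
  refine ⟨min 1 (1 / C5), c3, lt_min one_pos (by positivity), hc3, fun C7 Lam hC7 hLam => ?_⟩
  obtain ⟨βL, HL⟩ := HL C7 Lam hC7 hLam
  have hlim : ∀ (a : ℝ), 0 < a → ∀ B : ℝ, ∀ᶠ β : ℝ in atTop, B ≤ β ^ a := fun a ha B =>
    (tendsto_rpow_atTop ha).eventually_ge_atTop B
  obtain ⟨M, hM⟩ : ∃ M : ℝ, M = 2 * Real.exp (Lam * C7 / 2) * Real.sqrt C7 := ⟨_, rfl⟩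
  have hall : ∀ᶠ β : ℝ in atTop, βL ≤ β ∧ 1 ≤ β ∧ (3:ℝ) ^ e0 ≤ β ^ (1 / 2 : ℝ) ∧
      Lam ≤ β ^ (3 / 2 : ℝ) ∧ 2 * M ≤ β ^ (3 / 4 : ℝ) ∧ 3 * M / c4 ≤ β ^ (1 / 4 : ℝ) := by
    filter_upwards [eventually_ge_atTop βL, eventually_ge_atTop (1:ℝ),
      hlim (1 / 2) (by norm_num) ((3:ℝ) ^ e0), hlim (3 / 2) (by norm_num) Lam,
      hlim (3 / 4) (by norm_num) (2 * M), hlim (1 / 4) (by norm_num) (3 * M / c4)]
      with β a1 a2 a3 a4 a5 a6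
    exact ⟨a1, a2, a3, a4, a5, a6⟩
  obtain ⟨β0, hβ0⟩ := eventually_atTop.1 hall
  refine ⟨β0, fun β hβ => ?_⟩
  obtain ⟨b1, b2, b3, b4, b5, b6⟩ := hβ0 β hβ
  have hβp : 0 < β := by linarith
  have hsβ : 1 ≤ s * β := by nlinarith
  obtain ⟨e, he1, he2, hemin⟩ := cell_exists b2
  have hp : ∀ s : ℝ, 0 < β ^ s := fun s => Real.rpow_pos_of_pos hβp s
  have hee : e0 ≤ e := by
    have h1 : (3:ℝ) ^ e0 ≤ 3 ^ e := b3.trans he1
    exact (pow_le_pow_iff_right₀ (by norm_num : (1:ℝ) < 3)).1 h1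
  obtain ⟨n3, H3⟩ := H3 e hee
  obtain ⟨nL, HL⟩ := HL β b1
  refine ⟨max n3 (max nL (max 2 ⌈β⌉₊)), ?_⟩
  intro n _ hn _ Mm a ha1' ha2' K hK1 hKL hKc g0 hg0 hg01 hBH g hg x
  have ha1 : β ^ (1 / 2 : ℝ) ≤ (3 : ℝ) ^ a := by rw [← Real.sqrt_eq_rpow]; exact ha1'
  have ha2 : (3 : ℝ) ^ a ≤ β := by
    refine ha2'.trans ?_
    have h1 : β ^ (3 / 4 : ℝ) ≤ β ^ (1 : ℝ) := Real.rpow_le_rpow_of_exponent_le b2 (by norm_num)
    rwa [Real.rpow_one] at h1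
  have hn3 : n3 ≤ n := (le_max_left _ _).trans hn
  have hnL : nL ≤ n := (le_max_left _ _).trans ((le_max_right _ _).trans hn)
  have hn2 : 2 ≤ n := (le_max_left _ _).trans ((le_max_right _ _).trans
    ((le_max_right _ _).trans hn))
  have hnβ : β ≤ n := by
    have : ⌈β⌉₊ ≤ n := (le_max_right _ _).trans ((le_max_right _ _).trans
      ((le_max_right _ _).trans hn))
    exact (Nat.le_ceil β).trans (by exact_mod_cast this)
  have hn0 : (0 : ℝ) < n := by linarith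
  have hg0p : 0 < g0 := (Real.rpow_pos_of_pos hn0 _).trans_le hg0
  have hKp : 0 < K := by linarith
  -- scales
  have hea : e ≤ a := hemin a ha1
  obtain ⟨ha2e, hK27, hK27a, hK9, hK3a, hlam⟩ := scales b2 b4 he1 ha1 ha2 hC5 hKL hKc
  have hcard : (cube n x (3 ^ a)).card = (3 ^ a) ^ 3 := by
    refine card_cube x (3 ^ a) ?_
    have : ((3 ^ a : ℕ) : ℝ) ≤ n := by push_cast; linarith
    exact_mod_cast this
  have hKcard : K ≤ (cube n x (3 ^ a)).card := by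
    rw [hcard]; push_cast
    exact hK3a
  have hne : (cube n x (3 ^ a)).Nonempty := by
    rw [← Finset.card_pos, hcard]; positivity
  have hneS : (cube n x (3 ^ a) ×ˢ (univ : Finset (Fin s))).Nonempty := by
    rw [← Finset.card_pos, Finset.card_product, hcard, Finset.card_univ, Fintype.card_fin]
    positivity
  obtain ⟨hεp, hε2, hεe, hεsq⟩ := epsilons hβp hC7 hM hc4 b5 b6 he2 hKL
  obtain ⟨lam, hlamdef⟩ : ∃ lam : ℝ, lam = β ^ (-(9 / 2) : ℝ) := ⟨_, rfl⟩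
  obtain ⟨η, hηdef⟩ : ∃ η : ℝ, η = C7 * β ^ (-(3 / 2) : ℝ) := ⟨_, rfl⟩
  obtain ⟨ε, hεdef⟩ : ∃ ε : ℝ, ε = M * β ^ (-(3 / 4) : ℝ) := ⟨_, rfl⟩
  unfold BH3S at hBH
  have hηp : 0 < η := by rw [hηdef]; exact mul_pos hC7 (hp _)
  have HL' := HL n hnL Mm e K (cube n x (3 ^ a)) he1 he2 hK1 hKL hKcard
  rw [← hlamdef] at hlam hBH hg
  rw [← hηdef] at hBH hεsq HL'
  rw [← hεdef] at hεp hε2 hεe hεsq
  obtain ⟨N0, hN0⟩ := trMag_of (K := K) (b := cube n x (3 ^ a) ×ˢ (univ : Finset (Fin s)))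
    (Dict.magLim (edgesS n s Mm) hβp) hβp hneS hKp.le hηp
  obtain ⟨W0, hW0⟩ := HL'
  rw [Filter.frequently_atTop]
  intro N1
  obtain ⟨W, hW⟩ : ∃ W : ℕ, W = N1 + N0 + W0 + ⌈β⌉₊ + 1 := ⟨_, rfl⟩
  have hWp : 0 < W := by omega
  refine ⟨4 * W, by omega, ?_⟩
  have hβN : β ≤ ((4 * W : ℕ) : ℝ) := by
    have h1 : β ≤ (⌈β⌉₊ : ℝ) := Nat.le_ceil _
    have h2 : (⌈β⌉₊ : ℝ) ≤ ((4 * W : ℕ) : ℝ) := by
      exact_mod_cast (by omega : ⌈β⌉₊ ≤ 4 * W)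
    linarith
  have hmem : ∀ g : Tor n → ℝ, Fam n g0 lam g → ∀ y, 0 < g y ∧ g y ≤ 1 :=
    fun g hg y => ⟨hg0p.trans_le (hg.1 y).1, (hg.1 y).2⟩
  have hmagb : ∀ g : Tor n → ℝ, Fam n g0 lam g →
      ∀ z : Fin (4 * W + 1) × (Tor n × Fin s), z.1 ≠ 0 →
      1 - ε ^ 2 ≤ mag (phys (edgesS n s Mm) β (4 * W))
        (th (1 / (s : ℝ)) (4 * W) (hS g) (blk K (cube n x (3 ^ a) ×ˢ univ))) z := by
    intro g hg z hz
    rw [← th_scaledS hs hβp]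
    refine le_trans (by linarith) (hN0 (4 * W) (by omega) (hS fun y => g y / (s * β))
      (fun y => ?_) (fun y => hBH g hg y) z hz)
    have h1 := hmem g hg y.1
    unfold hS
    exact ⟨div_nonneg h1.1.le (by linarith), by rw [div_le_one (by linarith)]; linarith [h1.2]⟩
  have hlow : LowE n (4 * W * s) (cube n x (3 ^ a)) 1 g0 lam ε
      (cS3 n s (4 * W) (phys (edgesS n s Mm) β (4 * W)) K (cube n x (3 ^ a))) :=
    hlo n (4 * W) K g0 lam ε (cube n x (3 ^ a)) _ (by omega) hKp.le hg0p hεp hε2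
      (good_of_isLaw (isLaw_phys' _ hβp.le hβN)) hmagb
  have key := H3 n (4 * W * s) (W * s) K g0 lam ε x a g
    (cS3 n s (4 * W) (phys (edgesS n s Mm) β (4 * W)) K (cube n x (3 ^ a)))
    hn3 (Nat.mul_pos hWp hs) (by ring) hea ha2e hK1 hK27 hK27a hK9 hg0 hg01 hlam hεp hεe
    (fun g hg => hW0 W (by omega) g (hmem g hg) (fun y => hBH g hg y)) hlow hg
  rw [kap_scaledS hs hβp]
  exact key

end

end Vale.Agent.P361.LRO.S3S
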