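import Vale.Agent.P361.LRO.GenS.LocalInst3S
import Vale.Agent.P361.LRO.S3S.Kappa

/-!
P361 LRO, stage 3, all spins: `LocalStmt3S` from the long-window bound `CCgeS` and the defect
bound `DeltaStmt`.
-/

namespace Vale.Agent.P361.LRO.S3S

open Finset Vale.Agent.P361.LRO _root_.P361.LRO Vale.Agent.P361.LRO.Ind
  Vale.Agent.P361.LRO.Ind3 Vale.Agent.P361.LRO.GenS

noncomputable section

/-- **The local instance for all spins.** -/
theorem localStmt3S_of {s : ℕ} (hs : 0 < s) (hCC : CCgeS s) (hΔ : DeltaStmt) :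
    LocalStmt3S s := by
  obtain ⟨c1, hc1, H⟩ := localC3_inst s hs hCC hΔ
  refine ⟨c1, hc1, fun C7 Lam hC7 hLam => ?_⟩
  have hsr : (1 : ℝ) ≤ s := by exact_mod_cast hs
  obtain ⟨β0, hβ08, H⟩ := H (C7 + Lam * C7) (by positivity)
  refine ⟨β0, fun β hβ => ⟨2, ?_⟩⟩
  intro n _ hn M e K b he1 he2 hK1 hKL hKb
  have hβ8 : 8 ≤ β := hβ08.trans hβ
  have hβp : 0 < β := by linarith
  have hη : 0 < C7 * β ^ (-(3 / 2) : ℝ) := by
    have := Real.rpow_pos_of_pos hβp (-(3 / 2) : ℝ)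
    positivity
  have hprod : β ^ (3 / 2 : ℝ) * β ^ (-(3 / 2) : ℝ) = 1 := by
    rw [← Real.rpow_add hβp]
    norm_num
  have hKη : K * (C7 * β ^ (-(3 / 2) : ℝ)) ≤ C7 + Lam * C7 := by
    have h1 : K * (C7 * β ^ (-(3 / 2) : ℝ)) ≤ (Lam * β ^ (3 / 2 : ℝ)) *
        (C7 * β ^ (-(3 / 2) : ℝ)) := mul_le_mul_of_nonneg_right hKL hη.le
    have h2 : (Lam * β ^ (3 / 2 : ℝ)) * (C7 * β ^ (-(3 / 2) : ℝ)) =
        Lam * C7 * (β ^ (3 / 2 : ℝ) * β ^ (-(3 / 2) : ℝ)) := by ring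
    rw [h2, hprod, mul_one] at h1
    linarith
  have hbp : (0 : ℝ) < b.card := by linarith
  have hbn : b.Nonempty := by
    rw [← Finset.card_pos]
    exact_mod_cast hbp
  have hsq : β ^ (1 / 2 : ℝ) = √β := (Real.sqrt_eq_rpow β).symm
  rw [hsq] at he1 he2
  obtain ⟨N0, H⟩ := H β hβ e n M K (C7 * β ^ (-(3 / 2) : ℝ)) b hn he2 (by
      have : (0 : ℝ) < 3 ^ e := by positivity
      linarith) (by linarith) (by nlinarith) hbn hη
    (mul_le_mul_of_nonneg_right (by nlinarith) (Real.rpow_pos_of_pos hβp _).le) hKη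
  refine ⟨max N0 1, fun W hW g hg hrho => ?_⟩
  have hW0 : N0 ≤ 4 * W := by
    have := (le_max_left N0 1).trans hW
    omega
  have hW1 : 0 < W := (le_max_right N0 1).trans hW
  have h := H (4 * W) W hW0 rfl g (fun x => ⟨(hg x).1.le, (hg x).2⟩) hrho
  rw [th_scaledS hs hβp] at h
  exact local3_slots hs hW1 h

end

end Vale.Agent.P361.LRO.S3S
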