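import Vale.Agent.P361.LRO.S3S.LowG
import Vale.Agent.P361.LRO.S3S.LocalMain
import Vale.Agent.P361.LRO.Ind3.BlockE
import Vale.Agent.P361.LRO.Ind3.KappaMain

/-!
P361 LRO, stage 3, all spins: `KappaStmt3S s` from the local instance.
-/

namespace Vale.Agent.P361.LRO.S3S

/-- **Stiffness, all spins**, from the long-window local instance. -/
theorem kappaStmt3S_of_local {s : ℕ} (hs : 0 < s) (hL : LocalStmt3S s) : KappaStmt3S s :=
  kappaStmt3S_of hs (fun c1 hc1 => Ind3.block3E c1 hc1) hL (lowStmt3S hs)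

/-- **Stiffness, all spins**, from the long-window conductance bound. -/
theorem kappaStmt3S_of_CC {s : ℕ} (hs : 0 < s) (hCC : GenS.CCgeS s) : KappaStmt3S s :=
  kappaStmt3S_of_local hs (localStmt3S_of hs hCC Ind3.deltaStmt)

end Vale.Agent.P361.LRO.S3S
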