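import Vale.Agent.P361.LRO.Bloch.Kernel5
import Vale.Agent.P361.LRO.GenS.Iface

/-!
# P361, stage 3, all spins: the one-particle walk on `Tor n × Fin s`
-/

namespace Vale.Agent.P361.LRO.S3S.Ker

open Finset NormedSpace Vale.Agent.P361.LRO.Bloch Vale.Agent.P361.LRO.Bloch.Ker

noncomputable section

section Lift

variable {G : Type*} [Fintype G] [DecidableEq G] {s : ℕ}

/-- `M ⊗ J` -/
def liJ (s : ℕ) (M : Matrix G G ℝ) : Matrix (G × Fin s) (G × Fin s) ℝ :=
  Matrix.of fun u v => M u.1 v.1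

/-- `M ⊗ 1` -/
def li1 (s : ℕ) (M : Matrix G G ℝ) : Matrix (G × Fin s) (G × Fin s) ℝ :=
  Matrix.of fun u v => if u.2 = v.2 then M u.1 v.1 else 0

omit [Fintype G] [DecidableEq G] in
theorem liJ_apply (M : Matrix G G ℝ) (u v : G × Fin s) : liJ s M u v = M u.1 v.1 := rfl

omit [Fintype G] [DecidableEq G] in
theorem liJ_smul (c : ℝ) (M : Matrix G G ℝ) : liJ s (c • M) = c • liJ s M := rfl

omit [Fintype G] [DecidableEq G] in
theorem liJ_add (M N : Matrix G G ℝ) : liJ s (M + N) = liJ s M + liJ s N := rfl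

omit [DecidableEq G] in
theorem liJ_mul (M N : Matrix G G ℝ) : liJ s M * liJ s N = (s : ℝ) • liJ s (M * N) := by
  ext u v
  rw [Matrix.mul_apply, Matrix.smul_apply, liJ_apply, Matrix.mul_apply, Fintype.sum_prod_type]
  simp only [liJ_apply, sum_const, card_univ, Fintype.card_fin, nsmul_eq_mul, smul_eq_mul]
  rw [mul_sum]

/-- `φ(M) = (1/s) M ⊗ J`, a non-unital homomorphism -/
def ph (s : ℕ) (M : Matrix G G ℝ) : Matrix (G × Fin s) (G × Fin s) ℝ := (1 / (s : ℝ)) • liJ s M

omit [DecidableEq G] in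
theorem ph_mul (hs : 0 < s) (M N : Matrix G G ℝ) : ph s M * ph s N = ph s (M * N) := by
  have h : (s : ℝ) ≠ 0 := by positivity
  rw [ph, ph, ph, smul_mul_smul_comm, liJ_mul, smul_smul]
  congr 1
  field_simp

theorem ph_pow (hs : 0 < s) (M : Matrix G G ℝ) (k : ℕ) : ph s M ^ (k + 1) = ph s (M ^ (k + 1)) := by
  induction k with
  | zero => rw [zero_add, pow_one, pow_one]
  | succ k ih => rw [pow_succ, ih, ph_mul hs, ← pow_succ]

/-- exponential of `φ(B)` -/
theorem exp_ph (hs : 0 < s) (B : Matrix G G ℝ) : exp (ph s B) = ph s (exp B) + (1 - ph s 1) := by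
  have h1 : HasSum (fun k : ℕ => ((k.factorial : ℝ)⁻¹) • (ph s B) ^ k) (exp (ph s B)) := by
    open scoped Matrix.Norms.Operator in
    exact exp_series_hasSum_exp' (𝕂 := ℝ) (ph s B)
  have h2 : HasSum (fun k : ℕ => ((k.factorial : ℝ)⁻¹) • B ^ k) (exp B) := by
    open scoped Matrix.Norms.Operator in
    exact exp_series_hasSum_exp' (𝕂 := ℝ) B
  have h3 : HasSum (fun k : ℕ => ph s (((k.factorial : ℝ)⁻¹) • B ^ k)) (ph s (exp B)) := by
    refine Pi.hasSum.2 fun u => Pi.hasSum.2 fun v => ?_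
    exact ((Pi.hasSum.1 (Pi.hasSum.1 h2 u.1)) v.1).mul_left (1 / (s : ℝ))
  have h4 : HasSum (fun k : ℕ => if k = 0 then (1 - ph s (1 : Matrix G G ℝ)) else 0)
      (1 - ph s 1) := by
    have := hasSum_ite_eq 0 (1 - ph s (1 : Matrix G G ℝ))
    exact this
  have h5 := h3.add h4
  have e : (fun k : ℕ => ((k.factorial : ℝ)⁻¹) • (ph s B) ^ k) = fun k : ℕ =>
      ph s (((k.factorial : ℝ)⁻¹) • B ^ k) +
        (if k = 0 then (1 - ph s (1 : Matrix G G ℝ)) else 0) := by
    funext k
    cases k with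
    | zero => simp
    | succ k =>
      rw [if_neg (Nat.succ_ne_zero k), add_zero, ph_pow hs, ph, ph, liJ_smul, smul_comm]
  rw [e] at h1
  exact h1.unique h5

end Lift

section Sums

variable {W : Type*} [DecidableEq W]

theorem Disc_genE_eq {V : Type} [Fintype V] [DecidableEq V] (a : ℝ) {e : V × V}
    (he : e.1 ≠ e.2) : Disc.genE a e = a • Swt e - Dg e := by
  ext x y
  simp only [Disc.genE, Swt, Dg, Matrix.of_apply, Matrix.sub_apply, Matrix.smul_apply,
    smul_eq_mul]
  by_cases h1 : x = e.1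
  · have h2 : Equiv.swap e.1 e.2 x = e.2 := by rw [h1]; exact Equiv.swap_apply_left _ _
    have h3 : ¬ (x = e.2) := fun h => he (h1.symm.trans h)
    rw [h2]
    by_cases h4 : y = e.2
    · have h5 : ¬ (y = x) := fun h => h3 (h.symm.trans h4)
      have h6 : ¬ (x = y) := fun h => h5 h.symm
      simp [h1, h4, he, Ne.symm he]
    · by_cases h5 : y = x
      · simp [h1, h5, he]
      · have h6 : ¬ (x = y) := fun h => h5 h.symm
        have h7 : ¬ y = e.1 := fun h => h5 (h.trans h1.symm)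
        have h8 : ¬ e.1 = y := fun h => h7 h.symm
        simp [h1, h4, h7, h8, he]
  · by_cases h2 : x = e.2
    · have h3 : Equiv.swap e.1 e.2 x = e.1 := by rw [h2]; exact Equiv.swap_apply_right _ _
      rw [h3]
      by_cases h4 : y = e.1
      · simp [h2, h4, he, Ne.symm he]
      · by_cases h5 : y = x
        · simp [h2, h5, Ne.symm he]
        · have h7 : ¬ y = e.2 := fun h => h5 (h.trans h2.symm)
          have h8 : ¬ e.2 = y := fun h => h7 h.symm
          simp [h2, h4, h7, h8, Ne.symm he]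
    · simp [h1, h2]

theorem sum_Swt_copies {G : Type*} [DecidableEq G] (s : ℕ) {x y : G} (hxy : x ≠ y) :
    ∑ i : Fin s, ∑ j : Fin s, Swt ((x, i), (y, j)) = liJ s (Swt (x, y)) := by
  ext u v
  obtain ⟨a, i'⟩ := u
  obtain ⟨b, j'⟩ := v
  simp only [Matrix.sum_apply, Swt, liJ_apply, Matrix.of_apply, Prod.mk.injEq]
  have h : ∀ i j : Fin s, (if ((a = x ∧ i' = i) ∧ b = y ∧ j' = j) ∨
      ((a = y ∧ i' = j) ∧ b = x ∧ j' = i) then (1 : ℝ) else 0) =
      (if i = i' then (if j = j' then (if a = x ∧ b = y then 1 else 0) else 0) else 0) +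
      (if i = j' then (if j = i' then (if a = y ∧ b = x then 1 else 0) else 0) else 0) := by
    intro i j
    by_cases p1 : a = x ∧ b = y
    · have p2 : ¬ (a = y ∧ b = x) := fun h => hxy (p1.1.symm.trans h.1)
      have p3 : ¬ ((a = y ∧ i' = j) ∧ b = x ∧ j' = i) := fun h => p2 ⟨h.1.1, h.2.1⟩
      rw [if_neg p2, if_pos p1]
      by_cases q1 : i = i'
      · by_cases q2 : j = j'
        · rw [if_pos (Or.inl ⟨⟨p1.1, q1.symm⟩, p1.2, q2.symm⟩), if_pos q1, if_pos q2]
          simp
        · rw [if_neg (fun h => h.elim (fun h => q2 h.2.2.symm) p3), if_pos q1, if_neg q2]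
          simp
      · rw [if_neg (fun h => h.elim (fun h => q1 h.1.2.symm) p3), if_neg q1]
        simp
    · have p3 : ¬ ((a = x ∧ i' = i) ∧ b = y ∧ j' = j) := fun h => p1 ⟨h.1.1, h.2.1⟩
      by_cases p2 : a = y ∧ b = x
      · rw [if_pos p2, if_neg p1]
        by_cases q1 : i = j'
        · by_cases q2 : j = i'
          · rw [if_pos (Or.inr ⟨⟨p2.1, q2.symm⟩, p2.2, q1.symm⟩), if_pos q1, if_pos q2]
            simp
          · rw [if_neg (fun h => h.elim p3 (fun h => q2 h.1.2.symm)), if_pos q1, if_neg q2]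
            simp
        · rw [if_neg (fun h => h.elim p3 (fun h => q1 h.2.2.symm)), if_neg q1]
          simp
      · rw [if_neg (fun h => h.elim p3 (fun h => p2 ⟨h.1.1, h.2.1⟩)), if_neg p1, if_neg p2]
        simp
  simp only [h, sum_add_distrib, sum_ite_eq', mem_univ, if_true, sum_ite_irrel, sum_const_zero]
  by_cases p1 : a = x ∧ b = y
  · have p2 : ¬ (a = y ∧ b = x) := fun h => hxy (p1.1.symm.trans h.1)
    rw [if_pos p1, if_neg p2, if_pos (Or.inl p1)]
    simp
  · by_cases p2 : a = y ∧ b = x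
    · rw [if_neg p1, if_pos p2, if_pos (Or.inr p2)]
      simp
    · rw [if_neg p1, if_neg p2, if_neg (fun h => h.elim p1 p2)]
      simp

theorem sum_Dg_copies {G : Type*} [DecidableEq G] (s : ℕ) {x y : G} (hxy : x ≠ y) :
    ∑ i : Fin s, ∑ j : Fin s, Dg ((x, i), (y, j)) = (s : ℝ) • li1 s (Dg (x, y)) := by
  ext u v
  obtain ⟨a, i'⟩ := u
  obtain ⟨b, j'⟩ := v
  simp only [Matrix.sum_apply, Dg, li1, Matrix.of_apply, Prod.mk.injEq, Matrix.smul_apply,
    smul_eq_mul]
  by_cases h0 : a = b ∧ i' = j'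
  · have h : ∀ i j : Fin s, (if (a = b ∧ i' = j') ∧ ((a = x ∧ i' = i) ∨ (a = y ∧ i' = j))
        then (1 : ℝ) else 0) = (if i = i' then (if a = x then 1 else 0) else 0) +
          (if j = i' then (if a = y then 1 else 0) else 0) := by
      intro i j
      by_cases p1 : a = x
      · have p2 : ¬ a = y := fun h => hxy (p1.symm.trans h)
        by_cases q1 : i = i'
        · rw [if_pos ⟨h0, Or.inl ⟨p1, q1.symm⟩⟩, if_pos q1, if_pos p1, if_neg p2]
          simp
        · rw [if_neg (fun h => h.2.elim (fun h => q1 h.2.symm) (fun h => p2 h.1)), if_neg q1,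
            if_neg p2]
          simp
      · by_cases p2 : a = y
        · by_cases q2 : j = i'
          · rw [if_pos ⟨h0, Or.inr ⟨p2, q2.symm⟩⟩, if_neg p1, if_pos q2, if_pos p2]
            simp
          · rw [if_neg (fun h => h.2.elim (fun h => p1 h.1) (fun h => q2 h.2.symm)), if_neg p1,
              if_neg q2]
            simp
        · rw [if_neg (fun h => h.2.elim (fun h => p1 h.1) (fun h => p2 h.1)), if_neg p1,
            if_neg p2]
          simp
    simp only [h, sum_add_distrib, sum_ite_eq', mem_univ, if_true, sum_const, card_univ,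
      Fintype.card_fin, nsmul_eq_mul]
    rw [if_pos h0.2]
    by_cases p1 : a = x
    · have p2 : ¬ a = y := fun h => hxy (p1.symm.trans h)
      rw [if_pos p1, if_neg p2, if_pos ⟨h0.1, Or.inl p1⟩]
      simp
    · by_cases p2 : a = y
      · rw [if_neg p1, if_pos p2, if_pos ⟨h0.1, Or.inr p2⟩]
        simp
      · rw [if_neg p1, if_neg p2, if_neg (fun h => h.2.elim p1 p2)]
        simp
  · have h : ∀ i j : Fin s, (if (a = b ∧ i' = j') ∧ ((a = x ∧ i' = i) ∨ (a = y ∧ i' = j))
        then (1 : ℝ) else 0) = 0 := fun i j => if_neg fun h => h0 h.1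
    simp only [h, sum_const_zero]
    by_cases p1 : i' = j'
    · rw [if_pos p1, if_neg (fun h => h0 ⟨h.1, p1⟩), mul_zero]
    · rw [if_neg p1, mul_zero]

end Sums

end

end Vale.Agent.P361.LRO.S3S.Ker
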