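import Vale.Agent.P361.LRO.S3S.Kernel1

/-!
# P361, stage 3, all spins: heat kernel bounds on `Tor n × Fin s`
-/

namespace Vale.Agent.P361.LRO.S3S.Ker

open Finset NormedSpace Vale.Agent.P361.LRO.Bloch Vale.Agent.P361.LRO.Bloch.Ker
  Vale.Agent.P361.LRO.GenS

noncomputable section

/-- adjacency matrix of the torus (with multiplicities) -/
def Adj (n : ℕ) : Matrix (Tor n) (Tor n) ℝ :=
  ∑ i : Fin 3, (Sh (Pi.single i 1) + Sh (-Pi.single i 1))

theorem Lap_eq (n : ℕ) : Lap n = Adj n - (6 : ℝ) • 1 := by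
  rw [Lap, sum_sub_distrib, Adj, sum_const, card_univ, Fintype.card_fin,
    ← Nat.cast_smul_eq_nsmul ℝ, smul_smul]
  norm_num

theorem sum_map_flatMap {α β M : Type*} [AddCommMonoid M] (L : List α) (f : α → List β)
    (F : β → M) : ((L.flatMap f).map F).sum = (L.map fun a => ((f a).map F).sum).sum := by
  induction L with
  | nil => simp
  | cons a L ih =>
    rw [List.flatMap_cons, List.map_append, List.sum_append, ih, List.map_cons, List.sum_cons]

theorem sum_interE {n s : ℕ} [NeZero n] {M : Type*} [AddCommMonoid M]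
    (F : (Tor n × Fin s) × (Tor n × Fin s) → M) :
    ((interE n s).map F).sum = ∑ z : Tor n × Fin 3, ∑ i : Fin s, ∑ j : Fin s,
      F ((z.1, i), (z.1 + Pi.single z.2 1, j)) := by
  unfold interE
  rw [sum_map_flatMap, edges, List.map_map, Finset.sum_map_toList]
  refine sum_congr rfl fun z _ => ?_
  simp only [Function.comp]
  rw [sum_map_flatMap, Fin.sum_univ_def]
  congr 1
  refine List.map_congr_left fun i _ => ?_
  rw [List.map_map, Fin.sum_univ_def]
  rfl

theorem interE_ne {n s : ℕ} [NeZero n] (hn : 2 ≤ n) {e : (Tor n × Fin s) × (Tor n × Fin s)}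
    (he : e ∈ interE n s) : e.1 ≠ e.2 := by
  unfold interE edges at he
  simp only [List.mem_flatMap, List.mem_map, List.mem_finRange, true_and] at he
  obtain ⟨e', ⟨z, _, rfl⟩, i, j, rfl⟩ := he
  intro h
  have h1 := congrArg Prod.fst h
  exact single_ne hn z.2 (by simpa using h1.symm)

theorem genL_interE {n s : ℕ} [NeZero n] (hn : 2 ≤ n) (a : ℝ)
    {L : List ((Tor n × Fin s) × (Tor n × Fin s))} (hL : L.Perm (interE n s)) :
    Disc.genL a L = a • liJ s (Adj n) - (6 * s : ℝ) • 1 := by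
  have h1 : Disc.genL a L = Disc.genL a (interE n s) := (hL.map _).sum_eq
  have h2 : Disc.genL a (interE n s) = ((interE n s).map fun e => a • Swt e - Dg e).sum := by
    unfold Disc.genL
    congr 1
    exact List.map_congr_left fun e he => Disc_genE_eq a (interE_ne hn he)
  rw [h1, h2, sum_interE]
  have h3 : ∀ z : Tor n × Fin 3, ∑ i : Fin s, ∑ j : Fin s,
      (a • Swt ((z.1, i), (z.1 + Pi.single z.2 1, j)) -
        Dg ((z.1, i), (z.1 + (Pi.single z.2 1 : Tor n), j))) =
      a • liJ s (Swt (z.1, z.1 + Pi.single z.2 1)) -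
        (s : ℝ) • li1 s (Dg (z.1, z.1 + (Pi.single z.2 1 : Tor n))) := by
    intro z
    have hne : z.1 ≠ z.1 + Pi.single z.2 1 := fun h => single_ne hn z.2 (by simpa using h.symm)
    simp only [sum_sub_distrib, ← smul_sum]
    rw [sum_Swt_copies s hne, sum_Dg_copies s hne]
  rw [sum_congr rfl fun z _ => h3 z, sum_sub_distrib, ← smul_sum, ← smul_sum]
  have h4 : ∑ z : Tor n × Fin 3, liJ s (Swt (z.1, z.1 + (Pi.single z.2 1 : Tor n))) =
      liJ s (Adj n) := by
    ext u v
    rw [Matrix.sum_apply]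
    simp only [liJ_apply]
    rw [← Matrix.sum_apply, Fintype.sum_prod_type_right]
    simp only
    rw [sum_congr rfl fun i _ => sum_Swt (single_ne hn i), Adj]
  have h5 : ∑ z : Tor n × Fin 3, li1 s (Dg (z.1, z.1 + (Pi.single z.2 1 : Tor n))) =
      (6 : ℝ) • 1 := by
    have e1 : ∑ z : Tor n × Fin 3, Dg (z.1, z.1 + (Pi.single z.2 1 : Tor n)) = (6 : ℝ) • 1 := by
      rw [Fintype.sum_prod_type_right]
      simp only
      rw [sum_congr rfl fun i _ => sum_Dg (single_ne hn i), sum_const, card_univ,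
        Fintype.card_fin, ← Nat.cast_smul_eq_nsmul ℝ, smul_smul]
      norm_num
    ext u v
    rw [Matrix.sum_apply]
    have e2 := congrFun (congrFun e1 u.1) v.1
    rw [Matrix.sum_apply] at e2
    by_cases h : u.2 = v.2
    · have e3 : ∀ z : Tor n × Fin 3, li1 s (Dg (z.1, z.1 + (Pi.single z.2 1 : Tor n))) u v =
          Dg (z.1, z.1 + (Pi.single z.2 1 : Tor n)) u.1 v.1 := fun z => if_pos h
      rw [sum_congr rfl fun z _ => e3 z, e2]
      simp only [Matrix.smul_apply, Matrix.one_apply, smul_eq_mul]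
      congr 1
      by_cases h6 : u.1 = v.1
      · rw [if_pos h6, if_pos (Prod.ext h6 h)]
      · rw [if_neg h6, if_neg (fun h7 => h6 (congrArg Prod.fst h7))]
    · have e3 : ∀ z : Tor n × Fin 3, li1 s (Dg (z.1, z.1 + (Pi.single z.2 1 : Tor n))) u v =
          0 := fun z => if_neg h
      rw [sum_congr rfl fun z _ => e3 z, sum_const_zero]
      simp only [Matrix.smul_apply, Matrix.one_apply, smul_eq_mul]
      rw [if_neg (fun h7 => h (congrArg Prod.snd h7)), mul_zero]
  rw [h4, h5, smul_smul, mul_comm (s : ℝ) 6]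

theorem Adj_nonneg (n : ℕ) : Le 0 (Adj n) := by
  intro x y
  rw [Adj, Matrix.sum_apply]
  exact sum_nonneg fun i _ => add_nonneg (Sh_nonneg _ x y) (Sh_nonneg _ x y)

theorem exp_Adj_diag {n : ℕ} [NeZero n] {σ : ℝ} (hσ : 1 ≤ σ) (x : Tor n) :
    2 ≤ exp (σ • Adj n) x x := by
  have h0 : Le 0 (σ • Adj n) := by simpa using (Adj_nonneg n).smul (by linarith : 0 ≤ σ)
  have h1 := exp_ge_sum h0 {0, 2} x x
  have h2 : ∑ b ∈ ({0, 2} : Finset ℕ), ((b.factorial : ℝ)⁻¹) • (σ • Adj n) ^ b =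
      1 + (2 : ℝ)⁻¹ • ((σ ^ 2) • (Adj n * Adj n)) := by
    rw [sum_pair (by norm_num), pow_zero, smul_pow, sq (Adj n)]
    norm_num [Nat.factorial]
  rw [h2] at h1
  have h3 : 2 ≤ (Adj n * Adj n) x x := by
    set e : Tor n := Pi.single 0 1 with he
    have hB : Le (Sh e + Sh (-e)) (Adj n) := by
      intro a b
      rw [Adj, Matrix.sum_apply]
      exact single_le_sum (f := fun i : Fin 3 => ((Sh (Pi.single i 1) +
        Sh (-Pi.single i 1) : Matrix (Tor n) (Tor n) ℝ)) a b)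
        (fun i _ => add_nonneg (Sh_nonneg _ a b) (Sh_nonneg _ a b)) (mem_univ 0)
    have hB0 : Le 0 (Sh e + Sh (-e)) := fun a b => add_nonneg (Sh_nonneg _ a b) (Sh_nonneg _ a b)
    have h4 := Le.mul hB0 hB0 hB hB x x
    refine le_trans ?_ h4
    have h5 : (Sh e + Sh (-e)) * (Sh e + Sh (-e)) = Sh (e + e) + Sh (-e + -e) + (2 : ℝ) • 1 := by
      rw [mul_add, add_mul, add_mul, Sh_mul, Sh_mul, Sh_mul, Sh_mul, neg_add_cancel,
        add_neg_cancel, Sh_zero, two_smul]
      abel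
    rw [h5]
    have a1 := Sh_nonneg (e + e) x x
    have a2 := Sh_nonneg (-e + -e) x x
    simp only [Matrix.add_apply, Matrix.smul_apply, Matrix.one_apply_eq, smul_eq_mul,
      Matrix.zero_apply] at a1 a2 ⊢
    linarith
  simp only [Matrix.add_apply, Matrix.smul_apply, Matrix.one_apply_eq, smul_eq_mul] at h1
  nlinarith

theorem exp_shift {ι : Type*} [Fintype ι] [DecidableEq ι] (X : Matrix ι ι ℝ) (c : ℝ) :
    exp (X + c • (1 : Matrix ι ι ℝ)) = Real.exp c • exp X := by
  rw [Matrix.exp_add_of_commute _ _ ((Commute.one_right _).smul_right _)]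
  have h2 : exp (c • (1 : Matrix ι ι ℝ)) = Real.exp c • 1 := by
    rw [← Algebra.algebraMap_eq_smul_one, ← Algebra.algebraMap_eq_smul_one, Real.exp_eq_exp_ℝ]
    have h3 : algebraMap ℝ (Matrix ι ι ℝ) (exp c) = exp (algebraMap ℝ (Matrix ι ι ℝ) c) := by
      open scoped Matrix.Norms.Operator in
      exact algebraMap_exp_comm c
    exact h3.symm
  rw [h2, mul_smul_comm, mul_one]

/-- **Heat kernel on `Tor n × Fin s`, lower bound by the torus.** -/
theorem exp_copies_lower {n s : ℕ} [NeZero n] (hs : 0 < s) {τ σ : ℝ} (hσ : σ = s * τ)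
    (h1 : 1 ≤ σ) (u v : Tor n × Fin s) :
    1 / (2 * (s : ℝ)) * exp (σ • Lap n) u.1 v.1 ≤
      exp (τ • (liJ s (Adj n) - (6 * s : ℝ) • 1)) u v := by
  have hs' : (0 : ℝ) < s := by exact_mod_cast hs
  have e1 : τ • (liJ s (Adj n) - (6 * s : ℝ) • 1) =
      ph s (σ • Adj n) + (-(6 * σ)) • (1 : Matrix (Tor n × Fin s) (Tor n × Fin s) ℝ) := by
    rw [ph, liJ_smul, smul_smul, smul_sub, smul_smul, hσ, neg_smul, sub_eq_add_neg]
    congr 2
    · field_simp
    · congr 1
      ring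
  have e2 : σ • Lap n = σ • Adj n + (-(6 * σ)) • (1 : Matrix (Tor n) (Tor n) ℝ) := by
    rw [Lap_eq, smul_sub, smul_smul, neg_smul, sub_eq_add_neg, mul_comm σ 6]
  rw [e1, exp_shift, exp_ph hs, e2, exp_shift]
  have h0 : Le 0 (exp (σ • Adj n)) := exp_nonneg' (by
    simpa using (Adj_nonneg n).smul (by linarith : 0 ≤ σ))
  have hE := h0 u.1 v.1
  simp only [Matrix.zero_apply] at hE
  simp only [Matrix.smul_apply, Matrix.add_apply, Matrix.sub_apply, ph, liJ_apply, smul_eq_mul]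
  have hexp := Real.exp_pos (-(6 * σ))
  have key : 1 / (2 * (s : ℝ)) * exp (σ • Adj n) u.1 v.1 ≤
      1 / s * exp (σ • Adj n) u.1 v.1 +
        ((1 : Matrix (Tor n × Fin s) (Tor n × Fin s) ℝ) u v -
          1 / s * (1 : Matrix (Tor n) (Tor n) ℝ) u.1 v.1) := by
    have g0 : 0 ≤ (1 : Matrix (Tor n × Fin s) (Tor n × Fin s) ℝ) u v := by
      rw [Matrix.one_apply]
      split_ifs <;> norm_num
    have g1 : (1 : Matrix (Tor n) (Tor n) ℝ) u.1 v.1 ≤ 1 / 2 * exp (σ • Adj n) u.1 v.1 := by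
      rw [Matrix.one_apply]
      split_ifs with h
      · rw [← h]
        have := exp_Adj_diag h1 u.1
        linarith
      · linarith
    have g2 := mul_le_mul_of_nonneg_left g1 (by positivity : 0 ≤ 1 / (s : ℝ))
    have g3 : 1 / (2 * (s : ℝ)) * exp (σ • Adj n) u.1 v.1 =
        1 / s * (1 / 2 * exp (σ • Adj n) u.1 v.1) := by
      field_simp
    rw [g3]
    have g4 : 1 / (s : ℝ) * exp (σ • Adj n) u.1 v.1 = 1 / s * (1 / 2 * exp (σ • Adj n) u.1 v.1) +
      1 / s * (1 / 2 * exp (σ • Adj n) u.1 v.1) := by ring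
    linarith
  have := mul_le_mul_of_nonneg_left key hexp.le
  calc 1 / (2 * (s : ℝ)) * (Real.exp (-(6 * σ)) * exp (σ • Adj n) u.1 v.1) =
      Real.exp (-(6 * σ)) * (1 / (2 * (s : ℝ)) * exp (σ • Adj n) u.1 v.1) := by ring
    _ ≤ _ := this

/-- Upper bound for the move generating function. -/
theorem exp_copies_two {n s : ℕ} [NeZero n] {τ : ℝ} (hτ : 0 ≤ τ) (u v : Tor n × Fin s) :
    exp (τ • ((2 : ℝ) • liJ s (Adj n) - (6 * s : ℝ) • 1)) u v ≤ Real.exp (6 * (s * τ)) := by
  open scoped Matrix.Norms.Operator in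
  have hSh : ∀ w : Tor n, ‖liJ s (Sh w : Matrix (Tor n) (Tor n) ℝ)‖ ≤ s := by
    intro w
    refine norm_le_of_row (Nat.cast_nonneg s) fun u => ?_
    rw [Fintype.sum_prod_type]
    simp only [liJ_apply, sum_const, card_univ, Fintype.card_fin, nsmul_eq_mul]
    have : ∀ y : Tor n, (s : ℝ) * |(Sh w : Matrix (Tor n) (Tor n) ℝ) u.1 y| =
        if y = u.1 + w then (s : ℝ) else 0 := by
      intro y
      simp only [Sh, Matrix.of_apply]
      split_ifs <;> simp
    rw [sum_congr rfl fun y _ => this y, sum_ite_eq' univ]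
    exact (if_pos (mem_univ _)).le
  have hA : ‖liJ s (Adj n)‖ ≤ 6 * s := by
    have e : liJ s (Adj n) = ∑ i : Fin 3, (liJ s (Sh (Pi.single i 1 : Tor n)) +
        liJ s (Sh (-Pi.single i 1 : Tor n))) := by
      ext u v
      rw [Matrix.sum_apply, liJ_apply, Adj, Matrix.sum_apply]
      rfl
    rw [e]
    refine (norm_sum_le _ _).trans ?_
    refine (sum_le_sum fun i _ => (norm_add_le _ _).trans (add_le_add (hSh _) (hSh _))).trans ?_
    rw [sum_const, card_univ, Fintype.card_fin, nsmul_eq_mul]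
    push_cast
    linarith
  have e1 : τ • ((2 : ℝ) • liJ s (Adj n) - (6 * s : ℝ) • 1) =
      (2 * τ) • liJ s (Adj n) + (-(6 * (s * τ))) • 1 := by
    module
  rw [e1, exp_shift, Matrix.smul_apply, smul_eq_mul]
  have h3 : exp ((2 * τ) • liJ s (Adj n)) u v ≤ Real.exp (12 * (s * τ)) := by
    refine (le_abs_self _).trans ((entry_le_norm _ u v).trans ?_)
    refine (Trot.norm_exp_le norm_one_le _).trans (Real.exp_le_exp.2 ?_)
    rw [norm_smul, Real.norm_of_nonneg (by positivity)]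
    nlinarith
  calc Real.exp (-(6 * (s * τ))) * exp ((2 * τ) • liJ s (Adj n)) u v ≤
        Real.exp (-(6 * (s * τ))) * Real.exp (12 * (s * τ)) :=
        mul_le_mul_of_nonneg_left h3 (Real.exp_pos _).le
    _ = Real.exp (6 * (s * τ)) := by
      rw [← Real.exp_add]
      congr 1
      ring

end

end Vale.Agent.P361.LRO.S3S.Ker
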