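import Vale.Agent.P361.LRO.S3S.Kernel2

/-!
# P361, stage 3, all spins: lower bound for the walk weights `qq` through `m` layers of gates
-/

namespace Vale.Agent.P361.LRO.S3S.Ker

open Finset NormedSpace Vale.Agent.P361.LRO.Bloch Vale.Agent.P361.LRO.Bloch.Ker
  Vale.Agent.P361.LRO.GenS

noncomputable section

theorem two_pow_ge {s : ℕ} (hs : 0 < s) : 2 * s ≤ 2 ^ s := by
  induction s with
  | zero => omega
  | succ s ih =>
    rcases Nat.eq_zero_or_pos s with h | h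
    · subst h; norm_num
    · have := ih h
      rw [pow_succ]
      omega

/-- discretization error -/
theorem layW_err {V : Type} [Fintype V] [DecidableEq V] (L : List (V × V)) {β : ℝ} (hβ : 0 < β)
    {N m : ℕ} (hN1 : 1 ≤ N) (hm : m ≤ N) {p : ℝ} (hp : p = β / (2 * N)) {c : ℝ}
    (hc : 3 * (L.length : ℝ) ≤ c) {a : ℝ} (ha : 0 ≤ a) (ha2 : a ≤ 2) (u v : V) :
    |(Disc.layW a p L ^ m) u v - (exp (((m : ℝ) * p) • Disc.genL a L)) u v| ≤
      β ^ 2 * c ^ 2 * Real.exp (β * c) / N := by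
  have hN0 : (0 : ℝ) < N := by exact_mod_cast hN1
  have hp0 : 0 ≤ p := by rw [hp]; positivity
  have hmN : (m : ℝ) ≤ N := by exact_mod_cast hm
  have hmp : (m : ℝ) * p ≤ β / 2 := by
    rw [hp, ← mul_div_assoc, div_le_iff₀ (by positivity)]
    nlinarith
  have h := Disc.layW_pow a p ha hp0 L m u v
  refine h.trans ?_
  have e1 : (a + 1) * (L.length : ℝ) ≤ c := by
    have : (0 : ℝ) ≤ L.length := Nat.cast_nonneg _
    nlinarith
  have e0 : 0 ≤ (a + 1) * (L.length : ℝ) := by positivity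
  have e2 : ((m : ℝ) + 1) * (p * ((a + 1) * L.length)) ≤ β * c := by
    have b1 : ((m : ℝ) + 1) * p ≤ β := by
      have b2 : (1 : ℝ) ≤ N := by exact_mod_cast hN1
      rw [hp, ← mul_div_assoc, div_le_iff₀ (by positivity)]
      nlinarith
    calc ((m : ℝ) + 1) * (p * ((a + 1) * L.length)) =
          (((m : ℝ) + 1) * p) * ((a + 1) * L.length) := by ring
      _ ≤ β * c := mul_le_mul b1 e1 e0 hβ.le
  have e3 : 2 * (m : ℝ) * (p * ((a + 1) * L.length)) ^ 2 ≤ β ^ 2 * c ^ 2 / N := by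
    have b2 : ((a + 1) * (L.length : ℝ)) ^ 2 ≤ c ^ 2 := pow_le_pow_left₀ e0 e1 2
    calc 2 * (m : ℝ) * (p * ((a + 1) * L.length)) ^ 2 =
          2 * ((m : ℝ) * p) * p * ((a + 1) * L.length) ^ 2 := by ring
      _ ≤ 2 * (β / 2) * p * c ^ 2 := by gcongr
      _ = β ^ 2 * c ^ 2 / N / 2 := by
        rw [hp]
        field_simp
      _ ≤ β ^ 2 * c ^ 2 / N := by
        have : 0 ≤ β ^ 2 * c ^ 2 / N := by positivity
        linarith
  calc 2 * (m : ℝ) * (p * ((a + 1) * L.length)) ^ 2 *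
        Real.exp (((m : ℝ) + 1) * (p * ((a + 1) * L.length))) ≤
        β ^ 2 * c ^ 2 / N * Real.exp (β * c) :=
        mul_le_mul e3 (Real.exp_le_exp.2 e2) (Real.exp_pos _).le (by positivity)
    _ = β ^ 2 * c ^ 2 * Real.exp (β * c) / N := by ring

theorem cJ_nonneg (A : ℝ) : 0 ≤ cJ A := by
  have hl2 : 0 < Real.log 2 := Real.log_pos (by norm_num)
  have hl : 0 ≤ Real.log (4 / cK A ^ 3) := by
    refine Real.log_nonneg ?_
    have := cK_pos A
    rw [le_div_iff₀ (by positivity)]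
    have : cK A ^ 3 ≤ 1 := pow_le_one₀ (cK_pos A).le cK_le_one
    linarith
  unfold cJ
  positivity

theorem half_pow_leS {A σ : ℝ} (hσ1 : 1 ≤ σ) {s J : ℕ} (hs : 0 < s)
    (hJ : cJ A * σ + s ≤ J) :
    (1 / 2 : ℝ) ^ J * Real.exp (6 * σ) ≤ 1 / (2 * (s : ℝ)) * (cK A / √σ) ^ 3 / 4 := by
  have hs' : (0 : ℝ) < s := by exact_mod_cast hs
  have hJs : s ≤ J := by
    have h : (s : ℝ) ≤ J := by
      have : 0 ≤ cJ A * σ := mul_nonneg (cJ_nonneg A) (by linarith)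
      linarith
    exact_mod_cast h
  obtain ⟨J', rfl⟩ := Nat.exists_eq_add_of_le hJs
  have h5 := half_pow_le (A := A) hσ1 (J := J') (by push_cast at hJ; linarith)
  rw [pow_add, mul_assoc]
  have g1 : (1 / 2 : ℝ) ^ s ≤ 1 / (2 * (s : ℝ)) := by
    rw [div_pow, one_pow]
    have : (2 * s : ℝ) ≤ 2 ^ s := by exact_mod_cast two_pow_ge hs
    exact one_div_le_one_div_of_le (by positivity) this
  have g2 : 0 ≤ (1 / 2 : ℝ) ^ J' * Real.exp (6 * σ) := by positivity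
  calc (1 / 2 : ℝ) ^ s * ((1 / 2 : ℝ) ^ J' * Real.exp (6 * σ)) ≤
      1 / (2 * (s : ℝ)) * ((cK A / √σ) ^ 3 / 4) :=
        mul_le_mul g1 h5 g2 (by positivity)
    _ = 1 / (2 * (s : ℝ)) * (cK A / √σ) ^ 3 / 4 := by ring

/-- **Lower bound for the walk through `m` layers of gates, all copies.** -/
theorem gates_lowerS {A : ℝ} (hA : 0 ≤ A) {n s : ℕ} [NeZero n] (hn : 2 ≤ n) (hs : 0 < s) {β : ℝ}
    (hβ : 0 < β) :
    ∃ N0 : ℕ, ∀ N : ℕ, N0 ≤ N → ∀ L : List ((Tor n × Fin s) × (Tor n × Fin s)),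
      L.Perm (interE n s) → ∀ m ≤ N, ∀ σ : ℝ, σ = s * (m * (β / (2 * N))) → 1 ≤ σ →
      ∀ J : ℕ, cJ A * σ + s ≤ J →
      ∀ (x : Tor n) (z : Fin 3 → ℤ) (i0 j0 : Fin s), (∀ i, |(z i : ℝ)| ≤ A * √σ) →
      1 / (4 * (s : ℝ)) * (cK A / √σ) ^ 3 ≤ ∑ i ∈ range J,
        qq ((List.replicate m L).flatten.map fun e => Lt.gate e.1 e.2 (β / (2 * N))) (q0 (x, i0))
          (x + fun i => (z i : ZMod n), j0) i := by
  have hs' : (0 : ℝ) < s := by exact_mod_cast hs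
  set c : ℝ := 3 * (interE n s).length with hc
  have hc0 : 0 ≤ c := by positivity
  set K : ℝ := β ^ 2 * c ^ 2 * Real.exp (β * c) with hK
  have hK0 : 0 ≤ K := by positivity
  set T0 : ℝ := 1 / (2 * (s : ℝ)) * (cK A / √(s * (β / 2))) ^ 3 with hT0
  have hT0p : 0 < T0 := by
    have := cK_pos A
    have : 0 < √(s * (β / 2)) := Real.sqrt_pos.2 (by positivity)
    positivity
  refine ⟨max 1 (max ⌈β⌉₊ ⌈8 * K / T0⌉₊),
    fun N hN L hL m hm σ hσ hσ1 J hJ x z i0 j0 hz => ?_⟩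
  have hN1 : 1 ≤ N := (le_max_left _ _).trans hN
  have hNβ : β ≤ N := (Nat.le_ceil β).trans
    (by exact_mod_cast ((le_max_left _ _).trans (le_max_right _ _)).trans hN)
  have hNK : 8 * K / T0 ≤ N := (Nat.le_ceil _).trans
    (by exact_mod_cast ((le_max_right _ _).trans (le_max_right _ _)).trans hN)
  have hN0 : (0 : ℝ) < N := by exact_mod_cast hN1
  set p : ℝ := β / (2 * N) with hp
  have hp0 : 0 ≤ p := by positivity
  have hp1 : p ≤ 1 := by
    rw [hp, div_le_one (by positivity)]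
    linarith
  have hmp : (m : ℝ) * p ≤ β / 2 := by
    rw [hp]
    have : (m : ℝ) ≤ N := by exact_mod_cast hm
    rw [← mul_div_assoc, div_le_iff₀ (by positivity)]
    nlinarith
  have hmp0 : 0 ≤ (m : ℝ) * p := by positivity
  have hσβ : σ ≤ s * (β / 2) := by
    rw [hσ]
    exact mul_le_mul_of_nonneg_left hmp hs'.le
  have hσ0 : 0 < σ := by linarith
  set u : Tor n × Fin s := (x, i0) with hu
  set v : Tor n × Fin s := (x + fun i => (z i : ZMod n), j0) with hv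
  set T : ℝ := 1 / (2 * (s : ℝ)) * (cK A / √σ) ^ 3 with hT
  have hTT : T0 ≤ T := by
    rw [hT0, hT]
    have := cK_pos A
    have h1 : 0 < √σ := Real.sqrt_pos.2 hσ0
    have h2 : √σ ≤ √(s * (β / 2)) := Real.sqrt_le_sqrt hσβ
    gcongr
  have herr : ∀ a : ℝ, 0 ≤ a → a ≤ 2 →
      |(Disc.layW a p L ^ m) u v - (exp (((m : ℝ) * p) • Disc.genL a L)) u v| ≤ T / 8 := by
    intro a ha ha2
    refine (layW_err L hβ hN1 hm hp (c := c) (by rw [hL.length_eq]) ha ha2 u v).trans ?_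
    have h8 : K / N ≤ T0 / 8 := by
      rw [div_le_iff₀ hN0]
      rw [div_le_iff₀ hT0p] at hNK
      linarith
    exact h8.trans (by linarith)
  have h1 := abs_le.1 (herr 1 (by norm_num) (by norm_num))
  have h2 := abs_le.1 (herr 2 (by norm_num) le_rfl)
  rw [genL_interE hn 1 hL, one_smul] at h1
  rw [genL_interE hn 2 hL] at h2
  have h3 := Lap_lower hA hσ1 hz x
  have h3' : T ≤ exp (((m : ℝ) * p) • (liJ s (Adj n) - (6 * s : ℝ) • 1)) u v := by
    refine le_trans ?_ (exp_copies_lower hs hσ hσ1 u v)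
    rw [hT]
    exact mul_le_mul_of_nonneg_left h3 (by positivity)
  have h4 := exp_copies_two (n := n) (s := s) hmp0 u v
  rw [← hσ] at h4
  have h5' : (1 / 2 : ℝ) ^ J * Real.exp (6 * σ) ≤ T / 4 := half_pow_leS hσ1 hs hJ
  have hInv := (Inv.start u).fold hp0 hp1 (List.replicate m L).flatten
  have h6 := hInv.2.2 v J
  rw [QG_single, QG_single] at h6
  refine le_trans ?_ h6
  have h7 : (1 / 2 : ℝ) ^ J * (Disc.layW 2 p L ^ m) u v ≤
      (1 / 2 : ℝ) ^ J * (Real.exp (6 * σ) + T / 8) :=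
    mul_le_mul_of_nonneg_left (by linarith [h2.2]) (by positivity)
  have h8 : (1 / 2 : ℝ) ^ J * (T / 8) ≤ T / 8 := by
    have a1 : (1 / 2 : ℝ) ^ J ≤ 1 := pow_le_one₀ (by norm_num) (by norm_num)
    have a2 : 0 ≤ T / 8 := by linarith
    nlinarith
  have h9 : 1 / (4 * (s : ℝ)) * (cK A / √σ) ^ 3 = T / 2 := by
    rw [hT]
    ring
  rw [h9]
  linarith [h1.1]

/-- The same bound in the form of `LongCC`. -/
theorem glr_lowerS {A : ℝ} (hA : 0 ≤ A) {n s : ℕ} [NeZero n] (hn : 2 ≤ n) (hs : 0 < s) {β : ℝ}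
    (hβ : 0 < β) :
    ∃ N0 : ℕ, ∀ N : ℕ, N0 ≤ N → ∀ m : ℕ, m + 1 ≤ N →
      ∀ σ : ℝ, σ = s * (((m : ℝ) + 1) * (β / (2 * N))) → 1 ≤ σ → ∀ J : ℕ, cJ A * σ + s ≤ J →
      ∀ (x : Tor n) (z : Fin 3 → ℤ) (i0 j0 : Fin s), (∀ i, |(z i : ℝ)| ≤ A * √σ) →
      1 / (4 * (s : ℝ)) * (cK A / √σ) ^ 3 ≤ ∑ i ∈ range J,
        qq (glr (interE n s) (β / (2 * N)) m) (q0 (x, i0)) (x + fun i => (z i : ZMod n), j0) i := by
  obtain ⟨N0, h⟩ := gates_lowerS hA hn hs hβ
  refine ⟨N0, fun N hN m hm σ hσ hσ1 J hJ x z i0 j0 hz => ?_⟩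
  rw [glr_eq]
  exact h N hN (interE n s).reverse (List.reverse_perm _) (m + 1) hm σ
    (by rw [hσ]; push_cast; ring) hσ1 J hJ x z i0 j0 hz

end

end Vale.Agent.P361.LRO.S3S.Ker
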