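import Vale.Agent.P361.LRO.GenS.PiFacts
import Vale.Agent.P361.LRO.GenS.ExpProj
import Vale.Agent.P361.LRO.S3.LT0Bridge

/-!
P361, stage 3, all spins: the partition function `Zt s Λ β τ` of the free region `Λ ⊂ ℤ³` with spin
`s / 2` as a symmetrised trace over `s` copies of spin `1 / 2`, and as the limit `M → ∞` of the traces
with `M`-fold coupling inside the sites.
-/

namespace Vale.Agent.P361.LRO.S3S

open Finset Matrix Filter Topology
open Vale.Agent.P361.LRO Vale.Agent.P361.LRO.GenS Vale.Agent.P361.LRO.S3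

noncomputable section

variable {s : ℕ} {Λ : Finset Site}

theorem ham_interL_zero (β τ : ℝ) : cM (-(β / 2) • ham (interL (nnL Λ) s) 0 -
      τ • TwJ.Dn (univ : Finset (Λ × Fin s))) =
    -((β : ℂ) • ((1 / 2 : ℂ) • ∑ x : Λ, ∑ y : Λ,
        if IsNN x.1 y.1 then (((s : ℂ) / 2) ^ 2) • (1 : Matrix _ _ ℂ) -
          ∑ a : Fin 3, tot s a x * tot s a y else 0) +
      (τ : ℂ) • ∑ x : Λ, (((s : ℂ) / 2) • (1 : Matrix _ _ ℂ) - tot s 2 x)) := by
  have h1 : cM (ham (interL (nnL Λ) s) 0) = ∑ x : Λ, ∑ y : Λ,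
      if IsNN x.1 y.1 then (((s : ℂ) / 2) ^ 2) • (1 : Matrix (Λ × Fin s → Fin 2)
        (Λ × Fin s → Fin 2) ℂ) - ∑ a : Fin 3, tot s a x * tot s a y else 0 := by
    have e1 : ham (interL (nnL Λ) s) (0 : Λ × Fin s → ℝ) =
        ∑ e ∈ (univ : Finset (Λ × Λ)).filter (fun e => IsNN e.1.1 e.2.1),
          ∑ ab : Fin s × Fin s, hM (e.1, ab.1) (e.2, ab.2) := by
      rw [ham, sum_interL, nnL, Finset.sum_map_toList]
      simp
    rw [e1, cM_sum, Finset.sum_filter, Fintype.sum_prod_type]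
    refine Finset.sum_congr rfl fun x _ => Finset.sum_congr rfl fun y _ => ?_
    by_cases h : IsNN x.1 y.1
    · rw [if_pos h, if_pos h]
      have hxy : x ≠ y := H.isNN_ne h
      have h3 : ((s : ℂ) / 2) ^ 2 = (s : ℂ) ^ 2 * (1 / 4) := by ring
      rw [tot_mul_tot x y hxy, h3, sub_sub_cancel]
    · rw [if_neg h, if_neg h]
  have h2 : cM (TwJ.Dn (univ : Finset (Λ × Fin s))) =
      ∑ x : Λ, (((s : ℂ) / 2) • (1 : Matrix (Λ × Fin s → Fin 2)
        (Λ × Fin s → Fin 2) ℂ) - tot s 2 x) := by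
    rw [TwJ.Dn, cM_sum, Fintype.sum_prod_type]
    refine Finset.sum_congr rfl fun x _ => ?_
    rw [tot_z, cM_sum]
    have : ∀ i : Fin s, cM ((1 / 2 : ℝ) • (1 - szM ((x, i) : Λ × Fin s))) =
        ((1 / 2 : ℝ) : ℂ) • (1 : Matrix (Λ × Fin s → Fin 2) (Λ × Fin s → Fin 2) ℂ) -
          cM ((1 / 2 : ℝ) • szM ((x, i) : Λ × Fin s)) := by
      intro i
      rw [cM_smul, cM_sub, cM_one, cM_smul, smul_sub]
    rw [Finset.sum_congr rfl fun i _ => this i, Finset.sum_sub_distrib, Finset.sum_const,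
      Finset.card_univ, Fintype.card_fin, ← Nat.cast_smul_eq_nsmul ℂ, smul_smul]
    congr 2
    push_cast
    ring
  rw [cM_sub, cM_smul, cM_smul, h1, h2]
  push_cast
  module

theorem siteOp_eq_V (x : Λ) (A : Matrix (Fin (s + 1)) (Fin (s + 1)) ℂ) :
    (siteOp x A : Matrix (Λ → Fin (s + 1)) (Λ → Fin (s + 1)) ℂ) = siteOpV x A := rfl

theorem spin_eq_model (a : Fin 3) : Vale.Agent.P361.spin s a = Model.spin s a := rfl

theorem tot_mul_siteOp (a : Fin 3) (x : Λ) :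
    tot s a x * WV s Λ = WV s Λ * siteOp x (Vale.Agent.P361.spin s a) := by
  rw [siteOp_eq_V, spin_eq_model, tot_mul]

theorem oZ_eq_spin (x : Λ) : H.oZ s x = siteOp x (Vale.Agent.P361.spin s 2) := rfl

theorem oZ_mul (x : Λ) : tot s 2 x * WV s Λ = WV s Λ * H.oZ s x := by
  rw [oZ_eq_spin, tot_mul_siteOp]

theorem dot_mul (x y : Λ) : (∑ a : Fin 3, tot s a x * tot s a y) * WV s Λ =
    WV s Λ * H.dotOp s x y := by
  rw [H.dotOp, Matrix.sum_mul, Matrix.mul_sum]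
  refine Finset.sum_congr rfl fun a _ => ?_
  rw [Matrix.mul_assoc, tot_mul_siteOp, ← Matrix.mul_assoc, tot_mul_siteOp, Matrix.mul_assoc]

theorem hT_mul : ((1 / 2 : ℂ) • ∑ x : Λ, ∑ y : Λ,
      if IsNN x.1 y.1 then (((s : ℂ) / 2) ^ 2) • (1 : Matrix _ _ ℂ) -
        ∑ a : Fin 3, tot s a x * tot s a y else 0) * WV s Λ = WV s Λ * B.hT s Λ := by
  rw [B.hT, Matrix.smul_mul, Matrix.mul_smul, Matrix.sum_mul, Matrix.mul_sum]
  congr 1
  refine Finset.sum_congr rfl fun x _ => ?_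
  rw [Matrix.sum_mul, Matrix.mul_sum]
  refine Finset.sum_congr rfl fun y _ => ?_
  split_ifs
  · rw [Matrix.sub_mul, Matrix.mul_sub, Matrix.smul_mul, Matrix.mul_smul, Matrix.one_mul,
      Matrix.mul_one, dot_mul]
  · simp

theorem numOp_mul : (∑ x : Λ, (((s : ℂ) / 2) • (1 : Matrix _ _ ℂ) - tot s 2 x)) * WV s Λ =
    WV s Λ * B.numOp s Λ := by
  rw [B.numOp, Matrix.sum_mul, Matrix.mul_sum]
  refine Finset.sum_congr rfl fun x _ => ?_
  rw [Matrix.sub_mul, Matrix.mul_sub, Matrix.smul_mul, Matrix.mul_smul, Matrix.one_mul,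
    Matrix.mul_one, oZ_mul]

theorem ham_mul_WV (β τ : ℝ) : cM (-(β / 2) • ham (interL (nnL Λ) s) 0 -
      τ • TwJ.Dn (univ : Finset (Λ × Fin s))) * WV s Λ =
    WV s Λ * -((β : ℂ) • B.hT s Λ + (τ : ℂ) • B.numOp s Λ) := by
  rw [ham_interL_zero, Matrix.neg_mul, Matrix.mul_neg, Matrix.add_mul, Matrix.mul_add,
    Matrix.smul_mul (β : ℂ), Matrix.smul_mul (τ : ℂ), hT_mul, numOp_mul,
    Matrix.mul_smul, Matrix.mul_smul]

/-- **Spin `s / 2` on a free region as a symmetrised trace over the copies.** -/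
theorem Zt_spin (s : ℕ) [NeZero s] (Λ : Finset Site) (β τ : ℝ) :
    B.Zt s Λ β τ = trace (symProd Λ s * NormedSpace.exp (-(β / 2) • ham (interL (nnL Λ) s) 0 -
      τ • TwJ.Dn (univ : Finset (Λ × Fin s)))) := by
  have h1 := trace_exp_bridge (ham_mul_WV (Λ := Λ) (s := s) β τ) (WV_conj_mul s)
  rw [WV_mul_conj, symV_eq, exp_cM, ← cM_mul, trace_cM] at h1
  rw [B.Zt, h1, Complex.ofReal_re, Matrix.trace_mul_comm]

end

end Vale.Agent.P361.LRO.S3S
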