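import Vale.Agent.P361.LRO.S3S.LT0SLim
import Vale.Agent.P361.LRO.S3S.ZtSpin

/-!
P361, stage 3, all spins: (LT0S) and the limit `M → ∞` of the block partition functions.
-/

namespace Vale.Agent.P361.LRO.S3S

open Matrix Finset Filter Topology
open Vale.Agent.P361.LRO.TwJ Vale.Agent.P361.LRO.GenS Vale.Agent.P361.LRO.S3

noncomputable section

theorem lt0S (s : ℕ) (hs : 1 ≤ s) (Λ : Finset Site) {β : ℝ} (hβ : 0 < β) {G : Polynomial ℝ}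
    {τ1 τ2 c1 c2 : ℝ} (h1 : 0 < τ1) (h2 : 0 < τ2) (hc1 : 0 ≤ c1) (hc2 : 0 ≤ c2)
    (hG : ∀ r : ℕ, 2 * r ≤ s * Λ.card →
      Real.exp (G.eval ((r : ℝ) * ((s : ℝ) * Λ.card - r + 1))) ≤
        c1 * Real.exp (-(τ1 * r)) + c2 * Real.exp (-(τ2 * r)))
    {ε : ℝ} (hε : 0 < ε) :
    ∃ M0 : ℕ, ∀ M, M0 ≤ M →
      Real.log (trace (NormedSpace.exp (-(β / 2) • ham (Lm (nnL Λ) s (2 * M)) 0 +
        Polynomial.aeval (Om (univ : Finset (Λ × Fin s))) G))) ≤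
      Real.log (((s : ℝ) * Λ.card + 1) * (c1 * B.Zt s Λ β τ1 + c2 * B.Zt s Λ β τ2)) + ε := by
  haveI : NeZero s := ⟨by omega⟩
  exact lt0S_of hs Λ hβ (fun τ => Zt_spin s Λ β τ) h1 h2 hc1 hc2 hG hε

end

end Vale.Agent.P361.LRO.S3S
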