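import Vale.Agent.P361.LRO.S3.LT1
import Vale.Agent.P361.LRO.S3.LT0Bridge
import Vale.Agent.P361.LRO.S3S.Iface
import Vale.Agent.P361.LRO.GenS.Trans
import Vale.Agent.P361.LRO.GenS.LimS

/-!
P361, stage 3, all spins, block (T), leaf (T1_S): Peierls–Bogoliubov on the torus with decoupled
blocks for the graph `edgesS n s M`, uniformly in `M`.
-/

namespace Vale.Agent.P361.LRO.S3S

open Matrix Finset Filter Topology
open Vale.Agent.P361.LRO.GenS
open Vale.Agent.P361.LRO.S3 (CM)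
open Vale.Agent.P361.LRO.Energy (Cfg ex cpx)
open Vale.Agent.P361.LRO.Loc3
open scoped ComplexOrder

noncomputable section

namespace LT1S

open S3.LT1 (bl tl tl_inj tl_adj psd_sub nlt_sum aeval_emb)

/-! ### The abstract inequality -/

theorem pb_blocks {U V κ : Type} [Fintype U] [DecidableEq U] [Fintype V] [DecidableEq V]
    [Fintype κ] (L : List (V × V)) (β : ℝ) (h : V → ℝ) (e : κ → U → V)
    (he : ∀ y y' u u', e y u = e y' u' → y = y' ∧ u = u')
    {HB w0 : Matrix (Cfg U) (Cfg U) ℂ} (hH : HB.IsHermitian) (hw : w0.IsHermitian) (K : ℝ)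
    (hdec : (((K : ℂ) • (1 : Matrix (Cfg V) (Cfg V) ℂ) - (β : ℂ) • ∑ y, emb (e y) HB) -
      cpx (-β • ham L h)).PosSemidef) :
    ∑ y, ex (cpx (-β • ham L h)) (emb (e y) w0) ≤
      Fintype.card κ * (Real.log (trace (NormedSpace.exp (-((β : ℂ) • HB) + w0))).re -
        Fintype.card U * Real.log 2) + Fintype.card V * Real.log 2 + K -
        Real.log (trace (NormedSpace.exp (-β • ham L h))) := by
  set A : Matrix (Cfg U) (Cfg U) ℂ := -((β : ℂ) • HB) + w0 with hA
  have hAh : A.IsHermitian := (Energy.smul_real_isHermitian hH β).neg.add hw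
  set X := cpx (-β • ham L h) with hX
  have hXh : X.IsHermitian := by
    rw [hX, Energy.cpx_ham]
    exact Energy.gibX_isHermitian _ _ _ _ _
  set Y : Matrix (Cfg V) (Cfg V) ℂ := ∑ y, emb (e y) w0 with hY
  have hYh : Y.IsHermitian := Energy.sum_isHermitian _ fun y _ => emb_isHermitian _ hw
  have hPB := Vale.Agent.P361.peierls_bogoliubov hXh hYh
  have h1 : (trace (NormedSpace.exp X * Y)).re / (trace (NormedSpace.exp X)).re =
      ∑ y, ex X (emb (e y) w0) := by
    have h2 : ex X Y = ∑ y, ex X (emb (e y) w0) := Energy.ex_sum X Finset.univ _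
    rw [← h2]
    rfl
  set D : Matrix (Cfg V) (Cfg V) ℂ := (K : ℂ) • (1 : Matrix (Cfg V) (Cfg V) ℂ) -
    (β : ℂ) • ∑ y, emb (e y) HB with hD
  have hdec' : D + Y = ∑ y, emb (e y) A + (K : ℂ) • (1 : Matrix (Cfg V) (Cfg V) ℂ) := by
    rw [hD, hY, hA]
    simp only [emb_add, emb_neg, emb_smul, Finset.sum_add_distrib, Finset.sum_neg_distrib,
      ← Finset.smul_sum]
    abel
  have hSh : (∑ y, emb (e y) A).IsHermitian :=
    Energy.sum_isHermitian _ fun y _ => emb_isHermitian _ hAh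
  have hdh : (D + Y).IsHermitian := by
    rw [hdec']
    exact hSh.add (Energy.smul_real_isHermitian Matrix.isHermitian_one _)
  have hup : (trace (NormedSpace.exp (X + Y))).re ≤ (trace (NormedSpace.exp (D + Y))).re := by
    refine trace_exp_mono (hXh.add hYh) hdh ?_
    have e1 : D + Y - (X + Y) = D - X := by abel
    rw [e1]
    exact hdec
  have h6 := Real.log_le_log (trace_exp_pos (hXh.add hYh)) hup
  have h7 : Real.log (trace (NormedSpace.exp (D + Y))).re =
      K + (Fintype.card κ * (Real.log (trace (NormedSpace.exp A)).re -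
        Fintype.card U * Real.log 2) + Fintype.card V * Real.log 2) := by
    rw [hdec', trace_exp_add_smul_one, Real.log_mul (Real.exp_pos _).ne' (trace_exp_pos hSh).ne',
      Real.log_exp]
    congr 1
    have h8 := nlt_sum (Finset.univ : Finset κ) e
      (fun y _ a b hab => (he _ _ _ _ hab).2)
      (fun y _ y' _ hne u u' h' => hne (he _ _ _ _ h').1) hAh
    unfold nlt at h8
    rw [Finset.card_univ] at h8
    linarith
  have h9 : Real.log (trace (NormedSpace.exp X)).re =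
      Real.log (trace (NormedSpace.exp (-β • ham L h))) := by
    rw [hX, ← Energy.cpx_exp, Energy.cpx_trace]
  rw [h1] at hPB
  linarith

theorem cpx_CM_image {U V : Type} [Fintype U] [DecidableEq U] [Fintype V] [DecidableEq V]
    {e : U → V} (he : Function.Injective e) :
    cpx (CM (univ.image e)) = emb e (cpx (CM (univ : Finset U))) := by
  rw [CM, CM, Finset.sum_image fun a _ b _ h => he h, Energy.cpx_sum, Energy.cpx_sum, emb_sum]
  refine Finset.sum_congr rfl fun u _ => ?_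
  rw [Finset.sum_image fun a _ b _ h => he h, Energy.cpx_sum, Energy.cpx_sum, emb_sum]
  refine Finset.sum_congr rfl fun v _ => ?_
  rw [Energy.cpx_hM, Energy.cpx_hM, emb_hM he]

theorem cpx_aeval_CM_image {U V : Type} [Fintype U] [DecidableEq U] [Fintype V] [DecidableEq V]
    {e : U → V} (he : Function.Injective e) (G : Polynomial ℝ) :
    cpx (Polynomial.aeval (CM (univ.image e)) G) =
      emb e (cpx (Polynomial.aeval (CM (univ : Finset U)) G)) := by
  rw [S3.LT1.cpx_aeval, cpx_CM_image he, aeval_emb he, ← S3.LT1.cpx_aeval]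

/-! ### Blocks of copies -/

/-- The block of copies over `x + [0,R)³`. -/
def blS (n R s : ℕ) (x : Tor n) (z : B.cube R × Fin s) : Tor n × Fin s := (bl n R x z.1, z.2)

theorem blS_injective {n R s : ℕ} (hR : R ≤ n) (x : Tor n) : Function.Injective (blS n R s x) := by
  rintro ⟨u, i⟩ ⟨v, j⟩ h
  obtain ⟨h1, h2⟩ := Prod.mk.inj h
  exact Prod.ext (S3.LT1.bl_injective hR x h1) h2

theorem cubeS_eq (n R s : ℕ) [NeZero n] (x : Tor n) :
    cubeS n s x R = univ.image (blS n R s x) := by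
  ext ⟨y, i⟩
  rw [cubeS, Finset.mem_product, S3.LT1.cube_eq_bl, Finset.mem_image, Finset.mem_image]
  constructor
  · rintro ⟨⟨u, _, hu⟩, _⟩
    exact ⟨(u, i), Finset.mem_univ _, Prod.ext hu rfl⟩
  · rintro ⟨⟨u, j⟩, _, hu⟩
    obtain ⟨h1, h2⟩ := Prod.mk.inj hu
    exact ⟨⟨u, Finset.mem_univ _, h1⟩, Finset.mem_univ _⟩

/-- The tiling. -/
def tlS (n R m s : ℕ) (y : Fin 3 → Fin m) : B.cube R × Fin s → Tor n × Fin s :=
  blS n R s fun i => (((R * (y i : ℕ) : ℕ) : ℤ) : ZMod n)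

theorem tlS_apply (n R m s : ℕ) (y : Fin 3 → Fin m) (z : B.cube R × Fin s) :
    tlS n R m s y z = (tl n R m y z.1, z.2) := rfl

theorem tlS_inj {n R m s : ℕ} (hm : R * m ≤ n) (y y' : Fin 3 → Fin m) (u u' : B.cube R × Fin s)
    (h : tlS n R m s y u = tlS n R m s y' u') : y = y' ∧ u = u' := by
  obtain ⟨h1, h2⟩ := Prod.mk.inj h
  obtain ⟨h3, h4⟩ := tl_inj hm h1
  exact ⟨h3, Prod.ext h4 h2⟩

/-! ### Translation invariance -/

theorem CM_sub {V : Type} [Fintype V] [DecidableEq V] (e : V ≃ V) (b : Finset V) :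
    (CM b).submatrix (Trans.EE' e) (Trans.EE' e) = CM (b.image e) := by
  unfold CM
  rw [Finset.sum_image fun a _ b _ h => e.injective h, Bs.subm_sum]
  refine Finset.sum_congr rfl fun x _ => ?_
  rw [Finset.sum_image fun a _ b _ h => e.injective h, Bs.subm_sum]
  refine Finset.sum_congr rfl fun y _ => ?_
  exact Trans.hM_sub e x y

theorem gib_sub {V : Type} [Fintype V] [DecidableEq V] (e : V ≃ V) (L : List (V × V)) (β : ℝ)
    (h : V → ℝ) (hh : ∀ x, h (e x) = h x)
    (hL : (L.map fun z => LRO.hM (e z.1) (e z.2)).sum = (L.map fun z => LRO.hM z.1 z.2).sum)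
    (A : Matrix (V → Fin 2) (V → Fin 2) ℝ) :
    gib L β h (A.submatrix (Trans.EE' e) (Trans.EE' e)) = gib L β h A := by
  have hH := Trans.ham_sub e L h hL
  have hfun : (fun x => h (e x)) = h := funext hh
  rw [hfun] at hH
  have hE : (NormedSpace.exp (-β • ham L h)).submatrix (Trans.EE' e) (Trans.EE' e)
      = NormedSpace.exp (-β • ham L h) := by
    rw [← Trans.exp_submatrix, Matrix.submatrix_smul, Pi.smul_apply, Pi.smul_apply, hH]
  rw [gib, gib]
  congr 1
  conv_lhs => rw [← hE]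
  rw [Matrix.submatrix_mul_equiv, Trans.trace_submatrix]

theorem gib_CM_translate {n s : ℕ} [NeZero n] (M : ℕ) (β h : ℝ) (R : ℕ) (x v : Tor n)
    (G : Polynomial ℝ) :
    gib (edgesS n s M) β (hS fun _ => h) (Polynomial.aeval (CM (cubeS n s (x + v) R)) G) =
      gib (edgesS n s M) β (hS fun _ => h) (Polynomial.aeval (CM (cubeS n s x R)) G) := by
  have himg : (cubeS n s x R).image (TransS.gS v (Equiv.refl (Fin s))) = cubeS n s (x + v) R := by
    rw [cubeS_eq, cubeS_eq, Finset.image_image]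
    congr 1
    funext z
    refine Prod.ext ?_ rfl
    show bl n R x z.1 + v = bl n R (x + v) z.1
    rw [bl, bl, add_right_comm]
  rw [← himg, ← CM_sub, ← S3.LT1.aeval_submatrix]
  refine gib_sub _ _ _ _ (fun z => rfl) ?_ _
  rw [TransS.edgesS_map_sum M (fun u w : Tor n × Fin s =>
      LRO.hM (TransS.gS v (Equiv.refl (Fin s)) u) (TransS.gS v (Equiv.refl (Fin s)) w)),
    TransS.edgesS_map_sum M (fun u w : Tor n × Fin s => LRO.hM u w),
    TransS.interE_inv v (Equiv.refl _) (fun u w => LRO.hM u w),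
    TransS.intraE_inv v (Equiv.refl _) (fun u w => LRO.hM u w) fun u w => TransS.hM_comm u w]

/-! ### The comparison -/

section Cmp

variable {n R m s : ℕ} [NeZero n]

/-- All bonds between the copies of two sites. -/
def gI (s : ℕ) (p : Tor n × Tor n) : Matrix (Cfg (Tor n × Fin s)) (Cfg (Tor n × Fin s)) ℂ :=
  ∑ i : Fin s, ∑ j : Fin s, Energy.hM (p.1, i) (p.2, j)

/-- All bonds between the copies of a site. -/
def gA (s : ℕ) (a : Tor n) : Matrix (Cfg (Tor n × Fin s)) (Cfg (Tor n × Fin s)) ℂ :=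
  ∑ q ∈ (univ : Finset (Fin s × Fin s)).filter (fun q => q.1 < q.2), Energy.hM (a, q.1) (a, q.2)

theorem gI_psd (p : Tor n × Tor n) : (gI s p).PosSemidef :=
  Matrix.posSemidef_sum _ fun _ _ => Matrix.posSemidef_sum _ fun _ _ => Energy.hM_posSemidef _ _

theorem gA_psd (a : Tor n) : (gA s a).PosSemidef :=
  Matrix.posSemidef_sum _ fun _ _ => Energy.hM_posSemidef _ _

theorem inter_tor (hn : 3 ≤ n) :
    (∑ z : Tor n × Fin 3, gI s (z.1, z.1 + Pi.single z.2 1)) =
      (1 / 2 : ℂ) • ∑ p ∈ (Finset.univ : Finset (Tor n × Tor n)).filter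
        (fun p => torusAdj n p.1 p.2), gI s p := by
  have h1 := sum_torusAdj hn (fun a b => gI (n := n) s (a, b))
  have h2 : (∑ z : (Fin 3 → ZMod n) × Fin 3, gI (n := n) s (z.1 + Pi.single z.2 1, z.1)) =
      ∑ z : (Fin 3 → ZMod n) × Fin 3, gI (n := n) s (z.1, z.1 + Pi.single z.2 1) := by
    refine Finset.sum_congr rfl fun z _ => ?_
    unfold gI
    rw [Finset.sum_comm]
    exact Finset.sum_congr rfl fun i _ => Finset.sum_congr rfl fun j _ => S3.LT1.hM_comm _ _
  rw [h2] at h1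
  have h3 : (∑ p : Tor n × Tor n, if torusAdj n p.1 p.2 then gI s p else 0) =
      ∑ x : Tor n, ∑ y : Tor n, if torusAdj n x y then gI s (x, y) else 0 :=
    Fintype.sum_prod_type _
  rw [Finset.sum_filter, h3, h1, ← two_smul ℂ, smul_smul]
  norm_num

/-- The Hamiltonian of the block of copies. -/
def HB (R s M : ℕ) : Matrix (Cfg (B.cube R × Fin s)) (Cfg (B.cube R × Fin s)) ℂ :=
  cpx ((1 / 2 : ℝ) • ham (Lm (S3.nnL (B.cube R)) s (2 * M)) 0)

theorem HB_eq (R s M : ℕ) : HB R s M =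
    (1 / 2 : ℂ) • (∑ e ∈ (univ : Finset (B.cube R × B.cube R)).filter
      (fun e => IsNN e.1.1 e.2.1), ∑ i : Fin s, ∑ j : Fin s,
        (Energy.hM (e.1, i) (e.2, j) : Matrix (Cfg (B.cube R × Fin s)) (Cfg (B.cube R × Fin s)) ℂ)) +
      (M : ℂ) • ∑ u : B.cube R, ∑ q ∈ (univ : Finset (Fin s × Fin s)).filter (fun q => q.1 < q.2),
        Energy.hM (u, q.1) (u, q.2) := by
  have h1 : ham (interL (S3.nnL (B.cube R)) s) (0 : B.cube R × Fin s → ℝ) =
      ∑ e ∈ (univ : Finset (B.cube R × B.cube R)).filter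
      (fun e => IsNN e.1.1 e.2.1), ∑ i : Fin s, ∑ j : Fin s, LRO.hM (e.1, i) (e.2, j) := by
    unfold ham interL
    rw [list_flatMap_sum]
    have e1 : (fun a : B.cube R × B.cube R => ((((univ : Finset (Fin s × Fin s)).toList).map fun ij =>
        (((a.1, ij.1), (a.2, ij.2)) : (B.cube R × Fin s) × (B.cube R × Fin s))).map
          fun e => LRO.hM e.1 e.2).sum) =
        fun a => ∑ i : Fin s, ∑ j : Fin s, LRO.hM (a.1, i) (a.2, j) := by
      funext a
      rw [List.map_map, Finset.sum_map_toList, Fintype.sum_prod_type]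
      rfl
    rw [e1, S3.nnL, Finset.sum_map_toList]
    simp
  have h2 : intraM (B.cube R) s = ∑ u : B.cube R,
      ∑ q ∈ (univ : Finset (Fin s × Fin s)).filter (fun q => q.1 < q.2),
        LRO.hM (u, q.1) (u, q.2) := by
    unfold intraM intraL
    rw [List.map_map, Finset.sum_map_toList, Finset.sum_filter, Fintype.sum_prod_type]
    refine Finset.sum_congr rfl fun u _ => ?_
    rw [Finset.sum_filter]
    rfl
  rw [HB, ham_Lm, h1, h2, smul_add, smul_smul, Energy.cpx_add, Energy.cpx_smul, Energy.cpx_smul]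
  congr 1
  · simp only [Energy.cpx_sum, Energy.cpx_hM]
    norm_num
  · simp only [Energy.cpx_sum, Energy.cpx_hM]
    congr 1
    push_cast
    ring

theorem HB_isHermitian (R s M : ℕ) : (HB R s M).IsHermitian := by
  have h1 : ((1 / 2 : ℝ) • ham (Lm (S3.nnL (B.cube R)) s (2 * M))
      (0 : B.cube R × Fin s → ℝ)).IsSymm := by
    unfold Matrix.IsSymm
    rw [Matrix.transpose_smul, ham_symm]
  exact cM_isHermitian h1

theorem emb_HB (hm : R * m ≤ n) (M : ℕ) (y : Fin 3 → Fin m) : emb (tlS n R m s y) (HB R s M) =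
    (1 / 2 : ℂ) • (∑ e ∈ (univ : Finset (B.cube R × B.cube R)).filter
      (fun e => IsNN e.1.1 e.2.1), gI s (tl n R m y e.1, tl n R m y e.2)) +
      (M : ℂ) • ∑ u : B.cube R, gA s (tl n R m y u) := by
  have hinj : Function.Injective (tlS n R m s y) := fun a b h => (tlS_inj hm _ _ _ _ h).2
  rw [HB_eq, emb_add, emb_smul, emb_smul, emb_sum, emb_sum]
  simp only [emb_sum, emb_hM hinj]
  rfl

theorem bondsS_le (hn : 3 ≤ n) (hm : R * m ≤ n) (M : ℕ) :
    ((∑ z : Tor n × Fin 3, gI s (z.1, z.1 + Pi.single z.2 1) + (M : ℂ) • ∑ a : Tor n, gA s a) -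
      ∑ y : Fin 3 → Fin m, emb (tlS n R m s y) (HB R s M)).PosSemidef := by
  have e2 : (∑ y : Fin 3 → Fin m, emb (tlS n R m s y) (HB R s M)) =
      (1 / 2 : ℂ) • (∑ q ∈ (Finset.univ : Finset ((Fin 3 → Fin m) × (B.cube R × B.cube R))).filter
        (fun q => IsNN q.2.1.1 q.2.2.1), gI s (tl n R m q.1 q.2.1, tl n R m q.1 q.2.2)) +
      (M : ℂ) • ∑ q : (Fin 3 → Fin m) × B.cube R, gA s (tl n R m q.1 q.2) := by
    simp only [emb_HB hm]
    rw [Finset.sum_add_distrib, ← Finset.smul_sum, ← Finset.smul_sum]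
    congr 2
    · rw [Finset.sum_filter, Fintype.sum_prod_type]
      refine Finset.sum_congr rfl fun y _ => ?_
      rw [Finset.sum_filter]
    · rw [Fintype.sum_prod_type]
  have e3 : (∑ z : Tor n × Fin 3, gI s (z.1, z.1 + Pi.single z.2 1) + (M : ℂ) • ∑ a : Tor n, gA s a) -
      ∑ y : Fin 3 → Fin m, emb (tlS n R m s y) (HB R s M) =
      (1 / 2 : ℂ) • (∑ p ∈ (Finset.univ : Finset (Tor n × Tor n)).filter
        (fun p => torusAdj n p.1 p.2), gI s p -
        ∑ q ∈ (Finset.univ : Finset ((Fin 3 → Fin m) × (B.cube R × B.cube R))).filter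
        (fun q => IsNN q.2.1.1 q.2.2.1), gI s (tl n R m q.1 q.2.1, tl n R m q.1 q.2.2)) +
      ((M : ℝ) : ℂ) • (∑ a : Tor n, gA s a -
        ∑ q : (Fin 3 → Fin m) × B.cube R, gA s (tl n R m q.1 q.2)) := by
    rw [e2, inter_tor hn, smul_sub, smul_sub]
    push_cast
    abel
  rw [e3]
  refine Matrix.PosSemidef.add ?_ ?_
  · refine Matrix.PosSemidef.smul ?_ (by norm_num [Complex.le_def])
    refine psd_sub (f := fun q : (Fin 3 → Fin m) × (B.cube R × B.cube R) =>
      (tl n R m q.1 q.2.1, tl n R m q.1 q.2.2)) (g := fun p : Tor n × Tor n => gI s p)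
      ?_ ?_ (fun p => gI_psd p)
    · intro q _ q' _ h
      obtain ⟨h1, h2⟩ := Prod.mk.inj h
      obtain ⟨a1, a2⟩ := tl_inj hm h1
      obtain ⟨b1, b2⟩ := tl_inj hm h2
      exact Prod.ext a1 (Prod.ext a2 b2)
    · intro q hq
      rw [Finset.mem_filter] at hq ⊢
      exact ⟨Finset.mem_univ _, tl_adj q.1 hq.2⟩
  · refine Energy.smul_real_posSemidef ?_ (Nat.cast_nonneg M)
    refine psd_sub (s := (Finset.univ : Finset ((Fin 3 → Fin m) × B.cube R)))
      (f := fun q : (Fin 3 → Fin m) × B.cube R => tl n R m q.1 q.2)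
      (g := fun a : Tor n => gA s a) ?_ (fun q _ => Finset.mem_univ _) (fun a => gA_psd a)
    intro q _ q' _ h
    obtain ⟨a1, a2⟩ := tl_inj hm h
    exact Prod.ext a1 a2

/-- The exponent of the Gibbs state. -/
theorem cpx_expoS (M : ℕ) (β h : ℝ) :
    cpx (-β • ham (edgesS n s M) (hS fun _ => h)) =
      -((β : ℂ) • (∑ z : Tor n × Fin 3, gI s (z.1, z.1 + Pi.single z.2 1) +
        (M : ℂ) • ∑ a : Tor n, gA s a)) +
        ∑ x : Tor n × Fin s, ((β * h : ℝ) : ℂ) • Energy.szM x := by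
  have h1 : ham (edgesS n s M) (hS fun _ : Tor n => h) =
      (∑ z : Tor n × Fin 3, ∑ i : Fin s, ∑ j : Fin s, LRO.hM (z.1, i) (z.1 + Pi.single z.2 1, j) +
        (M : ℝ) • ∑ a : Tor n, ∑ q ∈ (univ : Finset (Fin s × Fin s)).filter (fun q => q.1 < q.2),
          LRO.hM (a, q.1) (a, q.2)) - ∑ x : Tor n × Fin s, (h / 2) • LRO.szM x := by
    unfold ham
    rw [TransS.edgesS_map_sum M (fun u w : Tor n × Fin s => LRO.hM u w),
      TransS.interE_map_sum (fun u w : Tor n × Fin s => LRO.hM u w),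
      TransS.intraE_map_sum (fun u w : Tor n × Fin s => LRO.hM u w), Finset.sum_filter,
      Fintype.sum_prod_type (fun z : Tor n × (Fin s × Fin s) => _), ← Nat.cast_smul_eq_nsmul ℝ]
    simp only [Finset.sum_filter, hS]
  rw [h1, smul_sub, smul_add, Energy.cpx_sub, Energy.cpx_add]
  simp only [Energy.cpx_smul, Energy.cpx_sum, Energy.cpx_szM, Energy.cpx_hM, Finset.smul_sum,
    smul_smul]
  rw [sub_eq_add_neg, ← Finset.sum_neg_distrib]
  congr 1
  · simp only [gI, gA, smul_add, smul_smul, Finset.smul_sum, neg_add, ← Finset.sum_neg_distrib,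
      ← neg_smul]
    congr 1
    · refine Finset.sum_congr rfl fun z _ => Finset.sum_congr rfl fun i _ =>
        Finset.sum_congr rfl fun j _ => ?_
      push_cast
      rfl
    · refine Finset.sum_congr rfl fun z _ => Finset.sum_congr rfl fun i _ => ?_
      congr 1
      push_cast
      ring
  · refine Finset.sum_congr rfl fun x _ => ?_
    rw [← neg_smul]
    congr 1
    push_cast
    ring

theorem decS (hn : 3 ≤ n) (hm : R * m ≤ n) (M : ℕ) {β h : ℝ} (hβ : 0 ≤ β) (hh : 0 ≤ h) :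
    ((((β * h * s / 2 * (n : ℝ) ^ 3 : ℝ) : ℂ) •
      (1 : Matrix (Cfg (Tor n × Fin s)) (Cfg (Tor n × Fin s)) ℂ) -
      (β : ℂ) • ∑ y : Fin 3 → Fin m, emb (tlS n R m s y) (HB R s M)) -
      cpx (-β • ham (edgesS n s M) (hS fun _ => h))).PosSemidef := by
  have e1 : (((β * h * s / 2 * (n : ℝ) ^ 3 : ℝ) : ℂ) •
      (1 : Matrix (Cfg (Tor n × Fin s)) (Cfg (Tor n × Fin s)) ℂ) -
      (β : ℂ) • ∑ y : Fin 3 → Fin m, emb (tlS n R m s y) (HB R s M)) -
      cpx (-β • ham (edgesS n s M) (hS fun _ => h)) =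
      (β : ℂ) • ((∑ z : Tor n × Fin 3, gI s (z.1, z.1 + Pi.single z.2 1) +
        (M : ℂ) • ∑ a : Tor n, gA s a) -
        ∑ y : Fin 3 → Fin m, emb (tlS n R m s y) (HB R s M)) +
      ∑ x : Tor n × Fin s, ((β * h : ℝ) : ℂ) •
        ((1 / 2 : ℂ) • (1 : Matrix (Cfg (Tor n × Fin s)) (Cfg (Tor n × Fin s)) ℂ) -
          Energy.szM x) := by
    rw [cpx_expoS]
    simp only [smul_sub, Finset.sum_sub_distrib, Finset.sum_const, Finset.card_univ,
      Fintype.card_prod, Fintype.card_fun, ZMod.card, Fintype.card_fin]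
    rw [← Nat.cast_smul_eq_nsmul ℂ, smul_smul, smul_smul]
    push_cast
    have e2 : (β : ℂ) * h * s / 2 * (n : ℂ) ^ 3 = (n : ℂ) ^ 3 * s * (β * h * (1 / 2)) := by ring
    rw [e2]
    simp only [← mul_assoc]
    abel
  rw [e1]
  refine (Energy.smul_real_posSemidef (bondsS_le hn hm M) hβ).add ?_
  exact Matrix.posSemidef_sum _ fun x _ =>
    Energy.smul_real_posSemidef (Energy.half_sub_szM_posSemidef x) (mul_nonneg hβ hh)

/-- The inequality in finite volume. -/
theorem fin_le (hn : 3 ≤ n) (hm : R * m ≤ n) (M : ℕ) {β h : ℝ} (hβ : 0 ≤ β)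
    (hh : 0 ≤ h) (x : Tor n) (G : Polynomial ℝ) :
    (m : ℝ) ^ 3 * gib (edgesS n s M) β (hS fun _ => h) (Polynomial.aeval (CM (cubeS n s x R)) G) ≤
      (m : ℝ) ^ 3 * (Real.log (trace (NormedSpace.exp (-(β / 2) •
        ham (Lm (S3.nnL (B.cube R)) s (2 * M)) 0 +
          Polynomial.aeval (CM (univ : Finset (B.cube R × Fin s))) G))) -
          s * (R : ℝ) ^ 3 * Real.log 2) + s * (n : ℝ) ^ 3 * Real.log 2 -
        (Real.log (trace (NormedSpace.exp (-β • ham (edgesS n s M) (hS fun _ => h)))) -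
          β * h * s / 2 * (n : ℝ) ^ 3) := by
  have hCMs : ∀ P : Polynomial ℝ,
      (cpx (Polynomial.aeval (CM (univ : Finset (B.cube R × Fin s))) P)).IsHermitian := by
    intro P
    rw [S3.LT1.cpx_aeval]
    refine S3.LT1.aeval_isHermitian ?_ P
    rw [CM, Energy.cpx_sum]
    refine Energy.sum_isHermitian _ fun x _ => ?_
    rw [Energy.cpx_sum]
    refine Energy.sum_isHermitian _ fun y _ => ?_
    rw [Energy.cpx_hM]
    exact Energy.hM_isHermitian x y
  have h1 := pb_blocks (edgesS n s M) β (hS fun _ : Tor n => h) (tlS n R m s)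
    (fun y y' u u' h' => tlS_inj hm y y' u u' h') (HB_isHermitian R s M) (hCMs G)
    (β * h * s / 2 * (n : ℝ) ^ 3) (decS hn hm M hβ hh)
  have h2 : ∀ y : Fin 3 → Fin m, ex (cpx (-β • ham (edgesS n s M) (hS fun _ : Tor n => h)))
      (emb (tlS n R m s y) (cpx (Polynomial.aeval (CM (univ : Finset (B.cube R × Fin s))) G))) =
      gib (edgesS n s M) β (hS fun _ => h) (Polynomial.aeval (CM (cubeS n s x R)) G) := by
    intro y
    have hinj : Function.Injective (tlS n R m s y) := fun a b h => (tlS_inj hm _ _ _ _ h).2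
    rw [← cpx_aeval_CM_image hinj, ← Energy.gib_eq]
    have h4 := gib_CM_translate (s := s) M β h R x
      ((fun i => (((R * (y i : ℕ) : ℕ) : ℤ) : ZMod n)) - x) G
    rw [add_sub_cancel, cubeS_eq] at h4
    exact h4
  have h3 : (trace (NormedSpace.exp (-((β : ℂ) • HB R s M) +
      cpx (Polynomial.aeval (CM (univ : Finset (B.cube R × Fin s))) G)))).re =
      trace (NormedSpace.exp (-(β / 2) • ham (Lm (S3.nnL (B.cube R)) s (2 * M)) 0 +
          Polynomial.aeval (CM (univ : Finset (B.cube R × Fin s))) G)) := by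
    have e1 : -((β : ℂ) • HB R s M) +
        cpx (Polynomial.aeval (CM (univ : Finset (B.cube R × Fin s))) G) =
        cpx (-(β / 2) • ham (Lm (S3.nnL (B.cube R)) s (2 * M)) 0 +
          Polynomial.aeval (CM (univ : Finset (B.cube R × Fin s))) G) := by
      rw [Energy.cpx_add, Energy.cpx_smul, HB, Energy.cpx_smul, smul_smul, ← neg_smul]
      congr 2
      push_cast
      ring
    rw [e1, ← Energy.cpx_exp, Energy.cpx_trace]
  rw [Finset.sum_congr rfl fun y _ => h2 y, Finset.sum_const, Finset.card_univ, h3,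
    nsmul_eq_mul, Fintype.card_prod, Fintype.card_prod, S3.LT1.card_cubeB, Fintype.card_fun,
    Fintype.card_fun, Fintype.card_fin, Fintype.card_fin, Fintype.card_fin, ZMod.card] at h1
  push_cast at h1
  linarith

end Cmp

end LT1S

/-- Lower bound of the free energy of the copies by the pressure of the spin `s / 2` model,
uniformly in `M` (from `log Z_M ≥ log Z_{spin s/2}`). -/
def LogZS (s : ℕ) : Prop :=
  ∀ β h : ℝ, 0 < β → 0 ≤ h → ∀ ε : ℝ, 0 < ε → ∃ n0 : ℕ, ∀ (n : ℕ) [NeZero n], n0 ≤ n → Odd n →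
    ∀ M : ℕ, (B.gRed s β h - ε) * (n : ℝ) ^ 3 ≤
      Real.log (trace (NormedSpace.exp (-β • ham (edgesS n s M) (hS fun _ => h)))) -
        β * h * s / 2 * (n : ℝ) ^ 3

/-- **(T1_S)** -/
theorem lt1S_of {s : ℕ} (hZ : LogZS s) {β h : ℝ} (hβ : 0 < β) (hh : 0 ≤ h) {R : ℕ} (hR : 0 < R)
    {ε : ℝ} (hε : 0 < ε) :
    ∃ n0 : ℕ, ∀ (n : ℕ) [NeZero n], n0 ≤ n → Odd n → ∀ (M : ℕ) (x : Tor n) (G : Polynomial ℝ),
      gib (edgesS n s M) β (hS fun _ => h) (Polynomial.aeval (CM (cubeS n s x R)) G) ≤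
        Real.log (trace (NormedSpace.exp (-(β / 2) •
          ham (Lm (S3.nnL (B.cube R)) s (2 * M)) 0 +
            Polynomial.aeval (CM (univ : Finset (B.cube R × Fin s))) G))) -
          (R : ℝ) ^ 3 * B.gRed s β h + ε := by
  -- choice of the small constant
  set Q : ℝ := |(s : ℝ) * Real.log 2 - B.gRed s β h| + 1 with hQ
  have hQ1 : 1 ≤ Q := by rw [hQ]; linarith [abs_nonneg ((s : ℝ) * Real.log 2 - B.gRed s β h)]
  have hR3 : (0 : ℝ) < (R : ℝ) ^ 3 := by positivity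
  obtain ⟨n1, hn1⟩ := hZ β h hβ hh (ε / (4 * (R : ℝ) ^ 3)) (by positivity)
  have h1 := (S3.LT1.div_tendsto hR).pow 3
  have hδ : 0 < min (ε / (4 * Q)) ((R : ℝ) ^ 3) := by
    refine lt_min (by positivity) hR3
  obtain ⟨N0, hN0⟩ := eventually_atTop.1 ((tendsto_order.1 h1).2
    ((R : ℝ) ^ 3 + min (ε / (4 * Q)) ((R : ℝ) ^ 3)) (by linarith))
  refine ⟨max n1 (2 * N0 + 3 + R), fun n _ hn hodd M x G => ?_⟩
  have hnA : n1 ≤ n := (le_max_left _ _).trans hn
  have hnB : 2 * N0 + 3 + R ≤ n := (le_max_right _ _).trans hn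
  have hZn := hn1 n hnA hodd M
  obtain ⟨N, rfl⟩ := hodd
  have h2 := hN0 N (by omega)
  have hm : R * ((2 * N + 1) / R) ≤ 2 * N + 1 := Nat.mul_div_le _ _
  have hmpos : 0 < (2 * N + 1) / R := Nat.div_pos (by omega) hR
  have h3 := LT1S.fin_le (n := 2 * N + 1) (R := R) (m := (2 * N + 1) / R) (s := s) (by omega)
    hm M hβ.le hh x G
  have hm' : (0 : ℝ) < (((2 * N + 1) / R : ℕ) : ℝ) := by exact_mod_cast hmpos
  have hRm : (R : ℝ) * (((2 * N + 1) / R : ℕ) : ℝ) ≤ ((2 * N + 1 : ℕ) : ℝ) := by exact_mod_cast hm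
  set m : ℝ := (((2 * N + 1) / R : ℕ) : ℝ) with hmdef
  set nn : ℝ := ((2 * N + 1 : ℕ) : ℝ) with hnn
  have hnn0 : 0 < nn := by rw [hnn]; positivity
  set LT := Real.log (trace (NormedSpace.exp (-(β / 2) •
          ham (Lm (S3.nnL (B.cube R)) s (2 * M)) 0 +
            Polynomial.aeval (CM (univ : Finset (B.cube R × Fin s))) G))) with hLT
  set g := B.gRed s β h with hg
  have hm3 : 0 < m ^ 3 := by positivity
  -- `nn³ ≤ (R³ + δ) m³`, `R³ m³ ≤ nn³`
  have h5 : nn ^ 3 ≤ ((R : ℝ) ^ 3 + min (ε / (4 * Q)) ((R : ℝ) ^ 3)) * m ^ 3 := by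
    have h6 := h2.le
    rw [div_pow, div_le_iff₀ hm3] at h6
    exact h6
  have h6 : (R : ℝ) ^ 3 * m ^ 3 ≤ nn ^ 3 := by
    rw [← mul_pow]
    exact pow_le_pow_left₀ (by positivity) hRm 3
  -- the error
  have h7 : (nn ^ 3 - (R : ℝ) ^ 3 * m ^ 3) * ((s : ℝ) * Real.log 2 - g) ≤ ε / 4 * m ^ 3 := by
    have a1 : 0 ≤ nn ^ 3 - (R : ℝ) ^ 3 * m ^ 3 := by linarith
    have a2 : nn ^ 3 - (R : ℝ) ^ 3 * m ^ 3 ≤ ε / (4 * Q) * m ^ 3 := by
      have := mul_le_mul_of_nonneg_right (min_le_left (ε / (4 * Q)) ((R : ℝ) ^ 3)) hm3.le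
      linarith
    have a3 : (s : ℝ) * Real.log 2 - g ≤ Q := by
      rw [hQ]; linarith [le_abs_self ((s : ℝ) * Real.log 2 - g)]
    calc (nn ^ 3 - (R : ℝ) ^ 3 * m ^ 3) * ((s : ℝ) * Real.log 2 - g)
        ≤ (nn ^ 3 - (R : ℝ) ^ 3 * m ^ 3) * Q := mul_le_mul_of_nonneg_left a3 a1
      _ ≤ ε / (4 * Q) * m ^ 3 * Q := mul_le_mul_of_nonneg_right a2 (by linarith)
      _ = ε / 4 * m ^ 3 := by field_simp
  have h8 : ε / (4 * (R : ℝ) ^ 3) * nn ^ 3 ≤ ε / 2 * m ^ 3 := by
    have a1 : nn ^ 3 ≤ 2 * (R : ℝ) ^ 3 * m ^ 3 := by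
      have := mul_le_mul_of_nonneg_right (min_le_right (ε / (4 * Q)) ((R : ℝ) ^ 3)) hm3.le
      linarith
    calc ε / (4 * (R : ℝ) ^ 3) * nn ^ 3 ≤ ε / (4 * (R : ℝ) ^ 3) * (2 * (R : ℝ) ^ 3 * m ^ 3) :=
          mul_le_mul_of_nonneg_left a1 (by positivity)
      _ = ε / 2 * m ^ 3 := by field_simp; ring
  refine le_of_mul_le_mul_left ?_ hm3
  refine h3.trans ?_
  nlinarith [h7, h8, hZn]

end

end Vale.Agent.P361.LRO.S3S
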