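import Vale.Agent.P361.LRO.Fin.CMat

/-!
P361, stage 3, all spins: the Peierls–Bogoliubov inequality with a projector.

`P` a symmetric projection commuting with the symmetric matrices `X`, `Y`:
`log tr (P e^X) + tr (P e^X Y) / tr (P e^X) ≤ log tr (P e^{X+Y})`.
The proof applies the usual inequality to `X - M (1 - P)` and lets `M → ∞`.
-/

namespace Vale.Agent.P361.LRO.S3.PBP

open Matrix Filter Topology Finset
open scoped Matrix.Norms.Operator Nat

variable {ι : Type*} [Fintype ι] [DecidableEq ι]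

/-- Exponential of a multiple of an idempotent (real matrices). -/
theorem exp_smul_idem {Q : Matrix ι ι ℝ} (hQ : Q * Q = Q) (a : ℝ) :
    NormedSpace.exp (a • Q) = (1 - Q) + Real.exp a • Q := by
  have h1 := NormedSpace.exp_series_hasSum_exp' (𝕂 := ℝ) (a • Q)
  have h2 := NormedSpace.exp_series_hasSum_exp' (𝕂 := ℝ) a
  have h3 : HasSum (fun n : ℕ => ((n !⁻¹ : ℝ) • a ^ n) • Q) (NormedSpace.exp a • Q) :=
    h2.smul_const Q
  have h4 : HasSum (fun n : ℕ => if n = 0 then (1 - Q) else 0) (1 - Q) :=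
    hasSum_ite_eq (0 : ℕ) (1 - Q)
  have h5 := h4.add h3
  have h6 : (fun n : ℕ => (n !⁻¹ : ℝ) • (a • Q) ^ n) =
      fun n : ℕ => (if n = 0 then (1 - Q) else 0) + ((n !⁻¹ : ℝ) • a ^ n) • Q := by
    funext n
    have hp : ∀ k : ℕ, Q ^ (k + 1) = Q := by
      intro k
      induction k with
      | zero => rw [zero_add, pow_one]
      | succ k ih => rw [pow_succ, ih, hQ]
    rcases n with _ | n
    · simp
    · rw [if_neg (Nat.succ_ne_zero n), zero_add, smul_pow, hp n, smul_smul, smul_eq_mul]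
  rw [h6] at h1
  have h7 := h1.unique h5
  rw [← Real.exp_eq_exp_ℝ] at h7
  exact h7

/-- `e^{Z - M (1 - P)} = e^Z (P + e^{-M} (1 - P))`. -/
theorem exp_sub_proj {Z P : Matrix ι ι ℝ} (hPP : P * P = P) (hPZ : P * Z = Z * P) (M : ℝ) :
    NormedSpace.exp (Z + (-M) • (1 - P)) =
      NormedSpace.exp Z * P + Real.exp (-M) • (NormedSpace.exp Z * (1 - P)) := by
  have hQQ : (1 - P) * (1 - P) = 1 - P := by
    simp only [sub_mul, mul_sub, one_mul, mul_one, hPP]; abel
  have hc : Commute Z ((-M) • (1 - P)) := by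
    refine Commute.smul_right ?_ _
    refine (Commute.one_right Z).sub_right ?_
    exact hPZ.symm
  rw [Matrix.exp_add_of_commute _ _ hc, exp_smul_idem hQQ, mul_add, Matrix.mul_smul]
  congr 2
  abel

theorem comm_exp {Z P : Matrix ι ι ℝ} (hPZ : P * Z = Z * P) :
    P * NormedSpace.exp Z = NormedSpace.exp Z * P := by
  have h : Commute P Z := hPZ
  exact (h.exp_right).eq

/-- **Peierls–Bogoliubov with a projector**. -/
theorem peierls_bogoliubov_proj [Nonempty ι] {X Y P : Matrix ι ι ℝ} (hX : X.IsSymm)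
    (hY : Y.IsSymm) (hP : P.IsSymm) (hPP : P * P = P) (hPX : P * X = X * P)
    (hPY : P * Y = Y * P) (hpos : 0 < trace (P * NormedSpace.exp X)) :
    Real.log (trace (P * NormedSpace.exp X)) +
      trace (P * NormedSpace.exp X * Y) / trace (P * NormedSpace.exp X) ≤
      Real.log (trace (P * NormedSpace.exp (X + Y))) := by
  have hPXY : P * (X + Y) = (X + Y) * P := by rw [mul_add, add_mul, hPX, hPY]
  -- the perturbed quantities
  have hsy : ∀ Z : Matrix ι ι ℝ, Z.IsSymm → ∀ M : ℝ, (Z + (-M) • (1 - P)).IsSymm := by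
    intro Z hZ M
    rw [Matrix.IsSymm, transpose_add, transpose_smul, transpose_sub, transpose_one, hP, hZ]
  have hM : ∀ M : ℝ, Real.exp (Real.log (trace (NormedSpace.exp (X + (-M) • (1 - P)))) +
      trace (NormedSpace.exp (X + (-M) • (1 - P)) * Y) /
        trace (NormedSpace.exp (X + (-M) • (1 - P)))) ≤
      trace (NormedSpace.exp (X + Y + (-M) • (1 - P))) := by
    intro M
    have h := peierls_bogoliubov_real (hsy X hX M) hY
    have he : X + (-M) • (1 - P) + Y = X + Y + (-M) • (1 - P) := by abel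
    rw [he] at h
    have hpos' : 0 < trace (NormedSpace.exp (X + Y + (-M) • (1 - P))) :=
      trace_exp_pos_real (hsy _ (hX.add hY) M)
    calc _ ≤ Real.exp (Real.log (trace (NormedSpace.exp (X + Y + (-M) • (1 - P))))) :=
          Real.exp_le_exp.mpr h
      _ = _ := Real.exp_log hpos'
  -- limits
  have hlim0 : Tendsto (fun M : ℝ => Real.exp (-M)) atTop (𝓝 0) :=
    Real.tendsto_exp_neg_atTop_nhds_zero
  have hlim : ∀ Z W : Matrix ι ι ℝ, P * Z = Z * P →
      Tendsto (fun M : ℝ => trace (NormedSpace.exp (Z + (-M) • (1 - P)) * W)) atTop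
        (𝓝 (trace (P * NormedSpace.exp Z * W))) := by
    intro Z W hZ
    have h1 : (fun M : ℝ => trace (NormedSpace.exp (Z + (-M) • (1 - P)) * W)) =
        fun M : ℝ => trace (P * NormedSpace.exp Z * W) +
          Real.exp (-M) * trace (NormedSpace.exp Z * (1 - P) * W) := by
      funext M
      rw [exp_sub_proj hPP hZ, add_mul, trace_add, comm_exp hZ, Matrix.smul_mul, trace_smul,
        smul_eq_mul]
    rw [h1]
    have h2 := (hlim0.mul_const (trace (NormedSpace.exp Z * (1 - P) * W))).const_add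
      (trace (P * NormedSpace.exp Z * W))
    simpa using h2
  have hlimX : Tendsto (fun M : ℝ => trace (NormedSpace.exp (X + (-M) • (1 - P)))) atTop
      (𝓝 (trace (P * NormedSpace.exp X))) := by
    simpa using hlim X 1 hPX
  have hlimXY : Tendsto (fun M : ℝ => trace (NormedSpace.exp (X + Y + (-M) • (1 - P)))) atTop
      (𝓝 (trace (P * NormedSpace.exp (X + Y)))) := by
    simpa using hlim (X + Y) 1 hPXY
  have hlimL := ((hlimX.log hpos.ne').add ((hlim X Y hPX).div hlimX hpos.ne')).rexp
  have hle := le_of_tendsto_of_tendsto' hlimL hlimXY hM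
  have hpos2 : 0 < trace (P * NormedSpace.exp (X + Y)) := lt_of_lt_of_le (Real.exp_pos _) hle
  rw [← Real.exp_le_exp, Real.exp_log hpos2]
  exact hle

/-- Positivity of `tr (P e^X Y)` for `Y` positive semidefinite commuting with `P`. -/
theorem trace_proj_exp_mul_nonneg [Nonempty ι] {X Y P : Matrix ι ι ℝ} (hX : X.IsSymm)
    (hY : Y.PosSemidef) (hP : P.IsSymm) (hPP : P * P = P) (hPX : P * X = X * P) :
    0 ≤ trace (P * NormedSpace.exp X * Y) := by
  have h1 : trace (P * NormedSpace.exp X * Y) = trace (NormedSpace.exp X * (P * Y * P)) := by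
    have e1 : P * NormedSpace.exp X * Y = P * (P * NormedSpace.exp X * Y) := by
      rw [← mul_assoc, ← mul_assoc, hPP]
    rw [e1, comm_exp hPX, trace_mul_comm, mul_assoc, mul_assoc, mul_assoc]
  rw [h1]
  refine trace_exp_mul_nonneg_real hX ?_
  have h2 : P * Y * P = Pᴴ * Y * P := by
    rw [conjTranspose_eq_transpose_of_trivial, hP]
  rw [h2]
  exact hY.conjTranspose_mul_mul_same P

/-- `0 < tr (P e^X)` unless `P = 0`. -/
theorem trace_proj_exp_pos [Nonempty ι] {X P : Matrix ι ι ℝ} (hX : X.IsSymm) (hP : P.IsSymm)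
    (hPP : P * P = P) (hPX : P * X = X * P) (hP0 : P ≠ 0) :
    0 < trace (P * NormedSpace.exp X) := by
  set B := NormedSpace.exp ((1 / 2 : ℝ) • X) with hB
  have hBB : B * B = NormedSpace.exp X := by
    rw [hB, ← Matrix.exp_add_of_commute _ _ (Commute.refl _), ← add_smul]
    norm_num
  have hBs : Bᵀ = B := by
    rw [hB, ← Matrix.exp_transpose, transpose_smul, hX]
  have hBP : P * B = B * P := comm_exp (by rw [Matrix.mul_smul, Matrix.smul_mul, hPX])
  have h1 : P * NormedSpace.exp X = (B * P)ᴴ * (B * P) := by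
    rw [conjTranspose_eq_transpose_of_trivial, transpose_mul, hBs, hP, ← hBB]
    calc P * (B * B) = (P * P) * (B * B) := by rw [hPP]
      _ = P * (P * B) * B := by simp only [mul_assoc]
      _ = P * (B * P) * B := by rw [hBP]
      _ = P * B * (P * B) := by simp only [mul_assoc]
      _ = P * B * (B * P) := by rw [hBP]
  have h2 : (P * NormedSpace.exp X).PosSemidef := by
    rw [h1]; exact posSemidef_conjTranspose_mul_self _
  refine lt_of_le_of_ne h2.trace_nonneg fun h => hP0 ?_
  have h3 := h2.trace_eq_zero_iff.mp h.symm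
  rw [h1] at h3
  have h4 : B * P = 0 := Matrix.conjTranspose_mul_self_eq_zero.mp h3
  have h5 : NormedSpace.exp (-((1 / 2 : ℝ) • X)) * B = 1 := by
    rw [hB, ← Matrix.exp_add_of_commute _ _ (Commute.neg_left (Commute.refl ((1 / 2 : ℝ) • X))),
      neg_add_cancel, NormedSpace.exp_zero]
  calc P = (NormedSpace.exp (-((1 / 2 : ℝ) • X)) * B) * P := by rw [h5, one_mul]
    _ = NormedSpace.exp (-((1 / 2 : ℝ) • X)) * (B * P) := by rw [mul_assoc]
    _ = 0 := by rw [h4, mul_zero]

/-- `tr (P e^X) ≤ tr e^X`. -/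
theorem trace_proj_exp_le [Nonempty ι] {X P : Matrix ι ι ℝ} (hX : X.IsSymm) (hP : P.IsSymm)
    (hPP : P * P = P) (hPX : P * X = X * P) :
    trace (P * NormedSpace.exp X) ≤ trace (NormedSpace.exp X) := by
  have hQs : (1 - P).IsSymm := by rw [Matrix.IsSymm, transpose_sub, transpose_one, hP]
  have hQQ : (1 - P) * (1 - P) = 1 - P := by
    simp only [sub_mul, mul_sub, one_mul, mul_one, hPP]; abel
  have hQX : (1 - P) * X = X * (1 - P) := by rw [sub_mul, mul_sub, hPX, one_mul, mul_one]
  have h := trace_proj_exp_mul_nonneg hX (PosSemidef.one (n := ι) (R := ℝ)) hQs hQQ hQX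
  rw [mul_one, sub_mul, one_mul, trace_sub] at h
  linarith

end Vale.Agent.P361.LRO.S3.PBP
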