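import Vale.Agent.P361.LRO.GenS.LimS
import Vale.Agent.P361.LRO.S3S.PBProj
import Vale.Agent.P361.LRO.Fin.TorusPress
import Vale.Agent.P361.B.Sub
import Vale.Agent.P361.Bridge

/-!
P361, stage 3, all spins: lower bound of the partition function of the copies by the one of
spin `s / 2` (uniform in `M`), and the free energy of large tori.
-/

namespace Vale.Agent.P361.LRO.S3S

open Finset Matrix Filter Topology Vale.Agent.P361.LRO.GenS

noncomputable section

namespace LogZH

section Gen

variable {V : Type} [Fintype V] [DecidableEq V] {s : ℕ} [NeZero s]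

omit [NeZero s] in
/-- The part between the sites commutes with the part inside the sites. -/
theorem comm_inter_intra (L : List (V × V)) (h : V → ℝ) :
    Commute (ham (interL L s) (lift s h)) (intraM V s) := by
  rw [intraM]
  have key : ∀ l : List ((V × Fin s) × (V × Fin s)), (∀ e ∈ l, e.1.1 = e.2.1) →
      Commute (ham (interL L s) (lift s h)) (l.map fun e => LRO.hM e.1 e.2).sum := by
    intro l hl
    induction l with
    | nil => simp
    | cons e l ih =>
      rw [List.map_cons, List.sum_cons]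
      refine Commute.add_right ?_ (ih fun e he => hl e (by simp [he]))
      have he := hl e (by simp)
      obtain ⟨⟨x, a⟩, ⟨y, b⟩⟩ := e
      dsimp only at he
      subst he
      rw [LRO.hM]
      exact ((Commute.one_right _).sub_right (comm_ham L h x a b).symm).smul_right _
  exact key _ fun e he => (mem_intraL.1 he).1

omit [NeZero s] in
theorem intraM_transpose : (intraM V s)ᵀ = intraM V s := by
  rw [intraM]
  induction intraL V s with
  | nil => simp
  | cons e l ih => rw [List.map_cons, List.sum_cons, transpose_add, ih, Lim.hM_transpose]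

theorem symProd_mul_intraM : symProd V s * intraM V s = 0 := by
  have h := congrArg Matrix.transpose (intraM_mul_symProd (V := V) (m := s))
  rwa [transpose_mul, symProd_transpose, intraM_transpose, transpose_zero] at h

section Exp

open scoped Matrix.Norms.Operator Nat

/-- `P e^Y = P` if `P Y = 0`. -/
theorem mul_exp_of_mul_zero {ι : Type*} [Fintype ι] [DecidableEq ι] {P Y : Matrix ι ι ℝ}
    (h : P * Y = 0) : P * NormedSpace.exp Y = P := by
  have h1 := (NormedSpace.exp_series_hasSum_exp' (𝕂 := ℝ) Y).mul_left P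
  have h2 : HasSum (fun n : ℕ => P * ((n !⁻¹ : ℝ) • Y ^ n)) P := by
    have h3 := hasSum_single (f := fun n : ℕ => P * ((n !⁻¹ : ℝ) • Y ^ n)) 0 (by
      intro n hn
      obtain ⟨k, rfl⟩ := Nat.exists_eq_succ_of_ne_zero hn
      show P * (((Nat.succ k) !⁻¹ : ℝ) • Y ^ (Nat.succ k)) = 0
      rw [Matrix.mul_smul, Nat.succ_eq_add_one, pow_succ', ← Matrix.mul_assoc, h, Matrix.zero_mul,
        smul_zero])
    simpa using h3
  exact h1.unique h2

end Exp

/-- **The copies dominate spin `s / 2`**, for every `M`. -/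
theorem trace_symProd_le [Nonempty (V × Fin s → Fin 2)] (L : List (V × V)) (β : ℝ) (h : V → ℝ)
    (M : ℕ) :
    trace (symProd V s * NormedSpace.exp (-β • ham (interL L s) (lift s h))) ≤
      trace (NormedSpace.exp (-β • ham (Lm L s M) (lift s h))) := by
  have hX : -β • ham (Lm L s M) (lift s h) =
      -β • ham (interL L s) (lift s h) + (-β * (M : ℝ)) • intraM V s := by
    rw [ham_Lm, smul_add, smul_smul]
  have hc : Commute (-β • ham (interL L s) (lift s h)) ((-β * (M : ℝ)) • intraM V s) :=
    ((comm_inter_intra L h).smul_right _).smul_left _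
  have hP : Commute (symProd V s) (-β • ham (interL L s) (lift s h)) :=
    (symProd_comm_ham L h).smul_right _
  have hPI : symProd V s * ((-β * (M : ℝ)) • intraM V s) = 0 := by
    rw [Matrix.mul_smul, symProd_mul_intraM, smul_zero]
  have hIP : ((-β * (M : ℝ)) • intraM V s) * symProd V s = 0 := by
    rw [Matrix.smul_mul, intraM_mul_symProd, smul_zero]
  have e1 : symProd V s * NormedSpace.exp (-β • ham (Lm L s M) (lift s h)) =
      symProd V s * NormedSpace.exp (-β • ham (interL L s) (lift s h)) := by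
    rw [hX, Matrix.exp_add_of_commute _ _ hc, ← Matrix.mul_assoc,
      S3.PBP.comm_exp hP.eq, Matrix.mul_assoc, mul_exp_of_mul_zero hPI]
  rw [← e1]
  refine S3.PBP.trace_proj_exp_le ?_ symProd_transpose symProd_sq ?_
  · rw [Matrix.IsSymm, transpose_smul, ham_symm]
  · rw [hX, mul_add, add_mul, hP.eq, hPI, hIP]

end Gen

end LogZH

/-- **Free energy of large tori**, uniform in `M`. -/
theorem logZ_copies_ge {s : ℕ} (hs : 1 ≤ s) {β h : ℝ} (hβ : 0 < β) {ε : ℝ} (hε : 0 < ε) :
    ∃ n0 : ℕ, ∀ (n : ℕ) [NeZero n], n0 ≤ n → Odd n → ∀ M : ℕ,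
      (n : ℝ) ^ 3 * (B.gRed s β h + β * h * s / 2 - ε) ≤
        Real.log (trace (NormedSpace.exp (-β • ham (edgesS n s M) (hS fun _ => h)))) := by
  have : NeZero s := ⟨by omega⟩
  have h1 := (pressTorus_tendsto s hβ h).const_mul β
  have e : β * Model.pressure s β h = B.gRed s β h + β * h * s / 2 + 3 * β * (s : ℝ) ^ 2 / 4 := by
    unfold B.gRed
    rw [Bridge.pressure_eq]
    ring
  rw [e] at h1
  obtain ⟨N0, hN0⟩ := eventually_atTop.1 ((tendsto_order.1 h1).1
    (B.gRed s β h + β * h * s / 2 + 3 * β * (s : ℝ) ^ 2 / 4 - ε) (by linarith))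
  refine ⟨max (2 * N0 + 1) 3, fun n _ hn hodd M => ?_⟩
  have hn3 : 3 ≤ n := (le_max_right _ _).trans hn
  obtain ⟨N, rfl⟩ := hodd
  have h2 := hN0 N (by have := (le_max_left _ _).trans hn; omega)
  unfold pressTorus at h2
  have hnp : (0 : ℝ) < (2 * (N : ℝ) + 1) ^ 3 := by positivity
  have h3 : β * ((β * (2 * (N : ℝ) + 1) ^ 3)⁻¹ * Model.logTr s (torusAdj (2 * N + 1)) β h) =
      Model.logTr s (torusAdj (2 * N + 1)) β h / (2 * (N : ℝ) + 1) ^ 3 := by
    field_simp
  rw [h3, lt_div_iff₀ hnp] at h2
  have hpos := trace_symProd_exp_pos (s := s) hn3 β h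
  have h4 : Model.logTr s (torusAdj (2 * N + 1)) β h =
      β * ((s : ℝ) ^ 2 * (1 / 4) * (3 * (2 * (N : ℝ) + 1) ^ 3)) +
      Real.log (trace (symProd (Tor (2 * N + 1)) s * NormedSpace.exp
        (-β • ham (interL (edges (2 * N + 1)) s) (lift s fun _ : Tor (2 * N + 1) => h)))) := by
    have h5 : Model.logTr s (torusAdj (2 * N + 1)) β h =
        Real.log (trace (NormedSpace.exp (expoV s (torusAdj (2 * N + 1)) β h))).re := rfl
    have hcard : (Fintype.card (Tor (2 * N + 1) × Fin 3) : ℝ) = 3 * (2 * (N : ℝ) + 1) ^ 3 := by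
      rw [Fintype.card_prod, Fintype.card_fun, ZMod.card, Fintype.card_fin]
      push_cast
      ring
    rw [h5, trace_exp_spin_real hn3, Complex.ofReal_re,
      Real.log_mul (Real.exp_pos _).ne' hpos.ne', Real.log_exp, hcard]
  have h6 := LogZH.trace_symProd_le (s := s) (edges (2 * N + 1)) β (fun _ : Tor (2 * N + 1) => h) M
  have h7 : trace (NormedSpace.exp (-β • ham (Lm (edges (2 * N + 1)) s M)
      (lift s fun _ : Tor (2 * N + 1) => h))) =
      trace (NormedSpace.exp (-β • ham (edgesS (2 * N + 1) s M) (hS fun _ => h))) := by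
    rw [ham_edgesS]
    rfl
  rw [h7] at h6
  have h8 := Real.log_le_log hpos h6
  push_cast
  nlinarith [h2, h4, h8]

end

end Vale.Agent.P361.LRO.S3S
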