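import Vale.Agent.P361.LRO.S3S.LT1S
import Vale.Agent.P361.LRO.S3S.LogZS

/-!
P361, stage 3, all spins, block (T): leaf (T1_S), final form.
-/

namespace Vale.Agent.P361.LRO.S3S

open Matrix Finset Filter Topology
open Vale.Agent.P361.LRO.GenS
open Vale.Agent.P361.LRO.S3 (CM nnL)

noncomputable section

theorem logZS_holds {s : ℕ} (hs : 1 ≤ s) : LogZS s := by
  intro β h hβ _ ε hε
  obtain ⟨n0, hn0⟩ := logZ_copies_ge hs (h := h) hβ hε
  refine ⟨n0, fun n _ hn hodd M => ?_⟩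
  have h1 := hn0 n hn hodd M
  linarith

/-- **(T1_S)** Peierls–Bogoliubov on the torus with decoupled blocks, all spins, uniformly in `M`. -/
theorem lt1S {s : ℕ} (hs : 1 ≤ s) {β h : ℝ} (hβ : 0 < β) (hh : 0 ≤ h) {R : ℕ} (hR : 0 < R)
    {ε : ℝ} (hε : 0 < ε) :
    ∃ n0 : ℕ, ∀ (n : ℕ) [NeZero n], n0 ≤ n → Odd n → ∀ (M : ℕ) (x : Tor n) (G : Polynomial ℝ),
      gib (edgesS n s M) β (hS fun _ => h) (Polynomial.aeval (CM (cubeS n s x R)) G) ≤
        Real.log (trace (NormedSpace.exp (-(β / 2) • ham (Lm (nnL (B.cube R)) s (2 * M)) 0 +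
          Polynomial.aeval (TwJ.Om (univ : Finset (B.cube R × Fin s))) G))) -
          (R : ℝ) ^ 3 * B.gRed s β h + ε :=
  lt1S_of (logZS_holds hs) hβ hh hR hε

end

end Vale.Agent.P361.LRO.S3S
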