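import Vale.Agent.P361.LRO.S3S.Iface
import Vale.Agent.P361.LRO.S3.SpontB
import Vale.Agent.P361.LRO.GenS.Final
import Vale.Agent.P361.Bridge

/-!
P361, stage 3 for all spins: the limits `M → ∞`, `n → ∞`, `h → 0` (LIM), and Bloch's order.
-/

namespace Vale.Agent.P361.LRO.S3S

open Finset Matrix Filter Topology Vale.Agent.P361.LRO.GenS Vale.Agent.P361.LRO.S3

noncomputable section

theorem BCS_pos {s : ℕ} (hs : 1 ≤ s) : 0 < BCS s := by
  have hz : 0 < (riemannZeta (3 / 2)).re := by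
    rw [← H.zeta_hasSum.tsum_eq]
    exact H.zeta_hasSum.summable.tsum_pos (fun _ => by positivity) 0 (by norm_num)
  unfold BCS
  have : (0 : ℝ) < s := by exact_mod_cast hs
  positivity

/-- Pointwise in the field. -/
theorem spontMag_ge_pt (n : ℕ) {β : ℝ} (hβ : 0 < β) {m₀ h₀ : ℝ} (hh₀ : 0 < h₀)
    (H : ∀ h : ℝ, 0 < h → h ≤ h₀ → ∀ᶠ N : ℕ in atTop,
      m₀ ≤ gibbsMagV n (torusAdj (2 * N + 1)) β h / (2 * N + 1) ^ 3) :
    m₀ ≤ Model.spontMag n β := by
  have key : ∀ h₁ h₂ : ℝ, 0 < h₁ → h₁ ≤ h₂ → h₂ ≤ h₀ →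
      Model.pressure n β h₁ + (h₂ - h₁) * m₀ ≤ Model.pressure n β h₂ := by
    intro h₁ h₂ h0 h12 h21
    have t1 := (pressTorus_tendsto n hβ h₁).add_const ((h₂ - h₁) * m₀)
    have t2 := pressTorus_tendsto n hβ h₂
    refine le_of_tendsto_of_tendsto t1 t2 ?_
    filter_upwards [H h₁ h0 (h12.trans h21), eventually_ge_atTop 1] with N hN hN1
    have h3 := pressTorus_support n N hN1 hβ h₁ h₂
    have h5 := mul_le_mul_of_nonneg_left hN (by linarith : (0 : ℝ) ≤ h₂ - h₁)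
    linarith
  have hconv : ConvexOn ℝ Set.univ (Model.pressure n β) := pressure_convex n hβ
  have hcont : Continuous (Model.pressure n β) := by
    have := hconv.continuousOn isOpen_univ
    rwa [continuousOn_univ] at this
  have key0 : ∀ h₂ : ℝ, 0 < h₂ → h₂ ≤ h₀ →
      Model.pressure n β 0 + h₂ * m₀ ≤ Model.pressure n β h₂ := by
    intro h₂ h20 h21
    have t1 : Tendsto (fun h₁ => Model.pressure n β h₁ + (h₂ - h₁) * m₀) (𝓝[>] 0)
        (𝓝 (Model.pressure n β 0 + (h₂ - 0) * m₀)) := by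
      have : Continuous fun h₁ => Model.pressure n β h₁ + (h₂ - h₁) * m₀ := by fun_prop
      exact this.continuousWithinAt.tendsto
    rw [sub_zero] at t1
    refine le_of_tendsto t1 ?_
    filter_upwards [Ioc_mem_nhdsGT h20] with h₁ hh
    exact key h₁ h₂ hh.1 hh.2 h21
  have hder : HasDerivWithinAt (Model.pressure n β) (Model.spontMag n β) (Set.Ioi 0) 0 :=
    spontMag_hasDeriv n hβ
  rw [hasDerivWithinAt_iff_tendsto_slope' (by simp)] at hder
  refine ge_of_tendsto hder ?_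
  filter_upwards [Ioc_mem_nhdsGT hh₀] with h hh
  rw [slope_def_field, sub_zero, le_div_iff₀ hh.1]
  linarith [key0 h hh.1 hh.2]

/-- The density of the torus from the densities of the copies, `M → ∞`. -/
theorem gibbs_ge_of_rho {s : ℕ} (hs : 1 ≤ s) {β h r : ℝ} (hβ : 0 < β) (hh : 0 < h) {n : ℕ}
    [NeZero n] (hn : 3 ≤ n) {M0 : ℕ}
    (H : ∀ M : ℕ, M0 ≤ M → ∀ z : Tor n × Fin s,
      (s : ℝ) * rho (edgesS n s M) β (hS fun _ => h) z ≤ r) :
    (s : ℝ) / 2 - r ≤ gibbsMagV s (torusAdj n) β h / (n : ℝ) ^ 3 := by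
  have hn0 : (0 : ℝ) < n := by exact_mod_cast NeZero.pos n
  have hs0 : (0 : ℝ) < s := by exact_mod_cast hs
  have hcard : (Fintype.card (Tor n × Fin s) : ℝ) = (n : ℝ) ^ 3 * s := by
    rw [Fintype.card_prod, Fintype.card_fun, ZMod.card, Fintype.card_fin, Fintype.card_fin]
    push_cast
    ring
  rw [le_div_iff₀ (by positivity)]
  refine ge_of_tendsto (limStmtS hs n hn β h hβ hh) ?_
  filter_upwards [eventually_ge_atTop M0] with M hM
  have h3 : ((s : ℝ) / 2 - r) * (n : ℝ) ^ 3 =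
      (Fintype.card (Tor n × Fin s) : ℝ) * (1 / 2 - r / s) := by
    rw [hcard]
    field_simp
  rw [h3, ← nsmul_eq_mul, ← Finset.card_univ]
  refine Finset.card_nsmul_le_sum _ _ _ fun z _ => ?_
  have h4 := H M hM z
  have h5 : rho (edgesS n s M) β (hS fun _ => h) z ≤ r / s := by
    rw [le_div_iff₀ hs0, mul_comm]
    exact h4
  linarith

/-- The upper side of Bloch's law from (F). -/
theorem upper_of_final {s : ℕ} (hs : 1 ≤ s) (H : FinalStmt3S s) :
    ∀ ε : ℝ, 0 < ε → ∃ β0 : ℝ, 0 < β0 ∧ ∀ β : ℝ, β0 ≤ β →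
      (s : ℝ) / 2 - (1 + ε) * BCS s * β ^ (-(3 / 2) : ℝ) ≤ Model.spontMag s β := by
  intro ε hε
  obtain ⟨β0, H⟩ := H ε hε
  refine ⟨max β0 1, lt_max_of_lt_right one_pos, fun β hβ => ?_⟩
  have hβ0 : β0 ≤ β := (le_max_left _ _).trans hβ
  have hβ1 : 1 ≤ β := (le_max_right _ _).trans hβ
  have hβp : 0 < β := by linarith
  refine spontMag_ge_pt s hβp (h₀ := β ^ (-(10 : ℝ))) (Real.rpow_pos_of_pos hβp _) ?_
  intro h hh hh2
  obtain ⟨n0, H⟩ := H β hβ0 h hh hh2
  filter_upwards [eventually_ge_atTop (max n0 1)] with N hN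
  have hN1 : 1 ≤ N := le_trans (le_max_right _ _) hN
  have hN0 : n0 ≤ 2 * N + 1 := by
    have := le_trans (le_max_left _ _) hN
    omega
  obtain ⟨M0, H⟩ := H (2 * N + 1) hN0 ⟨N, rfl⟩
  have := gibbs_ge_of_rho hs hβp hh (n := 2 * N + 1) (by omega) H
  push_cast at this
  exact this

/-- **Bloch's law with the constant for spin `s / 2`, from (F).** -/
theorem bloch_of_final {s : ℕ} (hs : 1 ≤ s) (H : FinalStmt3S s) :
    Tendsto (fun β : ℝ => β ^ (3 / 2 : ℝ) * ((s : ℝ) / 2 - Model.spontMag s β)) atTop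
      (𝓝 (BCS s)) := by
  have hB := BCS_pos hs
  refine tendsto_order.2 ⟨fun c hc => Bridge.main_bloch s hs c hc, fun c hc => ?_⟩
  have hε : 0 < (c - BCS s) / (2 * BCS s) := div_pos (by linarith) (by linarith)
  obtain ⟨β0, hβ0, H2⟩ := upper_of_final hs H _ hε
  filter_upwards [eventually_ge_atTop β0] with β hβ
  have hβp : 0 < β := hβ0.trans_le hβ
  have h1 := H2 β hβ
  have h2 : (0 : ℝ) < β ^ (3 / 2 : ℝ) := Real.rpow_pos_of_pos hβp _
  have h3 : β ^ (3 / 2 : ℝ) * β ^ (-(3 / 2) : ℝ) = 1 := by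
    rw [← Real.rpow_add hβp]
    norm_num
  have h4 : β ^ (3 / 2 : ℝ) * ((s : ℝ) / 2 - Model.spontMag s β) ≤
      (1 + (c - BCS s) / (2 * BCS s)) * BCS s := by
    have h5 := mul_le_mul_of_nonneg_left (sub_le_comm.1 h1) h2.le
    refine h5.trans (le_of_eq ?_)
    calc β ^ (3 / 2 : ℝ) * ((1 + (c - BCS s) / (2 * BCS s)) * BCS s * β ^ (-(3 / 2) : ℝ))
        = (1 + (c - BCS s) / (2 * BCS s)) * BCS s *
          (β ^ (3 / 2 : ℝ) * β ^ (-(3 / 2) : ℝ)) := by ring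
      _ = _ := by rw [h3, mul_one]
  have h6 : (1 + (c - BCS s) / (2 * BCS s)) * BCS s = (c + BCS s) / 2 := by
    field_simp
    ring
  rw [h6] at h4
  linarith

/-- **Bloch's order for spin `s / 2`, from (B).** -/
theorem order3S_of {s : ℕ} (hs : 1 ≤ s) (H : BootStmt3S s) :
    ∃ C β0 : ℝ, 0 < C ∧ 0 < β0 ∧ ∀ β : ℝ, β0 ≤ β →
      (s : ℝ) / 2 - C * β ^ (-(3 / 2) : ℝ) ≤ Model.spontMag s β := by
  obtain ⟨C7, β0, hC7, H⟩ := H
  have hs0 : (0 : ℝ) < s := by exact_mod_cast hs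
  refine ⟨s * C7, max β0 1, by positivity, lt_max_of_lt_right one_pos, fun β hβ => ?_⟩
  have hβ0 : β0 ≤ β := (le_max_left _ _).trans hβ
  have hβ1 : 1 ≤ β := (le_max_right _ _).trans hβ
  have hβp : 0 < β := by linarith
  obtain ⟨n0, H⟩ := H β hβ0
  have hexp : 1 ≤ Real.exp (β ^ (-(9 / 2) : ℝ)) :=
    Real.one_le_exp (Real.rpow_pos_of_pos hβp _).le
  refine spontMag_ge_pt s hβp (h₀ := 1 / (s * β)) (by positivity) ?_
  intro h hh hh2
  have hg : 0 < h * (s * β) := by positivity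
  have hg1 : h * (s * β) ≤ 1 := by
    rwa [le_div_iff₀ (by positivity)] at hh2
  have hev : ∀ᶠ N : ℕ in atTop, ((2 * N + 1 : ℕ) : ℝ) ^ (-(1 / 4) : ℝ) ≤ h * (s * β) := by
    have h1 : Tendsto (fun N : ℕ => ((2 * N + 1 : ℕ) : ℝ)) atTop atTop := by
      refine tendsto_natCast_atTop_atTop.comp (tendsto_atTop_mono (fun n => ?_) tendsto_id)
      simp only [id]; omega
    have h2 := (tendsto_rpow_neg_atTop (by norm_num : (0 : ℝ) < 1 / 4)).comp h1
    exact ((tendsto_order.1 h2).2 _ hg).mono fun N hN => hN.le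
  filter_upwards [eventually_ge_atTop (max n0 1), hev] with N hN hN3
  have hN1 : 1 ≤ N := le_trans (le_max_right _ _) hN
  have hN0 : n0 ≤ 2 * N + 1 := by
    have := le_trans (le_max_left _ _) hN
    omega
  obtain ⟨M0, H⟩ := H (2 * N + 1) hN0 ⟨N, rfl⟩
  have := gibbs_ge_of_rho hs hβp hh (n := 2 * N + 1) (by omega) (M0 := M0)
    (r := s * C7 * β ^ (-(3 / 2) : ℝ)) fun M hM z => by
      have h4 : (fun _ : Tor (2 * N + 1) => h * (s * β) / (s * β)) = fun _ => h := by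
        funext _
        field_simp
      have h5 := H M hM (h * (s * β)) hN3 hg1 (fun _ => h * (s * β))
        ⟨fun _ => ⟨le_rfl, hg1⟩, fun _ _ => by constructor <;> nlinarith⟩ z
      rw [h4] at h5
      rw [mul_assoc]
      exact mul_le_mul_of_nonneg_left h5 hs0.le
  push_cast at this
  exact this

end

end Vale.Agent.P361.LRO.S3S
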