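import Vale.Agent.P361.LRO.Dict.Limit

/-!
P361 LRO, stage 3, all spins: the limit of the magnetisation at the nodes of a circuit with an
extra matrix `P` between the layers `N` and `0` (the symmetriser of the copies).
-/

namespace Vale.Agent.P361.LRO.S3S

open Finset Matrix Vale.Agent.P361.LRO.Dict

open scoped Matrix.Norms.Operator

noncomputable section

variable {V : Type} [Fintype V] [DecidableEq V]

/-- The law `μ` has the trace formula with the extra matrix `P` between the layers `N` and `0`. -/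
def TrLaw (P : Matrix (V → Fin 2) (V → Fin 2) ℝ) (L : List (V × V)) (β : ℝ) {N : ℕ}
    (μ : Equiv.Perm (Fin (N + 1) × V) → ℝ) : Prop :=
  ∀ A : Fin (N + 1) × V → Matrix (Fin 2) (Fin 2) ℝ, NZ μ A = trace (P *
    (down (fun k => layM (fun x => A (Fin.ofNat (N + 1) k, x)) * gatM L (β / (2 * N))) N *
      layM (fun x => A (0, x))))

/-- The magnetisation at `x` at time `t` (`s + t = β`) with the extra slice `T` at time `0` and the
extra factor `P`. -/
def mTE (P : Matrix (V → Fin 2) (V → Fin 2) ℝ) (L : List (V × V)) (h T : V → ℝ) (s t : ℝ)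
    (x : V) : ℝ :=
  trace (layT T * P * NormedSpace.exp (-s • ham L h) * szM x * NormedSpace.exp (-t • ham L h)) /
    trace (layT T * P * NormedSpace.exp (-s • ham L h) * NormedSpace.exp (-t • ham L h))

/-- The word with one layer changed. -/
theorem down_eq (L : List (V × V)) (β : ℝ) {N : ℕ} (h T : V → ℝ) {k : Fin (N + 1)} (hk : k ≠ 0)
    (x : V) (O : Matrix (Fin 2) (Fin 2) ℝ) :
    down (fun j => layM (fun y =>
      Function.update (fun z => dgM (th β N h T z)) (k, x) O (Fin.ofNat (N + 1) j, y)) *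
        gatM L (β / (2 * N))) N *
      layM (fun y => Function.update (fun z => dgM (th β N h T z)) (k, x) O (0, y)) =
      (((gen0 L β h).map fun A => 1 + (N : ℝ)⁻¹ • A).prod ^ (N - (k : ℕ)) *
        (layM (Function.update (fun y => dgM (β * h y / (2 * N))) x O) * gatM L (β / (2 * N))) *
        ((gen0 L β h).map fun A => 1 + (N : ℝ)⁻¹ • A).prod ^ ((k : ℕ) - 1)) * layT T := by
  have hk1 : 1 ≤ (k : ℕ) := Nat.one_le_iff_ne_zero.2 fun h0 => hk (Fin.ext h0)
  have hkN : (k : ℕ) ≤ N := Nat.lt_succ_iff.1 k.2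
  set f : ℕ → Matrix (V → Fin 2) (V → Fin 2) ℝ := fun j => layM (fun y =>
    Function.update (fun z => dgM (th β N h T z)) (k, x) O (Fin.ofNat (N + 1) j, y)) *
      gatM L (β / (2 * N)) with hf
  have hval : ∀ j, j ≤ N → ((Fin.ofNat (N + 1) j : Fin (N + 1)) : ℕ) = j := fun j hj => by
    rw [Fin.val_ofNat, Nat.mod_eq_of_lt (by omega)]
  have f1 : ∀ j, 1 ≤ j → j ≤ N → j ≠ (k : ℕ) →
      f j = ((gen0 L β h).map fun A => 1 + (N : ℝ)⁻¹ • A).prod := by
    intro j h1 h2 h3
    rw [← layer_eq, hf]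
    simp only
    congr 2
    funext y
    have hne : (Fin.ofNat (N + 1) j, y) ≠ (k, x) := fun he => h3 (by
      rw [← hval j h2, (Prod.mk.inj he).1])
    rw [Function.update_of_ne hne]
    unfold th
    have h0 : (Fin.ofNat (N + 1) j : Fin (N + 1)) ≠ 0 := fun he => by
      have := congrArg Fin.val he
      rw [hval j h2] at this
      simp at this
      omega
    simp only
    rw [if_neg h0]
  have fk : f k = layM (Function.update (fun y => dgM (β * h y / (2 * N))) x O) *
      gatM L (β / (2 * N)) := by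
    rw [hf]
    simp only
    congr 2
    funext y
    have hkk : (Fin.ofNat (N + 1) (k : ℕ) : Fin (N + 1)) = k := Fin.ext (hval k hkN)
    rw [hkk]
    by_cases hy : y = x
    · subst hy
      rw [Function.update_self, Function.update_self]
    · rw [Function.update_of_ne hy, Function.update_of_ne fun he => hy (Prod.mk.inj he).2]
      unfold th
      simp only
      rw [if_neg hk]
  have hs1 : down f N = down (fun j => f ((k : ℕ) + j)) (N - k) * down f k := by
    conv_lhs => rw [show N = (N - (k : ℕ)) + k by omega]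
    rw [down_split]
  have hs2 : down f (k : ℕ) = f k * down f ((k : ℕ) - 1) := by
    conv_lhs => rw [show (k : ℕ) = ((k : ℕ) - 1) + 1 by omega]
    show f ((k : ℕ) - 1 + 1) * _ = _
    rw [show (k : ℕ) - 1 + 1 = k by omega]
  rw [hs1, hs2, down_congr (g := fun _ => ((gen0 L β h).map fun A => 1 + (N : ℝ)⁻¹ • A).prod)
      (fun j h1 h2 => f1 _ (by omega) (by omega) (by omega)), down_const,
    down_congr (f := f) (g := fun _ => ((gen0 L β h).map fun A => 1 + (N : ℝ)⁻¹ • A).prod)
      (fun j h1 h2 => f1 _ (by omega) (by omega) (by omega)), down_const, fk, ← mul_assoc]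
  congr 1
  rw [layT_eq]
  congr 1
  funext y
  rw [Function.update_of_ne fun he => hk (Prod.mk.inj he).1.symm]
  rfl

theorem trace_P_le {P : Matrix (V → Fin 2) (V → Fin 2) ℝ} {T : V → ℝ}
    (hT : ∀ x, 0 ≤ T x ∧ T x ≤ 1) (A : Matrix (V → Fin 2) (V → Fin 2) ℝ) :
    |trace (P * (A * layT T))| ≤ kT V * ‖P‖ * ‖A‖ := by
  rw [← mul_assoc, mul_assoc (kT V)]
  refine (trace_layT_le hT _).trans ?_
  refine mul_le_mul_of_nonneg_left (norm_mul_le _ _) ?_
  unfold kT; positivity

/-- **The limit of the magnetisation**, uniformly in the law, the fields and the node. -/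
theorem magLimE (P : Matrix (V → Fin 2) (V → Fin 2) ℝ) (hP : PU P) (L : List (V × V)) {β : ℝ}
    (hβ : 0 < β) :
    ∃ (C : ℝ) (N0 : ℕ), ∀ N : ℕ, N0 ≤ N → ∀ μ : Equiv.Perm (Fin (N + 1) × V) → ℝ,
      TrLaw P L β μ → ∀ h T : V → ℝ, (∀ x, 0 ≤ h x ∧ h x ≤ 1) →
      (∀ x, 0 ≤ T x ∧ T x ≤ 1) → ∀ z : Fin (N + 1) × V, z.1 ≠ 0 →
      |mag μ (th β N h T) z -
        mTE P L h T (β * (1 - ((z.1 : ℕ) : ℝ) / N)) (β * (((z.1 : ℕ) : ℝ) / N)) z.2| ≤ C / N := by
  set c := cc0 L β with hcdef
  have hc : 0 ≤ c := by rw [hcdef]; unfold cc0; positivity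
  set C := 2 * c * Real.exp (2 * c) with hC
  have hC0 : 0 ≤ C := by positivity
  have hk0 : 0 ≤ kT V := by unfold kT; positivity
  have hI0 : 0 ≤ Trot.cI c C := by unfold Trot.cI; positivity
  set kP := kT V * ‖P‖ with hkP
  have hkP0 : 0 ≤ kP := mul_nonneg hk0 (norm_nonneg _)
  set a := kP * Trot.cI c C with ha
  have ha0 : 0 ≤ a := mul_nonneg hkP0 hI0
  set b := kP * Real.exp (2 * c) with hb
  have hb0 : 0 ≤ b := by positivity
  refine ⟨a + 2 * a * b, max 1 (max ⌈β⌉₊ ⌈2 * a⌉₊), fun N hN μ hμ h T hh hT z hz => ?_⟩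
  obtain ⟨k, x⟩ := z
  simp only at hz ⊢
  have hN1 : 1 ≤ N := (le_max_left _ _).trans hN
  have hNβ : β ≤ N := Nat.ceil_le.1 (((le_max_left _ _).trans (le_max_right _ _)).trans hN)
  have hNa : 2 * a ≤ N := Nat.ceil_le.1 (((le_max_right _ _).trans (le_max_right _ _)).trans hN)
  have hN0 : (0 : ℝ) < N := by exact_mod_cast hN1
  have hk1 : 1 ≤ (k : ℕ) := Nat.one_le_iff_ne_zero.2 fun h0 => hz (Fin.ext h0)
  have hkN : (k : ℕ) ≤ N := Nat.lt_succ_iff.1 k.2
  set l := gen0 L β h with hl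
  have hlc : (l.map norm).sum ≤ c := norm_gen0 L hβ.le hh
  have hS : ‖l.sum‖ ≤ c := (Trot.norm_list_sum_le l).trans hlc
  have hd : ((k : ℕ) : ℝ) / N ≤ 1 := (div_le_one hN0).2 (by exact_mod_cast hkN)
  have hd0 : 0 ≤ ((k : ℕ) : ℝ) / N := by positivity
  set Q := (l.map fun A => 1 + (N : ℝ)⁻¹ • A).prod with hQ
  set E1 := NormedSpace.exp ((1 - ((k : ℕ) : ℝ) / N) • l.sum) with hE1
  set E2 := NormedSpace.exp ((((k : ℕ) : ℝ) / N) • l.sum) with hE2
  have n1 : ‖E1‖ ≤ Real.exp c :=
    Trot.norm_exp_smul_le norm_one_le hS (by linarith) (by linarith)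
  have n2 : ‖E2‖ ≤ Real.exp c := Trot.norm_exp_smul_le norm_one_le hS hd0 hd
  set D := (layM fun y => dgM (Function.update (fun y => β * h y / (2 * N)) x 0 y) :
    Matrix (V → Fin 2) (V → Fin 2) ℝ) with hD
  set G := (gatM L (β / (2 * N)) : Matrix (V → Fin 2) (V → Fin 2) ℝ) with hG
  -- the numerator and the denominator
  have w3 : NZ μ (Function.update (fun z => dgM (th β N h T z)) (k, x) m3) =
      trace (P * (Q ^ (N - (k : ℕ)) * (D * szM x * G) * Q ^ ((k : ℕ) - 1) * layT T)) := by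
    rw [hμ, down_eq L β h T hz x m3, layM_up3]
  have w1 : NZ μ (Function.update (fun z => dgM (th β N h T z)) (k, x) 1) =
      trace (P * (Q ^ (N - (k : ℕ)) * (D * 1 * G) * Q ^ ((k : ℕ) - 1) * layT T)) := by
    rw [hμ, down_eq L β h T hz x 1, layM_up1, mul_one]
  have key : ∀ O : Matrix (V → Fin 2) (V → Fin 2) ℝ, ‖O‖ ≤ 1 →
      |trace (P * (Q ^ (N - (k : ℕ)) * (D * O * G) * Q ^ ((k : ℕ) - 1) * layT T)) -
        trace (P * (E1 * O * E2 * layT T))| ≤ a / N := by
    intro O hO
    have h1 := Trot.insert_lin norm_one_le l hlc hC0 hk1 hkN hO (ins_bound L hβ.le hN1 hh x hO)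
    rw [← Matrix.trace_sub, ← mul_sub, ← sub_mul]
    refine (trace_P_le hT _).trans ?_
    rw [ha, mul_div_assoc]
    exact mul_le_mul_of_nonneg_left h1 hkP0
  have k3 := key (szM x) (norm_szM x)
  have k1 := key 1 norm_one_le
  have hden : 1 ≤ trace (P * (Q ^ (N - (k : ℕ)) * (D * 1 * G) * Q ^ ((k : ℕ) - 1) * layT T)) := by
    have hp : 0 ≤ β / (2 * N) ∧ β / (2 * N) ≤ 1 := by
      refine ⟨by positivity, (div_le_one (by positivity)).2 ?_⟩
      linarith
    have hθ : ∀ y, 0 ≤ β * h y / (2 * N) ∧ β * h y / (2 * N) ≤ 1 := by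
      intro y
      have h2 := hh y
      refine ⟨by have := h2.1; positivity, (div_le_one (by positivity)).2 ?_⟩
      have := mul_le_mul_of_nonneg_left h2.2 hβ.le
      linarith
    have pG : PU G := PU.gatM L hp.1 hp.2
    have pQ : PU Q := by
      rw [hQ, hl, ← layer_eq]
      exact (PU.layM hθ).mul pG
    have pD : PU D := by
      refine PU.layM fun y => ?_
      by_cases hy : y = x
      · subst hy
        rw [Function.update_self]
        exact ⟨le_rfl, zero_le_one⟩
      · rw [Function.update_of_ne hy]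
        exact hθ y
    have pT : PU (layT T) := by
      rw [layT_eq]
      exact PU.layM hT
    rw [mul_one]
    exact PU.trace (hP.mul ((((pQ.pow _).mul (pD.mul pG)).mul (pQ.pow _)).mul pT))
  have hnum : |trace (P * (E1 * szM x * E2 * layT T))| ≤ b := by
    refine (trace_P_le hT _).trans ?_
    rw [hb, two_mul, Real.exp_add]
    refine mul_le_mul_of_nonneg_left ?_ hkP0
    have h3 : ‖E1 * szM x‖ ≤ Real.exp c * 1 :=
      (norm_mul_le _ _).trans (mul_le_mul n1 (norm_szM x) (norm_nonneg _) (Real.exp_pos _).le)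
    rw [mul_one] at h3
    exact (norm_mul_le _ _).trans (mul_le_mul h3 n2 (norm_nonneg _) (Real.exp_pos _).le)
  have eT : mTE P L h T (β * (1 - ((k : ℕ) : ℝ) / N)) (β * (((k : ℕ) : ℝ) / N)) x =
      trace (P * (E1 * szM x * E2 * layT T)) / trace (P * (E1 * 1 * E2 * layT T)) := by
    have e1 : E1 = NormedSpace.exp (-(β * (1 - ((k : ℕ) : ℝ) / N)) • ham L h) := by
      rw [hE1, hl, gen0_sum, smul_smul]
      congr 2
      ring
    have e2 : E2 = NormedSpace.exp (-(β * (((k : ℕ) : ℝ) / N)) • ham L h) := by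
      rw [hE2, hl, gen0_sum, smul_smul]
      congr 2
      ring
    unfold mTE
    rw [← mul_assoc P (E1 * szM x * E2), ← mul_assoc P (E1 * 1 * E2),
      Matrix.trace_mul_comm (P * (E1 * szM x * E2)), Matrix.trace_mul_comm (P * (E1 * 1 * E2)), e1,
      e2, mul_one]
    simp only [mul_assoc]
  rw [mag_eq3, w3, w1, eT]
  set u := trace (P * (Q ^ (N - (k : ℕ)) * (D * szM x * G) * Q ^ ((k : ℕ) - 1) * layT T))
  set v := trace (P * (Q ^ (N - (k : ℕ)) * (D * 1 * G) * Q ^ ((k : ℕ) - 1) * layT T))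
  set u' := trace (P * (E1 * szM x * E2 * layT T))
  set v' := trace (P * (E1 * 1 * E2 * layT T))
  have haN : a / N ≤ 1 / 2 := by
    rw [div_le_iff₀ hN0]
    linarith
  have hv' : 1 / 2 ≤ v' := by
    have := (abs_le.1 k1).2
    linarith
  have hv0 : 0 < v := by linarith
  have hv0' : 0 < v' := by linarith
  have e : u / v - u' / v' = (u - u') / v + u' * ((v' - v) / (v * v')) := by
    field_simp
    ring
  rw [e]
  have haN0 : 0 ≤ a / N := by positivity
  have s1 : |(u - u') / v| ≤ a / N := by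
    rw [abs_div, abs_of_pos hv0]
    exact (div_le_self (abs_nonneg _) hden).trans k3
  have s2 : |u' * ((v' - v) / (v * v'))| ≤ b * (2 * (a / N)) := by
    rw [abs_mul]
    refine mul_le_mul hnum ?_ (abs_nonneg _) hb0
    rw [abs_div, abs_of_pos (mul_pos hv0 hv0'), div_le_iff₀ (mul_pos hv0 hv0'), abs_sub_comm]
    refine k1.trans ?_
    have h4 : 1 / 2 ≤ v * v' := by nlinarith
    nlinarith
  refine (abs_add_le _ _).trans ((add_le_add s1 s2).trans (le_of_eq ?_))
  ring

end

end Vale.Agent.P361.LRO.S3S
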