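import Vale.Agent.P361.LRO.S3S.Iface
import Vale.Agent.P361.LRO.S3.SpontB
import Vale.Agent.P361.LRO.GenS.LimS
import Vale.Agent.P361.Bridge

/-!
P361, stage 3, all spins: the limit `M → ∞`, `n → ∞`, `h → 0` and `β → ∞` of `FinalStmt3S`.
-/

namespace Vale.Agent.P361.LRO.S3S.H784

open Finset Matrix Filter Topology Vale.Agent.P361.LRO.GenS Vale.Agent.P361.LRO.S3

/-- Lower bound for the spontaneous magnetization from lower bounds for the finite tori at every
small field. -/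
theorem spontMag_ge_each (n : ℕ) {β : ℝ} (hβ : 0 < β) {m₀ h₀ : ℝ} (hh₀ : 0 < h₀)
    (H : ∀ h : ℝ, 0 < h → h ≤ h₀ → ∀ᶠ N : ℕ in atTop,
      m₀ ≤ gibbsMagV n (torusAdj (2 * N + 1)) β h / (2 * N + 1) ^ 3) :
    m₀ ≤ Model.spontMag n β := by
  have key : ∀ h₁ h₂ : ℝ, 0 < h₁ → h₁ ≤ h₂ → h₂ ≤ h₀ →
      Model.pressure n β h₁ + (h₂ - h₁) * m₀ ≤ Model.pressure n β h₂ := by
    intro h₁ h₂ h0 h12 h21
    have t1 := (pressTorus_tendsto n hβ h₁).add_const ((h₂ - h₁) * m₀)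
    have t2 := pressTorus_tendsto n hβ h₂
    refine le_of_tendsto_of_tendsto t1 t2 ?_
    filter_upwards [H h₁ h0 (h12.trans h21), eventually_ge_atTop 1] with N hN hN1
    have h3 := pressTorus_support n N hN1 hβ h₁ h₂
    have h5 := mul_le_mul_of_nonneg_left hN (by linarith : (0 : ℝ) ≤ h₂ - h₁)
    linarith
  have hconv : ConvexOn ℝ Set.univ (Model.pressure n β) := pressure_convex n hβ
  have hcont : Continuous (Model.pressure n β) := by
    have := hconv.continuousOn isOpen_univ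
    rwa [continuousOn_univ] at this
  have key0 : ∀ h₂ : ℝ, 0 < h₂ → h₂ ≤ h₀ →
      Model.pressure n β 0 + h₂ * m₀ ≤ Model.pressure n β h₂ := by
    intro h₂ h20 h21
    have t1 : Tendsto (fun h₁ => Model.pressure n β h₁ + (h₂ - h₁) * m₀) (𝓝[>] 0)
        (𝓝 (Model.pressure n β 0 + (h₂ - 0) * m₀)) := by
      have : Continuous fun h₁ => Model.pressure n β h₁ + (h₂ - h₁) * m₀ := by fun_prop
      exact this.continuousWithinAt.tendsto
    rw [sub_zero] at t1
    refine le_of_tendsto t1 ?_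
    filter_upwards [Ioc_mem_nhdsGT h20] with h₁ hh
    exact key h₁ h₂ hh.1 hh.2 h21
  have hder : HasDerivWithinAt (Model.pressure n β) (Model.spontMag n β) (Set.Ioi 0) 0 :=
    spontMag_hasDeriv n hβ
  rw [hasDerivWithinAt_iff_tendsto_slope' (by simp)] at hder
  refine ge_of_tendsto hder ?_
  filter_upwards [Ioc_mem_nhdsGT hh₀] with h hh
  rw [slope_def_field, sub_zero, le_div_iff₀ hh.1]
  linarith [key0 h hh.1 hh.2]

/-- The spontaneous magnetization from the densities of the copies, `M → ∞` first. -/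
theorem spontMag_ge_of_rhoS {s : ℕ} (hs : 1 ≤ s) {β η h₀ : ℝ} (hβ : 0 < β) (hh₀ : 0 < h₀)
    (H : ∀ h : ℝ, 0 < h → h ≤ h₀ → ∃ n0 : ℕ, ∀ (n : ℕ) [NeZero n], n0 ≤ n → Odd n →
      ∃ M0 : ℕ, ∀ M : ℕ, M0 ≤ M → ∀ z : Tor n × Fin s,
        s * rho (edgesS n s M) β (hS fun _ => h) z ≤ η) :
    (s : ℝ) / 2 - η ≤ Model.spontMag s β := by
  have : NeZero s := ⟨by omega⟩
  have hsR : (1 : ℝ) ≤ s := by exact_mod_cast hs
  refine spontMag_ge_each s hβ hh₀ ?_
  intro h hh1 hh2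
  obtain ⟨n0, H⟩ := H h hh1 hh2
  filter_upwards [eventually_ge_atTop (max n0 1)] with N hN
  have hN1 : 1 ≤ N := le_trans (le_max_right _ _) hN
  have hN0 : n0 ≤ 2 * N + 1 := by
    have := le_trans (le_max_left _ _) hN
    omega
  have hodd : Odd (2 * N + 1) := ⟨N, rfl⟩
  obtain ⟨M0, H⟩ := H (2 * N + 1) hN0 hodd
  have hlim := tendsto_gibbsMag (n := 2 * N + 1) (s := s) (by omega) hβ h
  have hcard : (Fintype.card (Tor (2 * N + 1)) : ℝ) = (2 * (N : ℝ) + 1) ^ 3 := by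
    rw [Fintype.card_fun, ZMod.card, Fintype.card_fin]
    push_cast
    ring
  have hcard2 : (Fintype.card (Tor (2 * N + 1) × Fin s) : ℝ) = (2 * (N : ℝ) + 1) ^ 3 * s := by
    rw [Fintype.card_prod, Fintype.card_fin, Nat.cast_mul, hcard]
  rw [le_div_iff₀ (by positivity)]
  refine ge_of_tendsto hlim ?_
  filter_upwards [eventually_ge_atTop M0] with M hM
  have h2 := H M hM
  have h3 : ∀ z : Tor (2 * N + 1) × Fin s, 1 / 2 - η / s ≤
      1 / 2 - rho (edgesS (2 * N + 1) s M) β (hS fun _ => h) z := by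
    intro z
    have h4 := h2 z
    have h5 : rho (edgesS (2 * N + 1) s M) β (hS fun _ => h) z ≤ η / s := by
      rw [le_div_iff₀ (by linarith)]
      linarith
    linarith
  have h6 : ((s : ℝ) / 2 - η) * (2 * (N : ℝ) + 1) ^ 3 =
      ∑ _z : Tor (2 * N + 1) × Fin s, (1 / 2 - η / s) := by
    rw [Finset.sum_const, nsmul_eq_mul, Finset.card_univ, hcard2]
    field_simp
  rw [h6]
  exact Finset.sum_le_sum fun z _ => h3 z

/-- `ζ(3/2) > 0`. -/
theorem zeta32_pos : 0 < (riemannZeta (3 / 2)).re := by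
  have h1 : riemannZeta (3 / 2) = ((∑' n : ℕ, 1 / ((n : ℝ) + 1) ^ (3 / 2 : ℝ) : ℝ) : ℂ) := by
    have h2 := zeta_eq_tsum_one_div_nat_add_one_cpow (s := 3 / 2) (by norm_num)
    rw [h2, Complex.ofReal_tsum]
    refine tsum_congr fun n => ?_
    have h3 : ((((n : ℝ) + 1) ^ (3 / 2 : ℝ) : ℝ) : ℂ) = ((n : ℂ) + 1) ^ (3 / 2 : ℂ) := by
      rw [Complex.ofReal_cpow (by positivity)]
      push_cast
      norm_num
    rw [Complex.ofReal_div, h3, Complex.ofReal_one]
  rw [h1, Complex.ofReal_re]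
  have hs : Summable fun n : ℕ => 1 / ((n : ℝ) + 1) ^ (3 / 2 : ℝ) := by
    have := (summable_nat_add_iff 1).2 (Real.summable_one_div_nat_rpow.2
      (by norm_num : (1 : ℝ) < 3 / 2))
    simpa using this
  exact hs.tsum_pos (fun n => by positivity) 0 (by positivity)

theorem BCS_pos {s : ℕ} (hs : 1 ≤ s) : 0 < BCS s := by
  have hz := zeta32_pos
  have hsR : (0 : ℝ) < s := by exact_mod_cast hs
  unfold BCS
  positivity

/-- **(LIM_S)** -/
theorem final_limS {s : ℕ} (hs : 1 ≤ s) (hF : FinalStmt3S s) :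
    Tendsto (fun β : ℝ => β ^ (3 / 2 : ℝ) * ((s : ℝ) / 2 - Model.spontMag s β)) atTop
      (𝓝 (BCS s)) := by
  rw [tendsto_order]
  constructor
  · intro c hc
    exact Bridge.main_bloch s hs c hc
  · intro c hc
    have hB := BCS_pos hs
    set ε : ℝ := (c / BCS s - 1) / 2 with hε
    have hε0 : 0 < ε := by
      rw [hε]
      have : 1 < c / BCS s := by rwa [lt_div_iff₀ hB, one_mul]
      linarith
    obtain ⟨β0, H⟩ := hF ε hε0
    filter_upwards [eventually_ge_atTop β0, eventually_gt_atTop (0 : ℝ)] with β hβ0 hβ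
    have h1 := spontMag_ge_of_rhoS hs hβ (h₀ := β ^ (-(10 : ℝ))) (Real.rpow_pos_of_pos hβ _)
      (H β hβ0)
    have h2 : (s : ℝ) / 2 - Model.spontMag s β ≤ (1 + ε) * BCS s * β ^ (-(3 / 2) : ℝ) := by
      linarith
    have h3 : 0 < β ^ (3 / 2 : ℝ) := Real.rpow_pos_of_pos hβ _
    have h4 : β ^ (3 / 2 : ℝ) * β ^ (-(3 / 2) : ℝ) = 1 := by
      rw [← Real.rpow_add hβ]
      norm_num
    calc β ^ (3 / 2 : ℝ) * ((s : ℝ) / 2 - Model.spontMag s β) ≤
        β ^ (3 / 2 : ℝ) * ((1 + ε) * BCS s * β ^ (-(3 / 2) : ℝ)) :=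
          mul_le_mul_of_nonneg_left h2 h3.le
      _ = (1 + ε) * BCS s * (β ^ (3 / 2 : ℝ) * β ^ (-(3 / 2) : ℝ)) := by ring
      _ = (1 + ε) * BCS s := by rw [h4, mul_one]
      _ < c := by
        have h5 : c = (c / BCS s) * BCS s := by field_simp
        have h6 : 1 + ε < c / BCS s := by
          rw [hε]
          have : 1 < c / BCS s := by rwa [lt_div_iff₀ hB, one_mul]
          linarith
        calc (1 + ε) * BCS s < (c / BCS s) * BCS s := mul_lt_mul_of_pos_right h6 hB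
          _ = c := h5.symm

end Vale.Agent.P361.LRO.S3S.H784
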