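import Vale.Agent.P361.LRO.Bloch.LongLoc

/-!
P361, Bloch's law for all spins: long windows with copies, abstract part (one strand through a
block of gates).
-/

namespace Vale.Agent.P361.LRO.Bloch.H1

open Finset Matrix

set_option linter.unusedSectionVars false

noncomputable section

variable {V : Type} [Fintype V] [DecidableEq V]

/-- the matrix of one gate -/
def gm (p : ℝ) (e : V × V) : MM V := (1 - p) • (1 : MM V) + p • swapM e.1 e.2

/-- the matrix of a block of gates -/
def GM (p : ℝ) (E : List (V × V)) : MM V := wd (E.map fun e => Lt.gate e.1 e.2 p)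

theorem GM_nil (p : ℝ) : GM p ([] : List (V × V)) = 1 := by
  unfold GM wd; simp

theorem GM_cons (p : ℝ) (e : V × V) (E : List (V × V)) : GM p (e :: E) = gm p e * GM p E := by
  unfold GM wd
  simp only [List.map_cons, List.prod_cons]
  rfl

variable {p : ℝ}

theorem gm_nonneg (h0 : 0 ≤ p) (h1 : p ≤ 1) (e : V × V) : Le 0 (gm p e) :=
  gate_nonneg _ _ h0 h1

theorem GM_nonneg (h0 : 0 ≤ p) (h1 : p ≤ 1) (E : List (V × V)) : Le 0 (GM p E) := by
  induction E with
  | nil => rw [GM_nil]; exact one_nonneg
  | cons e E ih => rw [GM_cons]; exact (gm_nonneg h0 h1 e).zero_mul ih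

/-- the strand stays at `y` -/
def St (p : ℝ) (y : V) : List (V × V) → MM V
  | [] => 1
  | e :: E => (if y = e.1 ∨ y = e.2 then (1 - p) • (1 : MM V) else gm p e) * St p y E

/-- errors for the strand which stays at `y` -/
def Er (p : ℝ) (y : V) : List (V × V) → MM V → MM V
  | [], _ => 0
  | e :: E, W => (if y = e.1 ∨ y = e.2 then (p • (W * exM e.1 e.2)) * GM p E else 0) +
      Er p y E (W * gm p e)

/-- the strand moves once, from `y` to `v` -/
def Mv (p : ℝ) (y v : V) : List (V × V) → MM V
  | [] => 0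
  | e :: E => if y = e.1 ∨ y = e.2 then
      (if v = Equiv.swap e.1 e.2 y then p • (swapM e.1 e.2 * St p v E) else 0) +
        (1 - p) • Mv p y v E else gm p e * Mv p y v E

/-- number of gates between `y` and `v` -/
def cE (y v : V) : List (V × V) → ℕ
  | [] => 0
  | e :: E => (if (y = e.1 ∨ y = e.2) ∧ v = Equiv.swap e.1 e.2 y then 1 else 0) + cE y v E

/-- number of gates touching `y` -/
def nE (y : V) : List (V × V) → ℕ
  | [] => 0
  | e :: E => (if y = e.1 ∨ y = e.2 then 1 else 0) + nE y E

/-- errors for the strand which moves from `y` to `v` -/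
def ErM (p : ℝ) (y v : V) : List (V × V) → MM V → MM V
  | [], _ => 0
  | e :: E, W => (if y = e.1 ∨ y = e.2 then
      (if v = Equiv.swap e.1 e.2 y then ((1 - p) • (W * neM e.1 e.2)) * GM p E +
        Er p v E (W * gm p e) else 0) + (cE y v E : ℝ) • ((p • (W * exM e.1 e.2)) * GM p E)
      else 0) + ErM p y v E (W * gm p e)

theorem Le.ofEq {A B : MM V} (h : A = B) : Le A B := fun i j => le_of_eq (by rw [h])

theorem St_nonneg (h0 : 0 ≤ p) (h1 : p ≤ 1) (y : V) (E : List (V × V)) : Le 0 (St p y E) := by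
  induction E with
  | nil => exact one_nonneg
  | cons e E ih =>
    simp only [St]
    refine Le.zero_mul ?_ ih
    split_ifs
    · exact one_nonneg.zero_smul (by linarith)
    · exact gm_nonneg h0 h1 e

theorem Mv_nonneg (h0 : 0 ≤ p) (h1 : p ≤ 1) (y v : V) (E : List (V × V)) : Le 0 (Mv p y v E) := by
  induction E with
  | nil => exact Le.refl 0
  | cons e E ih =>
    simp only [Mv]
    split_ifs
    · exact (((swapM_nonneg _ _).zero_mul (St_nonneg h0 h1 v E)).zero_smul h0).zero_add
        (ih.zero_smul (by linarith))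
    · exact (Le.refl 0).zero_add (ih.zero_smul (by linarith))
    · exact (gm_nonneg h0 h1 e).zero_mul ih

theorem Er_nonneg (h0 : 0 ≤ p) (h1 : p ≤ 1) (y : V) (E : List (V × V)) :
    ∀ {W : MM V}, Le 0 W → Le 0 (Er p y E W) := by
  induction E with
  | nil => intro W _; exact Le.refl 0
  | cons e E ih =>
    intro W hW
    simp only [Er]
    refine Le.zero_add ?_ (ih (hW.zero_mul (gm_nonneg h0 h1 e)))
    split_ifs
    · exact ((hW.zero_mul (exM_nonneg _ _)).zero_smul h0).zero_mul (GM_nonneg h0 h1 E)
    · exact Le.refl 0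

theorem ErM_nonneg (h0 : 0 ≤ p) (h1 : p ≤ 1) (y v : V) (E : List (V × V)) :
    ∀ {W : MM V}, Le 0 W → Le 0 (ErM p y v E W) := by
  induction E with
  | nil => intro W _; exact Le.refl 0
  | cons e E ih =>
    intro W hW
    simp only [ErM]
    refine Le.zero_add ?_ (ih (hW.zero_mul (gm_nonneg h0 h1 e)))
    have h2 : Le 0 ((cE y v E : ℝ) • ((p • (W * exM e.1 e.2)) * GM p E)) :=
      (((hW.zero_mul (exM_nonneg _ _)).zero_smul h0).zero_mul (GM_nonneg h0 h1 E)).zero_smul
        (Nat.cast_nonneg _)
    split_ifs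
    · refine Le.zero_add ?_ h2
      exact (((hW.zero_mul (neM_nonneg _ _)).zero_smul (by linarith)).zero_mul
        (GM_nonneg h0 h1 E)).zero_add (Er_nonneg h0 h1 v E (hW.zero_mul (gm_nonneg h0 h1 e)))
    · exact (Le.refl 0).zero_add h2
    · exact Le.refl 0

/-- stay step -/
theorem stay_step (h0 : 0 ≤ p) (h1 : p ≤ 1) (e : V × V) {Y W R : MM V} (hY : Le 0 Y)
    (hR : Le 0 R) (h : Le (W - R) Y) :
    Le (W * gm p e - (R * gm p e + p • (W * exM e.1 e.2))) Y := by
  have hp1 : 0 ≤ 1 - p := by linarith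
  have e1 : gm p e - p • exM e.1 e.2 = (1 - p) • (1 : MM V) + p • eqM e.1 e.2 := by
    rw [gm, exM, smul_sub]; abel
  have hg0 : Le 0 (gm p e - p • exM e.1 e.2) := by
    rw [e1]
    exact (one_nonneg.zero_smul hp1).zero_add ((eqM_nonneg _ _).zero_smul h0)
  have hg1 : Le (gm p e - p • exM e.1 e.2) 1 := by
    rw [e1]
    have : Le ((1 - p) • (1 : MM V) + p • eqM e.1 e.2) ((1 - p) • (1 : MM V) + p • 1) :=
      (Le.refl _).add ((eqM_le_one _ _).smul h0)
    rwa [← add_smul, sub_add_cancel, one_smul] at this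
  have h2 := hg1.mul_left hY
  rw [Matrix.mul_one] at h2
  have h3 := h.mul_right hg0
  refine Le.trans ?_ (h3.trans h2)
  intro i k
  have h4 : 0 ≤ (R * exM e.1 e.2) i k := (hR.zero_mul (exM_nonneg _ _)) i k
  have e2 : ((W - R) * (gm p e - p • exM e.1 e.2)) i k =
      (W * gm p e) i k - p * (W * exM e.1 e.2) i k - (R * gm p e) i k +
        p * (R * exM e.1 e.2) i k := by
    rw [Matrix.sub_mul, Matrix.mul_sub, Matrix.mul_sub, Matrix.mul_smul, Matrix.mul_smul]
    simp only [Matrix.sub_apply, Matrix.smul_apply, smul_eq_mul]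
    ring
  rw [e2]
  simp only [Matrix.sub_apply, Matrix.add_apply, Matrix.smul_apply, smul_eq_mul]
  nlinarith [mul_nonneg h0 h4]

/-- move step -/
theorem move_step (h0 : 0 ≤ p) (h1 : p ≤ 1) (e : V × V) {Y W R : MM V} (hY : Le 0 Y)
    (hR : Le 0 R) (h : Le (W - R) Y) :
    Le (W * gm p e - (R * gm p e + (1 - p) • (W * neM e.1 e.2))) (Y * swapM e.1 e.2) := by
  have hp1 : 0 ≤ 1 - p := by linarith
  have e1 : gm p e - (1 - p) • neM e.1 e.2 = p • swapM e.1 e.2 + (1 - p) • eqM e.1 e.2 := by
    rw [gm, neM, smul_sub]; abel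
  have hg0 : Le 0 (gm p e - (1 - p) • neM e.1 e.2) := by
    rw [e1]
    exact ((swapM_nonneg _ _).zero_smul h0).zero_add ((eqM_nonneg _ _).zero_smul hp1)
  have hg1 : Le (gm p e - (1 - p) • neM e.1 e.2) (swapM e.1 e.2) := by
    rw [e1]
    have : Le (p • swapM e.1 e.2 + (1 - p) • eqM e.1 e.2)
        (p • swapM e.1 e.2 + (1 - p) • swapM e.1 e.2) :=
      (Le.refl _).add ((eqM_le_swapM _ _).smul hp1)
    rwa [← add_smul, add_sub_cancel, one_smul] at this
  have h2 := hg1.mul_left hY
  have h3 := h.mul_right hg0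
  refine Le.trans ?_ (h3.trans h2)
  intro i k
  have h4 : 0 ≤ (R * neM e.1 e.2) i k := (hR.zero_mul (neM_nonneg _ _)) i k
  have e2 : ((W - R) * (gm p e - (1 - p) • neM e.1 e.2)) i k =
      (W * gm p e) i k - (1 - p) * (W * neM e.1 e.2) i k - (R * gm p e) i k +
        (1 - p) * (R * neM e.1 e.2) i k := by
    rw [Matrix.sub_mul, Matrix.mul_sub, Matrix.mul_sub, Matrix.mul_smul, Matrix.mul_smul]
    simp only [Matrix.sub_apply, Matrix.smul_apply, smul_eq_mul]
    ring
  rw [e2]
  simp only [Matrix.sub_apply, Matrix.add_apply, Matrix.smul_apply, smul_eq_mul]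
  nlinarith [mul_nonneg hp1 h4]

/-- (B1) the strand which stays. -/
theorem stay_bound (h0 : 0 ≤ p) (h1 : p ≤ 1) (y : V) (E : List (V × V)) :
    ∀ {Y W R : MM V}, Le 0 Y → Le 0 W → Le 0 R → Le (W - R) Y →
      Le ((1 - p) ^ nE y E • (W * GM p E - (R * GM p E + Er p y E W))) (Y * St p y E) := by
  have hp1 : 0 ≤ 1 - p := by linarith
  induction E with
  | nil =>
    intro Y W R _ _ _ h
    simp only [nE, pow_zero, one_smul, GM_nil, Er, St, Matrix.mul_one, add_zero]
    exact h
  | cons e E ih =>
    intro Y W R hY hW hR h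
    have hg := gm_nonneg h0 h1 e
    by_cases hy : y = e.1 ∨ y = e.2
    · have h2 := stay_step h0 h1 e hY hR h
      have h3 := ih hY (hW.zero_mul hg) (((hR.zero_mul hg)).zero_add
        ((hW.zero_mul (exM_nonneg e.1 e.2)).zero_smul h0)) h2
      have h4 := h3.smul hp1
      simp only [nE, Er, St, if_pos hy, GM_cons]
      have e1 : Y * ((1 - p) • (1 : MM V) * St p y E) = (1 - p) • (Y * St p y E) := by
        rw [Matrix.smul_mul, Matrix.one_mul, Matrix.mul_smul]
      rw [e1]
      refine Le.trans (Le.ofEq ?_) h4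
      rw [smul_smul, add_comm 1, pow_succ', Matrix.add_mul]
      simp only [Matrix.mul_assoc]
      congr 1
      abel
    · have h2 : Le (W * gm p e - R * gm p e) (Y * gm p e) := by
        have := h.mul_right hg
        rwa [Matrix.sub_mul] at this
      have h3 := ih (hY.zero_mul hg) (hW.zero_mul hg) (hR.zero_mul hg) h2
      simp only [nE, Er, St, if_neg hy, GM_cons]
      rw [← Matrix.mul_assoc Y (gm p e)]
      refine Le.trans (Le.ofEq ?_) h3
      rw [zero_add, zero_add]
      simp only [Matrix.mul_assoc]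

/-- reduce the exponent -/
theorem reduce {Z X : MM V} (hZ : Le 0 Z) (h0 : 0 ≤ p) (h1 : p ≤ 1) {m K : ℕ} (hm : m ≤ K)
    (h : Le ((1 - p) ^ m • X) Z) : Le ((1 - p) ^ K • X) Z := by
  intro i k
  have h2 := h i k
  have h3 := hZ i k
  simp only [Matrix.smul_apply, smul_eq_mul, Matrix.zero_apply] at *
  rcases le_or_gt 0 (X i k) with h4 | h4
  · have : (1 - p) ^ K ≤ (1 - p) ^ m := pow_le_pow_of_le_one (by linarith) (by linarith) hm
    exact (mul_le_mul_of_nonneg_right this h4).trans h2
  · have : (1 - p) ^ K * X i k ≤ 0 :=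
      mul_nonpos_of_nonneg_of_nonpos (pow_nonneg (by linarith) _) h4.le
    linarith

/-- (B2) the strand which moves once. -/
theorem move_bound (h0 : 0 ≤ p) (h1 : p ≤ 1) (y v : V) (E : List (V × V)) :
    ∀ {K : ℕ} {Y W R : MM V}, nE y E + nE v E ≤ K → Le 0 Y → Le 0 W → Le 0 R → Le (W - R) Y →
      Le ((p * (1 - p) ^ K) • ((cE y v E : ℝ) • (W * GM p E) -
        ((cE y v E : ℝ) • (R * GM p E) + ErM p y v E W))) (Y * Mv p y v E) := by
  have hp1 : 0 ≤ 1 - p := by linarith
  induction E with
  | nil =>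
    intro K Y W R _ _ _ _ _
    simp only [cE, Nat.cast_zero, zero_smul, ErM, Mv, Matrix.mul_zero, add_zero, sub_zero,
      smul_zero]
    exact Le.refl 0
  | cons e E ih =>
    intro K Y W R hK hY hW hR h
    have hg := gm_nonneg h0 h1 e
    by_cases hy : y = e.1 ∨ y = e.2
    · simp only [nE, if_pos hy] at hK
      obtain ⟨K', rfl⟩ : ∃ K', K = K' + 1 := ⟨K - 1, by omega⟩
      have h2 := stay_step h0 h1 e hY hR h
      have h3 := ih (K := K') (by split_ifs at hK <;> omega) hY (hW.zero_mul hg)
        (((hR.zero_mul hg)).zero_add ((hW.zero_mul (exM_nonneg e.1 e.2)).zero_smul h0)) h2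
      have h4 := h3.smul hp1
      by_cases hv : v = Equiv.swap e.1 e.2 y
      · have h5 := move_step h0 h1 e hY hR h
        have h6 := stay_bound h0 h1 v E (hY.zero_mul (swapM_nonneg e.1 e.2)) (hW.zero_mul hg)
          ((hR.zero_mul hg).zero_add ((hW.zero_mul (neM_nonneg e.1 e.2)).zero_smul hp1)) h5
        have h7 := reduce ((hY.zero_mul (swapM_nonneg e.1 e.2)).zero_mul (St_nonneg h0 h1 v E))
          h0 h1 (m := nE v E) (K := K' + 1) (by split_ifs at hK <;> omega) h6
        have h8 := h7.smul h0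
        simp only [cE, Mv, ErM, if_pos hy, if_pos hv, if_pos (And.intro hy hv), GM_cons]
        have e1 : Y * (p • (swapM e.1 e.2 * St p v E) + (1 - p) • Mv p y v E) =
            p • (Y * swapM e.1 e.2 * St p v E) + (1 - p) • (Y * Mv p y v E) := by
          rw [Matrix.mul_add, Matrix.mul_smul, Matrix.mul_smul, Matrix.mul_assoc]
        rw [e1]
        refine Le.trans (fun i k => le_of_eq ?_) (h8.add h4)
        simp only [Matrix.mul_assoc, Matrix.add_mul, Matrix.smul_mul, Matrix.smul_apply,
          Matrix.sub_apply, Matrix.add_apply, smul_eq_mul]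
        push_cast
        ring
      · have hc : ¬ ((y = e.1 ∨ y = e.2) ∧ v = Equiv.swap e.1 e.2 y) := fun hh => hv hh.2
        simp only [cE, Mv, ErM, if_pos hy, if_neg hv, if_neg hc, GM_cons]
        have e1 : Y * (0 + (1 - p) • Mv p y v E) = (1 - p) • (Y * Mv p y v E) := by
          rw [zero_add, Matrix.mul_smul]
        rw [e1]
        refine Le.trans (fun i k => le_of_eq ?_) h4
        simp only [Matrix.mul_assoc, Matrix.add_mul, Matrix.smul_mul, Matrix.smul_apply,
          Matrix.sub_apply, Matrix.add_apply, smul_eq_mul, Matrix.zero_apply]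
        push_cast
        ring
    · have hc : ¬ ((y = e.1 ∨ y = e.2) ∧ v = Equiv.swap e.1 e.2 y) := fun hh => hy hh.1
      simp only [nE, if_neg hy] at hK
      have h2 : Le (W * gm p e - R * gm p e) (Y * gm p e) := by
        have := h.mul_right hg
        rwa [Matrix.sub_mul] at this
      have h3 := ih (K := K) (by split_ifs at hK <;> omega) (hY.zero_mul hg) (hW.zero_mul hg)
        (hR.zero_mul hg) h2
      simp only [cE, Mv, ErM, if_neg hy, if_neg hc, GM_cons]
      rw [← Matrix.mul_assoc Y (gm p e)]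
      refine Le.trans (fun i k => le_of_eq ?_) h3
      simp only [Matrix.mul_assoc, Matrix.smul_apply,
        Matrix.sub_apply, Matrix.add_apply, smul_eq_mul, Matrix.zero_apply]
      push_cast
      ring

/-- (B3) the strand through the block. -/
theorem strand_block (h0 : 0 ≤ p) (h1 : p ≤ 1) (E : List (V × V)) :
    ∀ y : V, Le (St p y E * sxM y + ∑ v, Mv p y v E * sxM v) (sxM y * GM p E) := by
  have hp1 : 0 ≤ 1 - p := by linarith
  induction E with
  | nil =>
    intro y
    simp only [St, Mv, GM_nil, Matrix.one_mul, Matrix.mul_one, Matrix.zero_mul,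
      Finset.sum_const_zero, add_zero]
    exact Le.refl _
  | cons e E ih =>
    intro y
    rw [GM_cons, ← Matrix.mul_assoc]
    by_cases hy : y = e.1 ∨ y = e.2
    · set y' := Equiv.swap e.1 e.2 y with hy'
      have e1 : (sxM y : MM V) * gm p e = (1 - p) • sxM y + p • (swapM e.1 e.2 * sxM y') :=
        sxM_mul_gate y e.1 e.2 p
      rw [e1, Matrix.add_mul, Matrix.smul_mul, Matrix.smul_mul, Matrix.mul_assoc]
      have h2 := (ih y).smul hp1
      have h3 : Le (St p y' E * sxM y') (sxM y' * GM p E) := by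
        refine Le.trans ?_ (ih y')
        intro i k
        have : 0 ≤ (∑ v, Mv p y' v E * sxM v) i k := by
          have := Le.zero_sum (s := univ) (f := fun v => Mv p y' v E * sxM v)
            (fun v _ => (Mv_nonneg h0 h1 y' v E).zero_mul (sxM_nonneg v)) i k
          simpa using this
        simp only [Matrix.add_apply]
        linarith
      have h4 := (h3.mul_left (swapM_nonneg e.1 e.2)).smul h0
      refine Le.trans (Le.ofEq ?_) (h2.add h4)
      simp only [St, Mv, if_pos hy]
      have e2 : ∑ v, ((if v = y' then p • (swapM e.1 e.2 * St p v E) else 0) +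
          (1 - p) • Mv p y v E) * sxM v =
          p • (swapM e.1 e.2 * (St p y' E * sxM y')) + (1 - p) • ∑ v, Mv p y v E * sxM v := by
        simp only [Matrix.add_mul, Finset.sum_add_distrib]
        congr 1
        · rw [Finset.sum_eq_single y']
          · rw [if_pos rfl, Matrix.smul_mul, Matrix.mul_assoc]
          · intro v _ hv
            rw [if_neg hv, Matrix.zero_mul]
          · intro hh
            exact absurd (Finset.mem_univ _) hh
        · rw [Finset.smul_sum]
          exact Finset.sum_congr rfl fun v _ => Matrix.smul_mul _ _ _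
      rw [e2]
      rw [Matrix.smul_mul, Matrix.smul_mul, Matrix.one_mul, smul_add]
      abel
    · have hsw : Equiv.swap e.1 e.2 y = y := by
        push Not at hy
        exact Equiv.swap_apply_of_ne_of_ne hy.1 hy.2
      have e1 : (sxM y : MM V) * gm p e = gm p e * sxM y := by
        rw [gm, Matrix.mul_add, Matrix.add_mul, Matrix.mul_smul, Matrix.mul_smul,
          Matrix.smul_mul, Matrix.smul_mul, Matrix.mul_one, Matrix.one_mul, sxM_mul_swapM, hsw]
      rw [e1, Matrix.mul_assoc]
      have h2 := (ih y).mul_left (gm_nonneg h0 h1 e)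
      refine Le.trans (Le.ofEq ?_) h2
      simp only [St, Mv, if_neg hy]
      rw [Matrix.mul_add, Finset.mul_sum]
      simp only [Matrix.mul_assoc]

/-! ### Traces of the errors -/

/-- the defects of a block -/
def HB (p : ℝ) (C : MM V) (b : ℝ) : List (V × V) → MM V → Prop
  | [], _ => True
  | e :: E, W => (trace (W * exM e.1 e.2 * GM p E * C) ≤ b ∧
      trace (W * neM e.1 e.2 * GM p E * C) ≤ b) ∧ HB p C b E (W * gm p e)

theorem Er_trace (h0 : 0 ≤ p) (y : V) {C : MM V} {b : ℝ} (hb : 0 ≤ b) (E : List (V × V)) :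
    ∀ {W : MM V}, HB p C b E W → trace (Er p y E W * C) ≤ nE y E * p * b := by
  induction E with
  | nil =>
    intro W _
    simp [Er, nE]
  | cons e E ih =>
    intro W h
    have h2 := ih h.2
    simp only [Er, nE, Matrix.add_mul, Matrix.trace_add]
    split_ifs with hy
    · have h3 := mul_le_mul_of_nonneg_left h.1.1 h0
      have e1 : trace (p • (W * exM e.1 e.2) * GM p E * C) =
          p * trace (W * exM e.1 e.2 * GM p E * C) := by
        rw [Matrix.smul_mul, Matrix.smul_mul, Matrix.trace_smul, smul_eq_mul]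
      rw [e1]
      push_cast
      nlinarith
    · rw [Matrix.zero_mul, Matrix.trace_zero]
      push_cast
      linarith

theorem ErM_trace (h0 : 0 ≤ p) (h1 : p ≤ 1) (y v : V) {C : MM V} {b : ℝ} (hb : 0 ≤ b)
    (E : List (V × V)) : ∀ {W : MM V}, HB p C b E W →
      trace (ErM p y v E W * C) ≤ cE y v E * (1 + p * (nE y E + nE v E)) * b := by
  induction E with
  | nil =>
    intro W _
    simp [ErM, cE]
  | cons e E ih =>
    intro W h
    have h2 := ih h.2
    have hp1 : 0 ≤ 1 - p := by linarith
    have hcn : (0 : ℝ) ≤ cE y v E := Nat.cast_nonneg _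
    have hn1 : (0 : ℝ) ≤ nE y E := Nat.cast_nonneg _
    have hn2 : (0 : ℝ) ≤ nE v E := Nat.cast_nonneg _
    have hpb : 0 ≤ p * b := mul_nonneg h0 hb
    simp only [ErM]
    rw [Matrix.add_mul, Matrix.trace_add]
    by_cases hy : y = e.1 ∨ y = e.2
    · have h3 := mul_le_mul_of_nonneg_left h.1.1 (mul_nonneg hcn h0)
      have e1 : trace ((cE y v E : ℝ) • (p • (W * exM e.1 e.2) * GM p E) * C) =
          cE y v E * p * trace (W * exM e.1 e.2 * GM p E * C) := by
        rw [Matrix.smul_mul, Matrix.smul_mul, Matrix.smul_mul, Matrix.trace_smul,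
          Matrix.trace_smul, smul_eq_mul, smul_eq_mul]
        ring
      by_cases hv : v = Equiv.swap e.1 e.2 y
      · have hv' : v = e.1 ∨ v = e.2 := by
          rcases hy with h | h
          · right; rw [hv, h, Equiv.swap_apply_left]
          · left; rw [hv, h, Equiv.swap_apply_right]
        have h4 := mul_le_mul_of_nonneg_left h.1.2 hp1
        have e2 : trace ((1 - p) • (W * neM e.1 e.2) * GM p E * C) =
            (1 - p) * trace (W * neM e.1 e.2 * GM p E * C) := by
          rw [Matrix.smul_mul, Matrix.smul_mul, Matrix.trace_smul, smul_eq_mul]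
        have h5 := Er_trace h0 v hb E h.2
        simp only [cE, nE, if_pos hy, if_pos hv, if_pos (And.intro hy hv), if_pos hv']
        rw [Matrix.add_mul, Matrix.add_mul, Matrix.trace_add, Matrix.trace_add, e1, e2]
        push_cast
        nlinarith [mul_nonneg hcn hpb, mul_nonneg hn1 hpb, mul_nonneg hn2 hpb,
          mul_nonneg (mul_nonneg hcn hn1) hpb, mul_nonneg (mul_nonneg hcn hn2) hpb]
      · have hc : ¬ ((y = e.1 ∨ y = e.2) ∧ v = Equiv.swap e.1 e.2 y) := fun hh => hv hh.2
        simp only [cE, nE, if_pos hy, if_neg hv, if_neg hc]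
        rw [zero_add, e1]
        have h6 : (cE y v E : ℝ) * (1 + p * (nE y E + nE v E)) * b + cE y v E * p * b ≤
            ((0 + cE y v E : ℕ) : ℝ) * (1 + p * (((1 + nE y E : ℕ) : ℝ) +
              (((if v = e.1 ∨ v = e.2 then 1 else 0) + nE v E : ℕ) : ℝ))) * b := by
          split_ifs
          · push_cast
            nlinarith [mul_nonneg hcn hpb]
          · push_cast
            nlinarith [mul_nonneg hcn hpb]
        linarith
    · have hc : ¬ ((y = e.1 ∨ y = e.2) ∧ v = Equiv.swap e.1 e.2 y) := fun hh => hy hh.1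
      simp only [cE, nE, if_neg hy, if_neg hc]
      rw [Matrix.zero_mul, Matrix.trace_zero, zero_add]
      refine h2.trans ?_
      split_ifs
      · push_cast
        nlinarith [mul_nonneg hcn hpb]
      · push_cast
        nlinarith [mul_nonneg hcn hpb]

end

end Vale.Agent.P361.LRO.Bloch.H1
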