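import Vale.Agent.P361.LRO.S3S.LongLocH
import Vale.Agent.P361.LRO.Bloch.LongCC

/-!
P361, Bloch's law for all spins: long windows with copies, abstract part (families of strands).
-/

namespace Vale.Agent.P361.LRO.Bloch.H1

open Finset Matrix

set_option linter.unusedSectionVars false

noncomputable section

variable {V : Type} [Fintype V] [DecidableEq V] {X : Type} [Fintype X] [DecidableEq X]

/-- The state of the induction. -/
structure Inv (st : V → X) (s : ℕ) (C : MM V) (B c : ℝ) (w : List (Lt V)) (Q : MM V)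
    (q : X → ℕ → ℝ) (a : ℝ) (Y W R : V → ℕ → MM V) : Prop where
  Q0 : Le 0 Q
  q0 : ∀ x j, 0 ≤ q x j
  Y0 : ∀ v j, Le 0 (Y v j)
  W0 : ∀ v j, Le 0 (W v j)
  R0 : ∀ v j, Le 0 (R v j)
  YW : ∀ v j, Le (W v j - R v j) (Y v j)
  lump : ∀ x j, ∑ v with st v = x, W v j = q x j • Q
  unif : ∀ v j, j ≠ 0 → W v j = (q (st v) j / s) • Q
  RT : ∀ x (j : ℕ), ∑ v with st v = x, trace (R v j * wd w * C) ≤ B * (a + c * j) * q x j

/-- Bounds for the defects at the gates between different sites. -/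
def HXI (st : V → X) (C : MM V) (B : ℝ) (w : List (Lt V)) (Q : MM V) : Prop :=
  ∀ w1 w2 a b p, w = w1 ++ Lt.gate a b p :: w2 → st a ≠ st b →
    trace (Q * wd w1 * exM a b * wd w2 * C) ≤ B ∧ trace (Q * wd w1 * neM a b * wd w2 * C) ≤ B

theorem HXI.tail {st : V → X} {C : MM V} {B : ℝ} {w w' : List (Lt V)} {Q : MM V}
    (h : HXI st C B (w ++ w') Q) : HXI st C B w' (Q * wd w) := by
  intro w1 w2 a b p hw hab
  have := h (w ++ w1) w2 a b p (by rw [hw, List.append_assoc]) hab
  rwa [wd_append, ← Matrix.mul_assoc] at this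

theorem W_le {st : V → X} {s : ℕ} {C : MM V} {B c : ℝ} {w : List (Lt V)} {Q : MM V}
    {q : X → ℕ → ℝ} {a : ℝ} {Y W R : V → ℕ → MM V} (h : Inv st s C B c w Q q a Y W R) (v : V)
    (j : ℕ) : Le (W v j) (q (st v) j • Q) := by
  rw [← h.lump (st v) j]
  intro i k
  rw [Matrix.sum_apply]
  exact Finset.single_le_sum (f := fun u => W u j i k) (fun u _ => h.W0 u j i k)
    (Finset.mem_filter.2 ⟨Finset.mem_univ v, rfl⟩)

/-! ### Gates between two copies of a site -/

theorem SS_intra (J : ℕ) (a b : V) (p : ℝ) (Y : V → ℕ → MM V) :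
    SS J (fun v j => (1 - p) • Y v j + p • (Y (Equiv.swap a b v) j * swapM a b)) =
      SS J Y * mt (.gate a b p) := by
  have h1 : SS J Y * mt (.gate a b p) =
      ∑ y, ((∑ j ∈ range J, (1 - p) • (Y y j * sxM y)) +
        ∑ j ∈ range J, p • (Y y j * (swapM a b * sxM (Equiv.swap a b y)))) := by
    unfold SS
    rw [Finset.sum_mul]
    refine Finset.sum_congr rfl fun y _ => ?_
    rw [Finset.sum_mul, ← Finset.sum_add_distrib]
    refine Finset.sum_congr rfl fun j _ => ?_
    show Y y j * sxM y * ((1 - p) • (1 : MM V) + p • swapM a b) = _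
    rw [Matrix.mul_assoc, sxM_mul_gate, Matrix.mul_add, Matrix.mul_smul, Matrix.mul_smul]
  have h2 : ∑ y, ∑ j ∈ range J, p • (Y y j * (swapM a b * sxM (Equiv.swap a b y))) =
      ∑ y, ∑ j ∈ range J, p • (Y (Equiv.swap a b y) j * (swapM a b * sxM y)) := by
    rw [← Equiv.sum_comp (Equiv.swap a b)
      (fun y => ∑ j ∈ range J, p • (Y y j * (swapM a b * sxM (Equiv.swap a b y))))]
    refine Finset.sum_congr rfl fun y _ => Finset.sum_congr rfl fun j _ => ?_
    rw [Equiv.swap_apply_self]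
  rw [h1, Finset.sum_add_distrib, h2, ← Finset.sum_add_distrib]
  unfold SS
  refine Finset.sum_congr rfl fun y _ => ?_
  rw [← Finset.sum_add_distrib]
  refine Finset.sum_congr rfl fun j _ => ?_
  rw [Matrix.add_mul, Matrix.smul_mul, Matrix.smul_mul, Matrix.mul_assoc]

theorem swap_st {st : V → X} {a b : V} (hab : st a = st b) (v : V) :
    st (Equiv.swap a b v) = st v := by
  rcases eq_or_ne v a with rfl | hva
  · rw [Equiv.swap_apply_left, hab]
  · rcases eq_or_ne v b with rfl | hvb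
    · rw [Equiv.swap_apply_right, hab]
    · rw [Equiv.swap_apply_of_ne_of_ne hva hvb]

theorem sum_swap_fiber {M : Type*} [AddCommMonoid M] {st : V → X} {a b : V} (hab : st a = st b)
    (x : X) (f : V → M) :
    ∑ v with st v = x, f (Equiv.swap a b v) = ∑ v with st v = x, f v := by
  refine Finset.sum_equiv (Equiv.swap a b) (fun v => ?_) (fun v _ => rfl)
  simp only [Finset.mem_filter, Finset.mem_univ, true_and]
  rw [swap_st hab]

theorem intra_step {st : V → X} {s : ℕ} {C : MM V} {B c : ℝ} {w : List (Lt V)} {Q : MM V}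
    {q : X → ℕ → ℝ} {a : ℝ} {Y W R : V → ℕ → MM V} {u v : V} {p : ℝ} (h0 : 0 ≤ p) (h1 : p ≤ 1)
    (huv : st u = st v) (h : Inv st s C B c (Lt.gate u v p :: w) Q q a Y W R) (J : ℕ) :
    ∃ Y' W' R' : V → ℕ → MM V, Inv st s C B c w (Q * mt (.gate u v p)) q a Y' W' R' ∧
      Le (SS J Y') (SS J Y * mt (.gate u v p)) := by
  have hp1 : 0 ≤ 1 - p := by linarith
  have hs := swapM_nonneg u v
  have key : ∀ {Z : V → ℕ → MM V}, (∀ v j, Le 0 (Z v j)) → ∀ y j,
      Le 0 ((1 - p) • Z y j + p • (Z (Equiv.swap u v y) j * swapM u v)) := fun hZ y j =>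
    ((hZ y j).zero_smul hp1).zero_add (((hZ _ j).zero_mul hs).zero_smul h0)
  refine ⟨fun y j => (1 - p) • Y y j + p • (Y (Equiv.swap u v y) j * swapM u v),
    fun y j => (1 - p) • W y j + p • (W (Equiv.swap u v y) j * swapM u v),
    fun y j => (1 - p) • R y j + p • (R (Equiv.swap u v y) j * swapM u v),
    ⟨h.Q0.zero_mul (gate_nonneg u v h0 h1), h.q0, key h.Y0, key h.W0, key h.R0, ?_, ?_, ?_, ?_⟩,
    Le.ofEq (SS_intra J u v p Y)⟩
  · intro y j
    have h2 := (h.YW y j).smul hp1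
    have h3 := ((h.YW (Equiv.swap u v y) j).mul_right hs).smul h0
    refine Le.trans (Le.ofEq ?_) (h2.add h3)
    rw [Matrix.sub_mul, smul_sub, smul_sub]
    abel
  · intro x j
    rw [Finset.sum_add_distrib, ← Finset.smul_sum, ← Finset.smul_sum,
      sum_swap_fiber huv x (fun y => W y j * swapM u v), ← Finset.sum_mul, h.lump x j]
    show (1 - p) • q x j • Q + p • (q x j • Q * swapM u v) =
      q x j • (Q * ((1 - p) • (1 : MM V) + p • swapM u v))
    rw [Matrix.mul_add, Matrix.mul_smul, Matrix.mul_smul, Matrix.mul_one, Matrix.smul_mul, smul_add,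
      smul_comm (1 - p) (q x j), smul_comm p (q x j)]
  · intro y j hj
    rw [h.unif y j hj, h.unif _ j hj, swap_st huv]
    show (1 - p) • (q (st y) j / s) • Q + p • ((q (st y) j / s) • Q * swapM u v) =
      (q (st y) j / s) • (Q * ((1 - p) • (1 : MM V) + p • swapM u v))
    rw [Matrix.mul_add, Matrix.mul_smul, Matrix.mul_smul, Matrix.mul_one, Matrix.smul_mul, smul_add,
      smul_comm (1 - p) (q (st y) j / s), smul_comm p (q (st y) j / s)]
  · intro x j
    refine le_trans (le_of_eq ?_) (h.RT x j)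
    have e1 : ∀ y, trace (((1 - p) • R y j + p • (R (Equiv.swap u v y) j * swapM u v)) * wd w * C) =
        (1 - p) * trace (R y j * wd w * C) +
          p * trace (R (Equiv.swap u v y) j * (swapM u v * wd w * C)) := by
      intro y
      rw [Matrix.add_mul, Matrix.add_mul, Matrix.trace_add, Matrix.smul_mul, Matrix.smul_mul,
        Matrix.smul_mul, Matrix.smul_mul, Matrix.trace_smul, Matrix.trace_smul, smul_eq_mul,
        smul_eq_mul]
      simp only [Matrix.mul_assoc]
    simp only [e1]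
    rw [Finset.sum_add_distrib, ← Finset.mul_sum, ← Finset.mul_sum,
      sum_swap_fiber huv x (fun y => trace (R y j * (swapM u v * wd w * C))), Finset.mul_sum,
      Finset.mul_sum, ← Finset.sum_add_distrib]
    refine Finset.sum_congr rfl fun y _ => ?_
    rw [wd_cons]
    show _ = trace (R y j * (((1 - p) • (1 : MM V) + p • swapM u v) * wd w) * C)
    rw [Matrix.add_mul, Matrix.mul_add, Matrix.add_mul, Matrix.trace_add, Matrix.smul_mul,
      Matrix.smul_mul, Matrix.mul_smul, Matrix.mul_smul, Matrix.smul_mul, Matrix.smul_mul,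
      Matrix.trace_smul, Matrix.trace_smul, smul_eq_mul, smul_eq_mul, Matrix.one_mul]
    simp only [Matrix.mul_assoc]

theorem intra_word {st : V → X} {s : ℕ} {C : MM V} {B c : ℝ} {p : ℝ} (h0 : 0 ≤ p) (h1 : p ≤ 1)
    (J : ℕ) (I : List (V × V)) : (∀ e ∈ I, st e.1 = st e.2) → ∀ {w : List (Lt V)} {Q : MM V}
    {q : X → ℕ → ℝ} {a : ℝ} {Y W R : V → ℕ → MM V},
    Inv st s C B c ((I.map fun e => Lt.gate e.1 e.2 p) ++ w) Q q a Y W R →
    ∃ Y' W' R' : V → ℕ → MM V,
      Inv st s C B c w (Q * wd (I.map fun e => Lt.gate e.1 e.2 p)) q a Y' W' R' ∧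
      Le (SS J Y') (SS J Y * wd (I.map fun e => Lt.gate e.1 e.2 p)) := by
  induction I with
  | nil =>
    intro _ w Q q a Y W R h
    refine ⟨Y, W, R, ?_, ?_⟩
    · simpa [wd] using h
    · simp only [wd, List.map_nil, List.prod_nil, Matrix.mul_one]
      exact Le.refl _
  | cons e I ih =>
    intro hI w Q q a Y W R h
    rw [List.map_cons, List.cons_append] at h
    obtain ⟨Y1, W1, R1, h2, h3⟩ := intra_step h0 h1 (hI e (by simp)) h J
    obtain ⟨Y2, W2, R2, h4, h5⟩ := ih (fun e' he' => hI e' (by simp [he'])) h2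
    refine ⟨Y2, W2, R2, ?_, ?_⟩
    · rw [List.map_cons, wd_cons, ← Matrix.mul_assoc]
      exact h4
    · rw [List.map_cons, wd_cons, ← Matrix.mul_assoc]
      refine h5.trans (h3.mul_right (wd_nonneg fun l hl => ?_))
      rw [List.mem_map] at hl
      obtain ⟨e', _, rfl⟩ := hl
      exact ⟨h0, h1⟩

/-! ### The slices of a layer -/

theorem node_sx {τ : ℝ} (v z : V) {t : ℝ} (h0 : 0 ≤ t) (hτ : t ≤ τ) (hτ1 : τ ≤ 1) :
    Le ((if z = v then (1 - τ) / (1 + τ) else 1) • (mt (.node z t) * sxM v : MM V))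
      (sxM v * mt (.node z t)) := by
  by_cases hz : z = v
  · subst hz
    rw [if_pos rfl]
    have hτ0 : 0 ≤ τ := h0.trans hτ
    have hr : (1 - τ) / (1 + τ) * (1 + t) ≤ 1 - t := by
      rw [div_mul_eq_mul_div, div_le_iff₀ (by linarith)]
      nlinarith
    have hr1 : (1 - τ) / (1 + τ) ≤ 1 := by
      rw [div_le_one (by linarith)]; linarith
    have hr0 : 0 ≤ (1 - τ) / (1 + τ) := div_nonneg (by linarith) (by linarith)
    intro σ ρ
    have h2 := sxM_nonneg z σ ρ
    show ((1 - τ) / (1 + τ)) * (((1 + t • szM z : MM V) * sxM z) σ ρ) ≤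
      ((sxM z : MM V) * (1 + t • szM z)) σ ρ
    rw [Matrix.add_mul, Matrix.mul_add, Matrix.one_mul, Matrix.mul_one, Matrix.smul_mul,
      Matrix.mul_smul, szM]
    simp only [Matrix.add_apply, Matrix.smul_apply, Matrix.diagonal_mul, Matrix.mul_diagonal,
      smul_eq_mul]
    by_cases hx : σ = Function.update ρ z (1 - ρ z)
    · have h3 : (sxM z : MM V) σ ρ = 1 := by simp [sxM, hx]
      rw [h3]
      have h4 : (if σ z = 0 then (1 : ℝ) else -1) = -(if ρ z = 0 then (1 : ℝ) else -1) := by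
        rw [hx, Function.update_self]
        generalize ρ z = b
        fin_cases b <;> simp
      rw [h4]
      split_ifs
      · nlinarith
      · nlinarith
    · have h3 : (sxM z : MM V) σ ρ = 0 := by simp [sxM, hx]
      rw [h3]
      simp
  · rw [if_neg hz, one_smul]
    refine Le.ofEq ?_
    show (1 + t • szM z : MM V) * sxM v = sxM v * (1 + t • szM z)
    rw [Matrix.mul_add, Matrix.add_mul, Matrix.mul_one, Matrix.one_mul, Matrix.mul_smul,
      Matrix.smul_mul, sxM_mul_szM (Ne.symm hz)]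

theorem nodes_sx {τ : ℝ} (hτ0 : 0 ≤ τ) (hτ1 : τ ≤ 1) (v : V) {t : V → ℝ} (h0 : ∀ z, 0 ≤ t z)
    (hτ : ∀ z, t z ≤ τ) (l : List V) :
    Le (((1 - τ) / (1 + τ)) ^ l.count v • (wd (l.map fun z => Lt.node z (t z)) * sxM v))
      (sxM v * wd (l.map fun z => Lt.node z (t z))) := by
  induction l with
  | nil =>
    simp only [List.map_nil, List.count_nil, pow_zero, one_smul]
    unfold wd
    simp only [List.map_nil, List.prod_nil, Matrix.one_mul, Matrix.mul_one]
    exact Le.refl _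
  | cons z l ih =>
    have hr0 : 0 ≤ (1 - τ) / (1 + τ) := div_nonneg (by linarith) (by linarith)
    rw [List.map_cons, wd_cons, ← Matrix.mul_assoc]
    have hwn : Le 0 (wd (l.map fun z => Lt.node z (t z))) := wd_nonneg fun l' hl' => by
      rw [List.mem_map] at hl'
      obtain ⟨z', _, rfl⟩ := hl'
      exact ⟨h0 z', (hτ z').trans hτ1⟩
    have h2 := (node_sx v z (h0 z) (hτ z) hτ1).mul_right hwn
    refine Le.trans ?_ h2
    have hmn : Le 0 (mt (.node z (t z)) : MM V) := node_nonneg z (h0 z) ((hτ z).trans hτ1)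
    have h3 := (ih.mul_left hmn).smul (c := if z = v then (1 - τ) / (1 + τ) else 1)
      (by split_ifs <;> [exact hr0; norm_num])
    refine Le.trans (Le.ofEq ?_) (h3.trans (Le.ofEq ?_))
    · rw [List.count_cons, Matrix.mul_smul, smul_smul, Matrix.mul_assoc]
      congr 1
      by_cases hz : z = v
      · simp [hz, pow_succ']
      · simp [hz]
    · rw [Matrix.smul_mul, Matrix.mul_assoc]

theorem slices_step {st : V → X} {s : ℕ} {C : MM V} {B c : ℝ} {w : List (Lt V)} {Q : MM V}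
    {q : X → ℕ → ℝ} {a : ℝ} {Y W R : V → ℕ → MM V} {τ : ℝ} (hτ0 : 0 ≤ τ) (hτ1 : τ ≤ 1)
    {t : V → ℝ} (h0 : ∀ z, 0 ≤ t z) (hτ : ∀ z, t z ≤ τ)
    (h : Inv st s C B c (nl t ++ w) Q q a Y W R) (J : ℕ) :
    ∃ Y' W' R' : V → ℕ → MM V, Inv st s C B c w (Q * wd (nl t))
      (fun x j => (1 - τ) / (1 + τ) * q x j) a Y' W' R' ∧
      Le (SS J Y') (SS J Y * wd (nl t)) := by
  have hr0 : 0 ≤ (1 - τ) / (1 + τ) := div_nonneg (by linarith) (by linarith)
  have hN : Le 0 (wd (nl t)) := wd_nonneg (ok_nl fun z => ⟨h0 z, (hτ z).trans hτ1⟩)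
  set r := (1 - τ) / (1 + τ) with hr
  refine ⟨fun v j => r • (Y v j * wd (nl t)), fun v j => r • (W v j * wd (nl t)),
    fun v j => r • (R v j * wd (nl t)), ⟨h.Q0.zero_mul hN, fun x j => mul_nonneg hr0 (h.q0 x j),
    fun v j => ((h.Y0 v j).zero_mul hN).zero_smul hr0,
    fun v j => ((h.W0 v j).zero_mul hN).zero_smul hr0,
    fun v j => ((h.R0 v j).zero_mul hN).zero_smul hr0, ?_, ?_, ?_, ?_⟩, ?_⟩
  · intro v j
    have h2 := ((h.YW v j).mul_right hN).smul hr0
    refine Le.trans (Le.ofEq ?_) h2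
    rw [Matrix.sub_mul, smul_sub]
  · intro x j
    rw [← Finset.smul_sum, ← Finset.sum_mul, h.lump x j, Matrix.smul_mul, smul_smul]
  · intro v j hj
    rw [h.unif v j hj, Matrix.smul_mul, smul_smul, mul_div_assoc]
  · intro x j
    have h2 := mul_le_mul_of_nonneg_left (h.RT x j) hr0
    refine le_trans (le_of_eq ?_) (h2.trans (le_of_eq ?_))
    · rw [Finset.mul_sum]
      refine Finset.sum_congr rfl fun v _ => ?_
      rw [Matrix.smul_mul, Matrix.smul_mul, Matrix.trace_smul, smul_eq_mul, wd_append]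
      simp only [Matrix.mul_assoc]
    · ring
  · unfold SS
    rw [Finset.sum_mul]
    refine Le.sum fun v _ => ?_
    rw [Finset.sum_mul]
    refine Le.sum fun j _ => ?_
    have h2 := nodes_sx hτ0 hτ1 v h0 hτ (Finset.univ : Finset V).toList
    rw [List.count_eq_one_of_mem (Finset.nodup_toList _)
      (Finset.mem_toList.2 (Finset.mem_univ v)), pow_one] at h2
    have h3 := h2.mul_left (h.Y0 v j)
    refine Le.trans (Le.ofEq ?_) (h3.trans (Le.ofEq ?_))
    · rw [Matrix.smul_mul, Matrix.mul_smul, Matrix.mul_assoc]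
      rfl
    · rw [Matrix.mul_assoc]
      rfl

end

end Vale.Agent.P361.LRO.Bloch.H1
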