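import Vale.Agent.P361.LRO.S3S.LongLocH2

/-!
P361, Bloch's law for all spins: long windows with copies, abstract part (one block of gates
between different sites).
-/

namespace Vale.Agent.P361.LRO.Bloch.H1

open Finset Matrix

set_option linter.unusedSectionVars false

noncomputable section

variable {V : Type} [Fintype V] [DecidableEq V] {X : Type} [Fintype X] [DecidableEq X]

theorem HB_of_HXI {st : V → X} {C : MM V} {B p : ℝ} {w : List (Lt V)} (E : List (V × V))
    (hE : ∀ e ∈ E, st e.1 ≠ st e.2) : ∀ {Q : MM V},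
    HXI st C B ((E.map fun e => Lt.gate e.1 e.2 p) ++ w) Q → HB p (wd w * C) B E Q := by
  induction E with
  | nil => intro Q _; trivial
  | cons e E ih =>
    intro Q h
    refine ⟨?_, ?_⟩
    · have h2 := h [] ((E.map fun e => Lt.gate e.1 e.2 p) ++ w) e.1 e.2 p rfl (hE e (by simp))
      have e1 : wd ([] : List (Lt V)) = 1 := by simp [wd]
      rw [e1, Matrix.mul_one, wd_append] at h2
      have e2 : wd (E.map fun e => Lt.gate e.1 e.2 p) = GM p E := rfl
      rw [e2] at h2
      simp only [Matrix.mul_assoc] at h2 ⊢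
      exact h2
    · refine ih (fun e' he' => hE e' (by simp [he'])) ?_
      have h3 : HXI st C B ([Lt.gate e.1 e.2 p] ++ ((E.map fun e => Lt.gate e.1 e.2 p) ++ w)) Q :=
        h
      have h4 := h3.tail
      have e3 : wd [Lt.gate e.1 e.2 p] = gm p e := by
        unfold wd
        rw [List.map_cons, List.map_nil, List.prod_cons, List.prod_nil, mul_one]
        rfl
      rwa [e3] at h4

theorem HB_mono {C' : MM V} (hC : Le 0 C') {B p κ : ℝ} (h0 : 0 ≤ p) (h1 : p ≤ 1) (hκ : 0 ≤ κ)
    (E : List (V × V)) : ∀ {Q W : MM V}, HB p C' B E Q → Le W (κ • Q) →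
    HB p C' (κ * B) E W := by
  induction E with
  | nil => intro Q W _ _; trivial
  | cons e E ih =>
    intro Q W h hW
    have key : ∀ D : MM V, Le 0 D → trace (Q * D * GM p E * C') ≤ B →
        trace (W * D * GM p E * C') ≤ κ * B := by
      intro D hD hb
      have h2 := (((hW.mul_right hD).mul_right (GM_nonneg h0 h1 E)).mul_right hC).trace
      refine h2.trans ?_
      rw [Matrix.smul_mul, Matrix.smul_mul, Matrix.smul_mul, Matrix.trace_smul, smul_eq_mul]
      exact mul_le_mul_of_nonneg_left hb hκ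
    refine ⟨⟨key _ (exM_nonneg _ _) h.1.1, key _ (neM_nonneg _ _) h.1.2⟩, ih h.2 ?_⟩
    have := hW.mul_right (gm_nonneg h0 h1 e)
    rwa [Matrix.smul_mul] at this

/-- sums over neighbours -/
theorem sum_cE {M : Type*} [AddCommGroup M] [Module ℝ M] {st : V → X} {E : List (V × V)}
    {cX : X → X → ℕ} (hc : ∀ y v, cE y v E = cX (st y) (st v)) (v : V) (Z : V → M) :
    ∑ y, (cE y v E : ℝ) • Z y =
      ∑ x', (cX x' (st v) : ℝ) • ∑ y with st y = x', Z y := by
  rw [← Finset.sum_fiberwise (Finset.univ : Finset V) st]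
  refine Finset.sum_congr rfl fun x' _ => ?_
  rw [Finset.smul_sum]
  refine Finset.sum_congr rfl fun y hy => ?_
  rw [hc, (Finset.mem_filter.1 hy).2]

theorem sum_cE2 {M : Type*} [AddCommGroup M] [Module ℝ M] {st : V → X} {s : ℕ}
    (hs : ∀ x, (univ.filter fun v => st v = x).card = s) {E : List (V × V)}
    {cX : X → X → ℕ} (hc : ∀ y v, cE y v E = cX (st y) (st v)) (x : X) (Z : V → M) :
    ∑ v with st v = x, ∑ y, (cE y v E : ℝ) • Z y =
      (s : ℝ) • ∑ x', (cX x' x : ℝ) • ∑ y with st y = x', Z y := by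
  rw [Finset.sum_congr rfl (g := fun _ => ∑ x', (cX x' x : ℝ) • ∑ y with st y = x', Z y)
    fun v hv => by rw [sum_cE hc v Z, (Finset.mem_filter.1 hv).2]]
  rw [Finset.sum_const, hs x, Nat.cast_smul_eq_nsmul]

/-- **One block of gates between different sites.** -/
theorem inter_block {st : V → X} {s : ℕ} (hs : ∀ x, (univ.filter fun v => st v = x).card = s)
    {C : MM V} (hC : Le 0 C) {B : ℝ} (hB : 0 ≤ B) {c : ℝ} {p : ℝ} (h0 : 0 ≤ p) (h1 : p ≤ 1)
    {D : ℕ} (E : List (V × V)) (hE : ∀ e ∈ E, st e.1 ≠ st e.2) (hD : ∀ v, nE v E ≤ D)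
    (cX : X → X → ℕ) (hc : ∀ y v, cE y v E = cX (st y) (st v))
    (hcc : s * (1 + 2 * D * p) ≤ c) {w : List (Lt V)} (hw : ∀ l ∈ w, Ok l) {Q : MM V}
    {q : X → ℕ → ℝ} {a : ℝ} {Y W R : V → ℕ → MM V}
    (hX : HXI st C B ((E.map fun e => Lt.gate e.1 e.2 p) ++ w) Q)
    (h : Inv st s C B c ((E.map fun e => Lt.gate e.1 e.2 p) ++ w) Q q a Y W R) (J : ℕ) :
    ∃ Y' W' R' : V → ℕ → MM V, Inv st s C B c w (Q * GM p E)
      (fun x j => (1 - p) ^ D * q x j + s * p * (1 - p) ^ (2 * D) *
        (if j = 0 then 0 else ∑ x', (cX x' x : ℝ) * q x' (j - 1))) (a + s * D * p) Y' W' R' ∧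
      Le (SS J Y') (SS J Y * GM p E) := by
  have hp1 : 0 ≤ 1 - p := by linarith
  have hG := GM_nonneg h0 h1 E
  set G := GM p E with hGdef
  have hPD : 0 ≤ (1 - p) ^ D := pow_nonneg hp1 _
  set κ : ℝ := p * (1 - p) ^ (2 * D) with hκ
  have hκ0 : 0 ≤ κ := mul_nonneg h0 (pow_nonneg hp1 _)
  have hwC : Le 0 (wd w * C) := (wd_nonneg hw).zero_mul hC
  have hwd : wd ((E.map fun e => Lt.gate e.1 e.2 p) ++ w) = G * wd w := by
    rw [wd_append]; rfl
  have hHB := HB_of_HXI E hE hX
  have hHBW : ∀ v j, HB p (wd w * C) (q (st v) j * B) E (W v j) := fun v j =>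
    HB_mono hwC h0 h1 (h.q0 _ _) E hHB (W_le h v j)
  have hqB : ∀ x j, 0 ≤ q x j * B := fun x j => mul_nonneg (h.q0 x j) hB
  have hDr : ∀ v, (nE v E : ℝ) ≤ D := fun v => by exact_mod_cast hD v
  have hEr : ∀ v j, trace (Er p v E (W v j) * (wd w * C)) ≤ D * p * (q (st v) j * B) := by
    intro v j
    refine (Er_trace h0 v (hqB _ _) E (hHBW v j)).trans ?_
    exact mul_le_mul_of_nonneg_right (mul_le_mul_of_nonneg_right (hDr v) h0) (hqB _ _)
  have hErM : ∀ y v j, trace (ErM p y v E (W y j) * (wd w * C)) ≤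
      (cE y v E : ℝ) * ((1 + 2 * D * p) * (q (st y) j * B)) := by
    intro y v j
    refine (ErM_trace h0 h1 y v (hqB _ _) E (hHBW y j)).trans ?_
    rw [mul_assoc]
    refine mul_le_mul_of_nonneg_left ?_ (Nat.cast_nonneg _)
    refine mul_le_mul_of_nonneg_right ?_ (hqB _ _)
    nlinarith [hDr y, hDr v]
  refine ⟨fun v j => Y v j * St p v E + (if j = 0 then 0 else ∑ y, Y y (j - 1) * Mv p y v E),
    fun v j => (1 - p) ^ D • (W v j * G) +
      (if j = 0 then 0 else κ • ∑ y, (cE y v E : ℝ) • (W y (j - 1) * G)),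
    fun v j => (1 - p) ^ D • (R v j * G + Er p v E (W v j)) +
      (if j = 0 then 0 else κ • ∑ y, ((cE y v E : ℝ) • (R y (j - 1) * G) +
        ErM p y v E (W y (j - 1)))), ⟨h.Q0.zero_mul hG, ?_, ?_, ?_, ?_, ?_, ?_, ?_, ?_⟩, ?_⟩
  · -- q
    intro x j
    refine add_nonneg (mul_nonneg hPD (h.q0 x j)) (mul_nonneg (mul_nonneg (mul_nonneg
      (Nat.cast_nonneg _) h0) (pow_nonneg hp1 _)) ?_)
    split_ifs
    · exact le_rfl
    · exact Finset.sum_nonneg fun x' _ => mul_nonneg (Nat.cast_nonneg _) (h.q0 _ _)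
  · -- Y
    intro v j
    refine ((h.Y0 v j).zero_mul (St_nonneg h0 h1 v E)).zero_add ?_
    split_ifs
    · exact Le.refl 0
    · exact Le.zero_sum fun y _ => (h.Y0 _ _).zero_mul (Mv_nonneg h0 h1 _ _ E)
  · -- W
    intro v j
    refine (((h.W0 v j).zero_mul hG).zero_smul hPD).zero_add ?_
    split_ifs
    · exact Le.refl 0
    · exact (Le.zero_sum fun y _ => ((h.W0 _ _).zero_mul hG).zero_smul
        (Nat.cast_nonneg _)).zero_smul hκ0
  · -- R
    intro v j
    refine ((((h.R0 v j).zero_mul hG).zero_add (Er_nonneg h0 h1 v E (h.W0 v j))).zero_smul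
      hPD).zero_add ?_
    split_ifs
    · exact Le.refl 0
    · exact (Le.zero_sum fun y _ => (((h.R0 _ _).zero_mul hG).zero_smul
        (Nat.cast_nonneg _)).zero_add (ErM_nonneg h0 h1 y v E (h.W0 _ _))).zero_smul hκ0
  · -- YW
    intro v j
    have h2 := reduce ((h.Y0 v j).zero_mul (St_nonneg h0 h1 v E)) h0 h1 (hD v)
      (stay_bound h0 h1 v E (h.Y0 v j) (h.W0 v j) (h.R0 v j) (h.YW v j))
    by_cases hj : j = 0
    · simp only [if_pos hj, add_zero]
      refine Le.trans (Le.ofEq ?_) h2
      rw [← smul_sub]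
    · simp only [if_neg hj]
      have h3 : Le (∑ y, κ • ((cE y v E : ℝ) • (W y (j - 1) * G) -
          ((cE y v E : ℝ) • (R y (j - 1) * G) + ErM p y v E (W y (j - 1)))))
          (∑ y, Y y (j - 1) * Mv p y v E) := by
        refine Le.sum fun y _ => ?_
        exact move_bound h0 h1 y v E (K := 2 * D) (by have := hD y; have := hD v; omega)
          (h.Y0 _ _) (h.W0 _ _) (h.R0 _ _) (h.YW _ _)
      refine Le.trans (Le.ofEq ?_) (h2.add h3)
      rw [← Finset.smul_sum, Finset.sum_sub_distrib, smul_sub, smul_sub]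
      abel
  · -- lump
    intro x j
    rw [Finset.sum_add_distrib, ← Finset.smul_sum, ← Finset.sum_mul, h.lump x j]
    by_cases hj : j = 0
    · simp only [if_pos hj, Finset.sum_const_zero, add_zero, mul_zero]
      rw [Matrix.smul_mul, smul_smul]
    · simp only [if_neg hj]
      rw [← Finset.smul_sum, sum_cE2 hs hc x]
      have e1 : ∀ x', ∑ y with st y = x', W y (j - 1) * G = q x' (j - 1) • (Q * G) := by
        intro x'
        rw [← Finset.sum_mul, h.lump x' (j - 1), Matrix.smul_mul]
      simp only [e1]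
      have e2 : ∑ x', (cX x' x : ℝ) • q x' (j - 1) • (Q * G) =
          (∑ x', (cX x' x : ℝ) * q x' (j - 1)) • (Q * G) := by
        rw [Finset.sum_smul]
        exact Finset.sum_congr rfl fun x' _ => by rw [mul_smul]
      rw [e2, smul_smul, smul_smul, Matrix.smul_mul, smul_smul, ← add_smul]
      congr 1
      rw [hκ]
      ring
  · -- unif
    intro v j hj
    have hs0 : (s : ℝ) ≠ 0 := by
      have : 0 < s := by
        rw [← hs (st v)]
        exact Finset.card_pos.2 ⟨v, Finset.mem_filter.2 ⟨Finset.mem_univ v, rfl⟩⟩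
      positivity
    simp only [if_neg hj]
    rw [h.unif v j hj, sum_cE hc v]
    have e1 : ∀ x', ∑ y with st y = x', W y (j - 1) * G = q x' (j - 1) • (Q * G) := by
      intro x'
      rw [← Finset.sum_mul, h.lump x' (j - 1), Matrix.smul_mul]
    simp only [e1]
    have e2 : ∑ x', (cX x' (st v) : ℝ) • q x' (j - 1) • (Q * G) =
        (∑ x', (cX x' (st v) : ℝ) * q x' (j - 1)) • (Q * G) := by
      rw [Finset.sum_smul]
      exact Finset.sum_congr rfl fun x' _ => by rw [mul_smul]
    rw [e2, Matrix.smul_mul, smul_smul, smul_smul, ← add_smul]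
    congr 1
    rw [hκ]
    field_simp
  · -- RT
    intro x j
    have e0 : ∀ v, trace (((1 - p) ^ D • (R v j * G + Er p v E (W v j)) +
        (if j = 0 then 0 else κ • ∑ y, ((cE y v E : ℝ) • (R y (j - 1) * G) +
        ErM p y v E (W y (j - 1))))) * wd w * C) =
        (1 - p) ^ D * (trace (R v j * wd ((E.map fun e => Lt.gate e.1 e.2 p) ++ w) * C) +
          trace (Er p v E (W v j) * (wd w * C))) +
        (if j = 0 then 0 else κ * (∑ y, ((cE y v E : ℝ) •
          trace (R y (j - 1) * wd ((E.map fun e => Lt.gate e.1 e.2 p) ++ w) * C)) +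
          ∑ y, trace (ErM p y v E (W y (j - 1)) * (wd w * C)))) := by
      intro v
      rw [Matrix.mul_assoc _ (wd w) C, Matrix.add_mul, Matrix.trace_add, Matrix.smul_mul,
        Matrix.trace_smul, smul_eq_mul, Matrix.add_mul, Matrix.trace_add, hwd]
      congr 1
      · simp only [Matrix.mul_assoc]
      · by_cases hj : j = 0
        · simp only [if_pos hj, Matrix.zero_mul, Matrix.trace_zero]
        · simp only [if_neg hj]
          rw [Matrix.smul_mul, Matrix.trace_smul, smul_eq_mul, Finset.sum_mul, Matrix.trace_sum,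
            ← Finset.sum_add_distrib]
          congr 1
          refine Finset.sum_congr rfl fun y _ => ?_
          rw [Matrix.add_mul, Matrix.trace_add, Matrix.smul_mul, Matrix.trace_smul]
          simp only [Matrix.mul_assoc]
    simp only [e0]
    rw [Finset.sum_add_distrib, ← Finset.mul_sum, Finset.sum_add_distrib]
    have hst := h.RT x j
    have hEs : ∑ v with st v = x, trace (Er p v E (W v j) * (wd w * C)) ≤
        s * (D * p * (q x j * B)) := by
      refine (Finset.sum_le_sum fun v _ => hEr v j).trans (le_of_eq ?_)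
      rw [Finset.sum_congr rfl (g := fun _ => D * p * (q x j * B)) fun v hv => by
        rw [(Finset.mem_filter.1 hv).2], Finset.sum_const, hs x, nsmul_eq_mul]
    have h4 := mul_le_mul_of_nonneg_left (add_le_add hst hEs) hPD
    by_cases hj : j = 0
    · simp only [if_pos hj, Finset.sum_const_zero, add_zero, mul_zero]
      refine h4.trans (le_of_eq ?_)
      ring
    · simp only [if_neg hj]
      rw [← Finset.mul_sum, Finset.sum_add_distrib, sum_cE2 hs hc x]
      have hj1 : ((j - 1 : ℕ) : ℝ) = (j : ℝ) - 1 := by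
        rw [Nat.cast_sub (Nat.one_le_iff_ne_zero.2 hj)]; simp
      set S : ℝ := ∑ x', (cX x' x : ℝ) * q x' (j - 1) with hS
      have hS0 : 0 ≤ S :=
        Finset.sum_nonneg fun x' _ => mul_nonneg (Nat.cast_nonneg _) (h.q0 _ _)
      have h5 : ∑ x', (cX x' x : ℝ) • ∑ y with st y = x',
          trace (R y (j - 1) * wd ((E.map fun e => Lt.gate e.1 e.2 p) ++ w) * C) ≤
          B * (a + c * (j - 1)) * S := by
        rw [hS, Finset.mul_sum]
        refine Finset.sum_le_sum fun x' _ => ?_
        have h6 := h.RT x' (j - 1)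
        rw [hj1] at h6
        rw [smul_eq_mul]
        have h7 := mul_le_mul_of_nonneg_left h6 (Nat.cast_nonneg (α := ℝ) (cX x' x))
        linarith
      have h8 : ∑ v with st v = x, ∑ y, trace (ErM p y v E (W y (j - 1)) * (wd w * C)) ≤
          s * (s * ((1 + 2 * D * p) * B) * S) := by
        refine (Finset.sum_le_sum fun v _ => Finset.sum_le_sum fun y _ => hErM y v (j - 1)).trans
          (le_of_eq ?_)
        have e3 : ∀ v, ∑ y, (cE y v E : ℝ) * ((1 + 2 * D * p) * (q (st y) (j - 1) * B)) =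
            ∑ y, (cE y v E : ℝ) • ((1 + 2 * D * p) * (q (st y) (j - 1) * B)) := fun v => rfl
        simp only [e3]
        rw [sum_cE2 hs hc x, smul_eq_mul]
        congr 1
        rw [hS, Finset.mul_sum]
        refine Finset.sum_congr rfl fun x' _ => ?_
        rw [Finset.sum_congr rfl (g := fun _ => (1 + 2 * D * p) * (q x' (j - 1) * B))
          fun y hy => by rw [(Finset.mem_filter.1 hy).2], Finset.sum_const, hs x', nsmul_eq_mul,
          smul_eq_mul]
        ring
      have h9 := mul_le_mul_of_nonneg_left (add_le_add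
        (mul_le_mul_of_nonneg_left h5 (Nat.cast_nonneg (α := ℝ) s)) h8) hκ0
      have h10 := add_le_add h4 h9
      rw [smul_eq_mul]
      refine h10.trans ?_
      have hk : 0 ≤ κ * s * B * S :=
        mul_nonneg (mul_nonneg (mul_nonneg hκ0 (Nat.cast_nonneg _)) hB) hS0
      have h11 : κ * s * B * S * (a + c * (j - 1) + s * (1 + 2 * D * p)) ≤
          κ * s * B * S * (a + s * D * p + c * j) := by
        refine mul_le_mul_of_nonneg_left ?_ hk
        have : 0 ≤ (s : ℝ) * D * p := by positivity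
        linarith
      have e4 : (s : ℝ) * p * (1 - p) ^ (2 * D) = κ * s := by rw [hκ]; ring
      rw [e4]
      nlinarith [h11]
  · -- SS
    have hF : ∀ j, Le 0 (∑ v, ∑ y, Y y j * Mv p y v E * sxM v) := fun j =>
      Le.zero_sum fun v _ => Le.zero_sum fun y _ =>
        ((h.Y0 _ _).zero_mul (Mv_nonneg h0 h1 _ _ E)).zero_mul (sxM_nonneg v)
    have e1 : SS J (fun v j => Y v j * St p v E +
        (if j = 0 then 0 else ∑ y, Y y (j - 1) * Mv p y v E)) =
        (∑ j ∈ range J, ∑ v, Y v j * St p v E * sxM v) +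
        ∑ j ∈ range J, (if j = 0 then 0 else
          (fun j => ∑ v, ∑ y, Y y j * Mv p y v E * sxM v) (j - 1)) := by
      unfold SS
      rw [Finset.sum_comm, ← Finset.sum_add_distrib]
      refine Finset.sum_congr rfl fun j _ => ?_
      by_cases hj : j = 0
      · simp only [if_pos hj, add_zero]
      · simp only [if_neg hj]
        rw [← Finset.sum_add_distrib]
        refine Finset.sum_congr rfl fun v _ => ?_
        rw [Matrix.add_mul, Finset.sum_mul]
    rw [e1]
    refine Le.trans ((Le.refl _).add (shift_le hF J)) ?_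
    rw [← Finset.sum_add_distrib]
    have e2 : SS J Y * G = ∑ j ∈ range J, ∑ y, Y y j * (sxM y * G) := by
      unfold SS
      rw [Finset.sum_comm, Finset.sum_mul]
      refine Finset.sum_congr rfl fun j _ => ?_
      rw [Finset.sum_mul]
      exact Finset.sum_congr rfl fun y _ => by rw [Matrix.mul_assoc]
    rw [e2]
    refine Le.sum fun j _ => ?_
    rw [Finset.sum_comm (f := fun v y => Y y j * Mv p y v E * sxM v), ← Finset.sum_add_distrib]
    refine Le.sum fun y _ => ?_
    have h2 := (strand_block h0 h1 E y).mul_left (h.Y0 y j)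
    refine Le.trans (Le.ofEq ?_) h2
    rw [Matrix.mul_add, Finset.mul_sum]
    simp only [Matrix.mul_assoc]

end

end Vale.Agent.P361.LRO.Bloch.H1
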