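import Vale.Agent.P361.LRO.S3S.LongLocH3

/-!
P361, Bloch's law for all spins: long windows with copies, the word induction.
-/

namespace Vale.Agent.P361.LRO.Bloch.H1

open Finset Matrix

set_option linter.unusedSectionVars false

noncomputable section

variable {V : Type} [Fintype V] [DecidableEq V] {X : Type} [Fintype X] [DecidableEq X]

/-- the weights after one more layer -/
def stepQ (s D : ℕ) (p : ℝ) (cX : X → X → ℕ) (q : X → ℕ → ℝ) : X → ℕ → ℝ := fun x j =>
  (1 - p) ^ D * q x j + s * p * (1 - p) ^ (2 * D) *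
    (if j = 0 then 0 else ∑ x', (cX x' x : ℝ) * q x' (j - 1))

theorem stepQ_smul (s D : ℕ) (p : ℝ) (cX : X → X → ℕ) (κ : ℝ) (q : X → ℕ → ℝ) :
    stepQ s D p cX (fun x j => κ * q x j) = fun x j => κ * stepQ s D p cX q x j := by
  funext x j
  unfold stepQ
  split_ifs
  · ring
  · rw [mul_add, Finset.mul_sum, Finset.mul_sum, Finset.mul_sum]
    congr 1
    · ring
    · exact Finset.sum_congr rfl fun x' _ => by ring

theorem ok_gates {p : ℝ} (h0 : 0 ≤ p) (h1 : p ≤ 1) (E : List (V × V)) :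
    ∀ l ∈ E.map (fun e => Lt.gate e.1 e.2 p), Ok l := by
  intro l hl
  rw [List.mem_map] at hl
  obtain ⟨e, _, rfl⟩ := hl
  exact ⟨h0, h1⟩

theorem gl_step {st : V → X} {s : ℕ} (hs : ∀ x, (univ.filter fun v => st v = x).card = s)
    {C : MM V} (hC : Le 0 C) {B : ℝ} (hB : 0 ≤ B) {c : ℝ} {p : ℝ} (h0 : 0 ≤ p) (h1 : p ≤ 1)
    {D : ℕ} {E I : List (V × V)} (hE : ∀ e ∈ E, st e.1 ≠ st e.2) (hI : ∀ e ∈ I, st e.1 = st e.2)
    (hD : ∀ v, nE v E ≤ D) {cX : X → X → ℕ} (hc : ∀ y v, cE y v E = cX (st y) (st v))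
    (hcc : s * (1 + 2 * D * p) ≤ c) {L : List (V × V)}
    (hgl : gl L p = (I.map fun e => Lt.gate e.1 e.2 p) ++ (E.map fun e => Lt.gate e.1 e.2 p))
    (J : ℕ) {w : List (Lt V)} (hw : ∀ l ∈ w, Ok l) {Q : MM V}
    {q : X → ℕ → ℝ} {a : ℝ} {Y W R : V → ℕ → MM V}
    (hX : HXI st C B (gl L p ++ w) Q) (h : Inv st s C B c (gl L p ++ w) Q q a Y W R) :
    ∃ Y' W' R' : V → ℕ → MM V, Inv st s C B c w (Q * wd (gl L p))
      (stepQ s D p cX q) (a + s * D * p) Y' W' R' ∧ Le (SS J Y') (SS J Y * wd (gl L p)) := by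
  rw [hgl, List.append_assoc] at h hX
  obtain ⟨Y1, W1, R1, h2, h3⟩ := intra_word h0 h1 J I hI h
  obtain ⟨Y2, W2, R2, h4, h5⟩ := inter_block hs hC hB h0 h1 E hE hD cX hc hcc hw hX.tail h2 J
  have e1 : ∀ M : MM V, M * wd (gl L p) = M * wd (I.map fun e => Lt.gate e.1 e.2 p) * GM p E := by
    intro M
    rw [hgl, wd_append, Matrix.mul_assoc]
    rfl
  refine ⟨Y2, W2, R2, ?_, ?_⟩
  · rw [e1]
    exact h4
  · rw [e1]
    exact h5.trans (h3.mul_right (GM_nonneg h0 h1 E))

theorem mid_ind {st : V → X} {s : ℕ} (hs : ∀ x, (univ.filter fun v => st v = x).card = s)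
    {C : MM V} (hC : Le 0 C) {B : ℝ} (hB : 0 ≤ B) {c : ℝ} {p : ℝ} (h0 : 0 ≤ p) (h1 : p ≤ 1)
    {D : ℕ} {E I : List (V × V)} (hE : ∀ e ∈ E, st e.1 ≠ st e.2) (hI : ∀ e ∈ I, st e.1 = st e.2)
    (hD : ∀ v, nE v E ≤ D) {cX : X → X → ℕ} (hc : ∀ y v, cE y v E = cX (st y) (st v))
    (hcc : s * (1 + 2 * D * p) ≤ c) {L : List (V × V)}
    (hgl : gl L p = (I.map fun e => Lt.gate e.1 e.2 p) ++ (E.map fun e => Lt.gate e.1 e.2 p))
    {τ : ℝ} (hτ0 : 0 ≤ τ) (hτ1 : τ ≤ 1) {t : ℕ → V → ℝ} (ht : ∀ j z, 0 ≤ t j z ∧ t j z ≤ 1)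
    (J : ℕ) {qs : ℕ → X → ℕ → ℝ} (hqs : ∀ k, qs (k + 1) = stepQ s D p cX (qs k)) (m : ℕ) :
    (∀ j z, 1 ≤ j → j ≤ m → t j z ≤ τ) → ∀ {w : List (Lt V)}, (∀ l ∈ w, Ok l) → ∀ {Q : MM V}
    {κ : ℝ} {k : ℕ} {a : ℝ} {Y W R : V → ℕ → MM V}, HXI st C B (mid L p t m ++ w) Q →
    Inv st s C B c (mid L p t m ++ w) Q (fun x j => κ * qs k x j) a Y W R →
    ∃ Y' W' R' : V → ℕ → MM V, Inv st s C B c w (Q * wd (mid L p t m))
      (fun x j => κ * ((1 - τ) / (1 + τ)) ^ m * qs (k + m + 1) x j) (a + (m + 1) * (s * D * p))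
      Y' W' R' ∧ Le (SS J Y') (SS J Y * wd (mid L p t m)) := by
  induction m with
  | zero =>
    intro _ w hw Q κ k a Y W R hX h
    simp only [mid] at hX h ⊢
    obtain ⟨Y1, W1, R1, h2, h3⟩ := gl_step hs hC hB h0 h1 hE hI hD hc hcc hgl J hw hX h
    refine ⟨Y1, W1, R1, ?_, h3⟩
    rw [stepQ_smul, ← hqs] at h2
    have e1 : (fun x j => κ * ((1 - τ) / (1 + τ)) ^ 0 * qs (k + 0 + 1) x j) =
        fun x j => κ * qs (k + 1) x j := by
      funext x j
      rw [pow_zero, mul_one]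
    have e2 : a + (((0 : ℕ) : ℝ) + 1) * (s * D * p) = a + s * D * p := by
      rw [Nat.cast_zero]; ring
    rw [e1, e2]
    exact h2
  | succ m ih =>
    intro hτ w hw Q κ k a Y W R hX h
    simp only [mid, List.append_assoc] at hX h
    have hwm : ∀ l ∈ mid L p t m ++ w, Ok l := by
      intro l hl
      rw [List.mem_append] at hl
      rcases hl with hl | hl
      · exact ok_mid L h0 h1 ht m l hl
      · exact hw l hl
    have hwn : ∀ l ∈ nl (t (m + 1)) ++ (mid L p t m ++ w), Ok l := by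
      intro l hl
      rw [List.mem_append] at hl
      rcases hl with hl | hl
      · exact ok_nl (ht _) l hl
      · exact hwm l hl
    obtain ⟨Y1, W1, R1, h2, h3⟩ := gl_step hs hC hB h0 h1 hE hI hD hc hcc hgl J hwn hX h
    rw [stepQ_smul, ← hqs] at h2
    obtain ⟨Y2, W2, R2, h4, h5⟩ := slices_step hτ0 hτ1 (fun z => (ht (m + 1) z).1)
      (fun z => hτ (m + 1) z (by omega) le_rfl) h2 J
    have e0 : (fun x j => (1 - τ) / (1 + τ) * (κ * qs (k + 1) x j)) =
        fun x j => (1 - τ) / (1 + τ) * κ * qs (k + 1) x j := by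
      funext x j; ring
    rw [e0] at h4
    obtain ⟨Y3, W3, R3, h6, h7⟩ := ih (fun j z hj hjm => hτ j z hj (by omega)) hw
      hX.tail.tail h4
    have e1 : ∀ M : MM V, M * wd (mid L p t (m + 1)) =
        M * wd (gl L p) * wd (nl (t (m + 1))) * wd (mid L p t m) := by
      intro M
      simp only [mid]
      rw [wd_append, wd_append]
      simp only [Matrix.mul_assoc]
    refine ⟨Y3, W3, R3, ?_, ?_⟩
    · rw [e1]
      have e2 : (fun x j => κ * ((1 - τ) / (1 + τ)) ^ (m + 1) * qs (k + (m + 1) + 1) x j) =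
          fun x j => (1 - τ) / (1 + τ) * κ * ((1 - τ) / (1 + τ)) ^ m * qs (k + 1 + m + 1) x j := by
        funext x j
        rw [show k + (m + 1) + 1 = k + 1 + m + 1 by omega, pow_succ]
        ring
      have e3 : a + (((m + 1 : ℕ) : ℝ) + 1) * (s * D * p) =
          a + s * D * p + ((m : ℝ) + 1) * (s * D * p) := by
        push_cast; ring
      rw [e2, e3]
      exact h6
    · rw [e1]
      have hmn : Le 0 (wd (mid L p t m)) := wd_nonneg (ok_mid L h0 h1 ht m)
      have hnn : Le 0 (wd (nl (t (m + 1)))) := wd_nonneg (ok_nl (ht _))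
      refine h7.trans (Le.mul_right ?_ hmn)
      exact h5.trans (h3.mul_right hnn)

/-- **Long windows with copies, trace form.** -/
theorem long_copies {st : V → X} {s : ℕ} (hs : ∀ x, (univ.filter fun v => st v = x).card = s)
    {A C : MM V} (hA : Le 0 A) (hC : Le 0 C) {p : ℝ} (h0 : 0 ≤ p) (h1 : p ≤ 1)
    {D : ℕ} {E I : List (V × V)} (hE : ∀ e ∈ E, st e.1 ≠ st e.2) (hI : ∀ e ∈ I, st e.1 = st e.2)
    (hD : ∀ v, nE v E ≤ D) {cX : X → X → ℕ} (hc : ∀ y v, cE y v E = cX (st y) (st v))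
    {L : List (V × V)}
    (hgl : gl L p = (I.map fun e => Lt.gate e.1 e.2 p) ++ (E.map fun e => Lt.gate e.1 e.2 p))
    {τ : ℝ} (hτ0 : 0 ≤ τ) (hτ1 : τ ≤ 1) {t : ℕ → V → ℝ} (ht : ∀ j z, 0 ≤ t j z ∧ t j z ≤ 1)
    (m : ℕ) (hτ : ∀ j z, 1 ≤ j → j ≤ m → t j z ≤ τ) (x y : V) {qs : ℕ → X → ℕ → ℝ}
    (hq0 : ∀ v j, qs 0 v j = if v = st x ∧ j = 0 then 1 else 0)
    (hqs : ∀ k, qs (k + 1) = stepQ s D p cX (qs k)) {δ : ℝ} (hδ : 0 ≤ δ)
    (hX : HXI st C (δ * trace (A * wd (mid L p t m) * C)) (mid L p t m) A) (J : ℕ) :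
    ((1 - τ) / (1 + τ)) ^ m * (∑ l ∈ Ico 1 J, qs (m + 1) (st y) l *
      (1 / s - δ * ((m + 1) * (s * D * p) + s * (1 + 2 * D * p) * l))) *
      trace (A * wd (mid L p t m) * C) ≤
      trace (A * sxM x * wd (mid L p t m) * (sxM y * C)) := by
  set w := mid L p t m with hw
  have hok : ∀ l ∈ w, Ok l := ok_mid L h0 h1 ht m
  have hwn : Le 0 (wd w) := wd_nonneg hok
  have hZ : 0 ≤ trace (A * wd w * C) := by
    have := ((hA.zero_mul hwn).zero_mul hC).trace
    rwa [Matrix.trace_zero] at this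
  have hB : 0 ≤ δ * trace (A * wd w * C) := mul_nonneg hδ hZ
  rcases Nat.eq_zero_or_pos J with hJ | hJ
  · subst hJ
    have e : Ico 1 0 = (∅ : Finset ℕ) := by simp
    rw [e, Finset.sum_empty, mul_zero, zero_mul]
    have := (((hA.zero_mul (sxM_nonneg x)).zero_mul hwn).zero_mul
      ((sxM_nonneg y).zero_mul hC)).trace
    rwa [Matrix.trace_zero] at this
  set Y : V → ℕ → MM V := fun v j => if v = x ∧ j = 0 then A else 0 with hY
  have hYn : ∀ v j, Le 0 (Y v j) := by
    intro v j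
    rw [hY]
    simp only
    split_ifs
    · exact hA
    · exact Le.refl 0
  have hSS : SS J Y = A * sxM x := by
    unfold SS
    rw [Finset.sum_eq_single x]
    · rw [Finset.sum_eq_single 0]
      · rw [hY]; simp
      · intro j _ hj
        rw [hY]; simp [hj]
      · intro h
        exact absurd (Finset.mem_range.2 hJ) h
    · intro v _ hv
      refine Finset.sum_eq_zero fun j _ => ?_
      rw [hY]; simp [hv]
    · intro h
      exact absurd (Finset.mem_univ _) h
  have hInv : Inv st s C (δ * trace (A * wd w * C)) (s * (1 + 2 * D * p)) (w ++ []) A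
      (fun v j => 1 * qs 0 v j) 0 Y Y (fun _ _ => 0) := by
    refine ⟨hA, fun v j => ?_, hYn, hYn, fun _ _ => Le.refl 0, fun v j => ?_, fun v j => ?_,
      fun v j hj => ?_, fun v j => ?_⟩
    · rw [hq0, one_mul]; split_ifs <;> norm_num
    · rw [sub_zero]; exact Le.refl _
    · rw [hq0, one_mul]
      by_cases hv : v = st x ∧ j = 0
      · rw [if_pos hv, one_smul, Finset.sum_eq_single x]
        · rw [hY]; simp [hv.2]
        · intro u _ hu
          rw [hY]; simp [hu]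
        · intro h
          exact absurd (Finset.mem_filter.2 ⟨Finset.mem_univ x, hv.1.symm⟩) h
      · rw [if_neg hv, zero_smul]
        refine Finset.sum_eq_zero fun u hu => ?_
        rw [hY]
        simp only
        rw [if_neg]
        rintro ⟨rfl, hj⟩
        exact hv ⟨(Finset.mem_filter.1 hu).2.symm, hj⟩
    · rw [hq0, hY]
      simp [hj]
    · simp only [Matrix.zero_mul, Matrix.trace_zero, Finset.sum_const_zero]
      rw [hq0]
      split_ifs with hv
      · rw [hv.2]; simp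
      · simp
  obtain ⟨Y', W', R', h2, h3⟩ := mid_ind hs hC hB h0 h1 hE hI hD hc le_rfl hgl hτ0 hτ1 ht J hqs m
    hτ (w := []) (by simp) (by rw [← hw, List.append_nil]; exact hX) (by rw [← hw]; exact hInv)
  rw [← hw] at h2 h3
  rw [hSS] at h3
  have hsC : Le 0 ((sxM y : MM V) * C) := (sxM_nonneg y).zero_mul hC
  have h4 := (h3.mul_right hsC).trace
  refine le_trans ?_ h4
  have hsx : (sxM y : MM V) * sxM y = 1 := by
    ext σ τ
    rw [Matrix.mul_apply, Finset.sum_eq_single (Function.update τ y (1 - τ y))]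
    · have e : Function.update (Function.update τ y (1 - τ y)) y
          (1 - (Function.update τ y (1 - τ y)) y) = τ := by
        funext v
        rcases eq_or_ne v y with rfl | hv
        · simp
        · simp [Function.update_of_ne hv]
      simp only [sxM, Matrix.of_apply, if_true, mul_one, e, Matrix.one_apply]
    · intro ρ _ hρ
      simp [sxM, hρ]
    · intro h
      exact absurd (Finset.mem_univ _) h
  have h5 : ∑ j ∈ range J, trace (Y' y j * C) ≤ trace (SS J Y' * (sxM y * C)) := by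
    unfold SS
    rw [Finset.sum_mul, Matrix.trace_sum,
      ← Finset.add_sum_erase Finset.univ _ (Finset.mem_univ y)]
    have h6 : trace ((∑ j ∈ range J, Y' y j * sxM y) * (sxM y * C)) =
        ∑ j ∈ range J, trace (Y' y j * C) := by
      rw [Finset.sum_mul, Matrix.trace_sum]
      refine Finset.sum_congr rfl fun j _ => ?_
      rw [Matrix.mul_assoc, ← Matrix.mul_assoc (sxM y) (sxM y) C, hsx, Matrix.one_mul]
    rw [h6]
    have h7 : 0 ≤ ∑ v ∈ Finset.univ.erase y,
        trace ((∑ j ∈ range J, Y' v j * sxM v) * (sxM y * C)) := by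
      refine Finset.sum_nonneg fun v _ => ?_
      have := ((Le.zero_sum fun j _ => (h2.Y0 v j).zero_mul
        (sxM_nonneg v)).zero_mul hsC (A := ∑ j ∈ range J, Y' v j * sxM v)).trace
      rwa [Matrix.trace_zero] at this
    linarith
  have h8 : ∑ j ∈ Ico 1 J, trace (Y' y j * C) ≤ ∑ j ∈ range J, trace (Y' y j * C) := by
    refine Finset.sum_le_sum_of_subset_of_nonneg (fun j hj => ?_) fun j _ _ => ?_
    · rw [Finset.mem_Ico] at hj
      exact Finset.mem_range.2 hj.2
    · have := ((h2.Y0 y j).zero_mul hC).trace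
      rwa [Matrix.trace_zero] at this
  refine le_trans ?_ (h8.trans h5)
  rw [Finset.mul_sum, Finset.sum_mul]
  refine Finset.sum_le_sum fun j hj => ?_
  have hj0 : j ≠ 0 := by
    rw [Finset.mem_Ico] at hj
    omega
  have h9 := ((h2.YW y j).mul_right hC).trace
  rw [Matrix.sub_mul, Matrix.trace_sub, h2.unif y j hj0, Matrix.smul_mul, Matrix.trace_smul,
    smul_eq_mul] at h9
  have h10 := h2.RT (st y) j
  have h11 : trace (R' y j * C) ≤ ∑ v with st v = st y, trace (R' v j * wd [] * C) := by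
    have e1 : wd ([] : List (Lt V)) = 1 := by simp [wd]
    rw [e1]
    simp only [Matrix.mul_one]
    refine Finset.single_le_sum (f := fun v => trace (R' v j * C)) (fun v _ => ?_)
      (Finset.mem_filter.2 ⟨Finset.mem_univ y, rfl⟩)
    have := ((h2.R0 v j).zero_mul hC).trace
    rwa [Matrix.trace_zero] at this
  have e0 : (0 : ℕ) + m + 1 = m + 1 := by omega
  rw [e0] at h9 h10
  refine le_trans (le_of_eq ?_) ((sub_le_sub_left (h11.trans h10) _).trans h9)
  ring

end

end Vale.Agent.P361.LRO.Bloch.H1
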