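import Vale.Agent.P361.LRO.S3S.LongLocH4b
import Vale.Agent.P361.LRO.S3S.CCge
import Vale.Agent.P361.LRO.S3S.CountInter527

/-!
P361, Bloch's law for all spins: `LongTr s`.
-/

namespace Vale.Agent.P361.LRO.S3S

open Finset Matrix Vale.Agent.P361.LRO _root_.P361.LRO Vale.Agent.P361.LRO.Bloch
  Vale.Agent.P361.LRO.Bloch.H1 Vale.Agent.P361.LRO.S3S.KerS Vale.Agent.P361.LRO.GenS

noncomputable section

theorem longTr_of (s : ℕ)
    (hcE : ∀ (n : ℕ) [NeZero n], 2 ≤ n → ∃ cX : Tor n → Tor n → ℕ,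
      (∀ y v : Tor n × Fin s, cE y v (interE n s).reverse = cX y.1 v.1) ∧
      ∀ (f : Tor n → ℝ) (x : Tor n), ∑ x', (cX x' x : ℝ) * f x' = nb f x)
    (hnE : ∀ (n : ℕ) [NeZero n] (v : Tor n × Fin s), nE v (interE n s).reverse ≤ 6 * s)
    (hgl : ∀ (n M : ℕ) [NeZero n] (p : ℝ), gl (edgesS n s M) p =
      (((List.replicate M (intraE n s)).flatten.reverse).map fun e => Lt.gate e.1 e.2 p) ++
        ((interE n s).reverse.map fun e => Lt.gate e.1 e.2 p))
    (hintra : ∀ (n M : ℕ) [NeZero n], ∀ e ∈ (List.replicate M (intraE n s)).flatten.reverse,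
      e.1.1 = e.2.1)
    (hinter : ∀ (n : ℕ) [NeZero n], 2 ≤ n → ∀ e ∈ (interE n s).reverse, e.1.1 ≠ e.2.1) :
    LongTr s := by
  intro n M _ β N hn hβ hβN hN θ hθ hθc τ hτ0 hτ1 hτ k m hkm δ hδ x y i j hX J
  have hNr : (0 : ℝ) < N := by exact_mod_cast hN
  have hp0 : 0 ≤ β / (2 * N) := by positivity
  have hp1 : β / (2 * N) ≤ 1 := by
    rw [div_le_one (by positivity)]
    linarith
  obtain ⟨cX, hcX, hnb⟩ := hcE n hn
  have hcard : ∀ x : Tor n, (univ.filter fun v : Tor n × Fin s => v.1 = x).card = s := by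
    intro x
    have e : (univ.filter fun v : Tor n × Fin s => v.1 = x) =
        ({x} : Finset (Tor n)) ×ˢ (univ : Finset (Fin s)) := by
      ext v
      rw [Finset.mem_filter, Finset.mem_product, Finset.mem_singleton]
      simp
    rw [e, Finset.card_product, Finset.card_singleton, Finset.card_univ, Fintype.card_fin,
      one_mul]
  have hAn : Le 0 (lctx (edgesS n s M) β N θ (k + m + 1) (x, i)) :=
    (preM_nonneg _ hp0 hp1 hθ _).zero_mul (rmM_nonneg (fun _ => hθ _) _)
  have hCn : Le 0 (rctx (edgesS n s M) β N θ k (y, j)) :=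
    (rmM_nonneg (fun _ => hθ _) _).zero_mul (restM_nonneg _ hp0 hp1 hθ _)
  have key := long_copies (st := fun v : Tor n × Fin s => v.1) (s := s) hcard hAn hCn hp0 hp1
    (D := 6 * s) (hinter n hn) (hintra n M) (hnE n) hcX (hgl n M (β / (2 * N))) hτ0 hτ1
    (t := fun j z => θ (Fin.ofNat (N + 1) (k + j), z)) (fun _ _ => hθ _) m
    (fun l z h1 h2 => hτ _ (by
      intro h
      have h3 := congrArg Fin.val h
      simp only [Fin.val_ofNat, Fin.val_zero] at h3
      rw [Nat.mod_eq_of_lt (by omega)] at h3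
      omega))
    (x, i) (y, j)
    (qs := fun k => qS ((1 - β / (2 * N)) ^ (6 * s))
      (s * (β / (2 * N)) * (1 - β / (2 * N)) ^ (12 * s)) x k)
    (fun v l => rfl)
    (fun k => by
      funext v l
      simp only [qS, stepQ]
      rw [show 12 * s = 2 * (6 * s) by ring]
      congr 1
      split_ifs
      · rfl
      · rw [hnb])
    hδ (fun w1 w2 a b p hw hab => hX w1 w2 a b p hab hw) J
  refine le_trans (le_of_eq ?_) key
  unfold mword
  push_cast
  congr 2
  refine Finset.sum_congr rfl fun l _ => ?_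
  ring

/-- **Long windows for all spins.** -/
theorem longTr (s : ℕ) : LongTr s :=
  longTr_of s
    (fun n _ hn => ⟨C527.cT n, fun y v => C527.cE_inter hn y v, fun f x => C527.sum_cT f x⟩)
    (fun _ _ v => C527.nE_inter v)
    (fun _ M _ p => C527.gl_edgesS M p)
    (fun _ M _ => C527.intra_eq M)
    (fun _ _ hn => C527.inter_ne hn)

end

end Vale.Agent.P361.LRO.S3S
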