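import Vale.Agent.P361.LRO.S3S.Kappa
import Vale.Agent.P361.LRO.GenS.SlotsLowE

/-!
P361 LRO, stage 3, all spins: lowering the field in the slots network, for any good law and the
scaled fields (slice parameters `g / (2 N s)`).
-/

namespace Vale.Agent.P361.LRO.S3S

open Finset _root_.P361.LRO Vale.Agent.P361.LRO Vale.Agent.P361.LRO.Ind Vale.Agent.P361.LRO.Net
  Vale.Agent.P361.LRO.GenS

set_option linter.unusedSectionVars false

noncomputable section

variable {n s N : ℕ} [NeZero n] [NeZero s]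

section Equiv'

variable {K : ℝ} {b : Finset (Tor n)} {h : Tor n → ℝ}
  {μ : Equiv.Perm (Fin (N + 1) × (Tor n × Fin s)) → ℝ}

theorem netK_cS3 (a : Nd n (N * s) → ℝ) :
    netK (cS3 n s N μ K b h) a =
      KK μ (th (1 / (s : ℝ)) N (hS h) (blk K (b ×ˢ univ))) (fun z => a (slotF n s N z)) := by
  unfold cS3
  rw [netK_mgC, netK_c0]

/-- The potential on the copies may be replaced by the pull-back of a potential on the slots. -/
theorem KK_sec3 {β : ℝ} (hβ : 0 < β) (hN : β ≤ N) (hK : 0 ≤ K) (h0 : ∀ x, 0 ≤ h x)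
    (h1 : ∀ x, h x ≤ 1) (hG : Good μ) {E : Finset (Nd n (N * s))}
    (hE : hatb (N * s) b ⊆ E) {a : Fin (N + 1) × (Tor n × Fin s) → ℝ}
    (ha : ∀ z ∈ pre E, a z = 1) :
    KK μ (th β N (hS h) (blk K (b ×ˢ univ))) (fun z => a (secF (slotF n s N z))) =
    KK μ (th β N (hS h) (blk K (b ×ˢ univ))) a := by
  have hθ : ∀ z, 0 ≤ th β N (hS (s := s) h) (blk K (b ×ˢ univ)) z ∧
      th β N (hS (s := s) h) (blk K (b ×ˢ univ)) z ≤ 1 :=
    fun z => th_mem' (h := hS (s := s) h) hβ hN hK _ (fun x => h0 x.1) (fun x => h1 x.1) z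
  rw [← netK_c0, ← netK_c0]
  refine netK_congr_zero (c0_symm _ _) fun z => ?_
  by_cases hz : z.1 = 0
  · by_cases hb : z.2.1 ∈ b
    · left
      have h2 : slotF n s N z ∈ E := by
        apply hE
        unfold hatb
        rw [Finset.mem_product]
        exact ⟨by rw [Finset.mem_singleton]; exact (slotF_zero_iff z).mpr hz, hb⟩
      rw [ha z (mem_pre.mpr h2), ha (secF (slotF n s N z)) (mem_pre.mpr (by rw [slotF_secF]; exact h2))]
    · right
      intro v
      refine c0_zero hG hθ ?_ v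
      unfold th blk
      rw [if_pos hz, if_neg]
      simpa using hb
  · left
    rw [secF_slotF hz]

theorem inv_s_pos : (0 : ℝ) < 1 / (s : ℝ) := by
  have : (0 : ℝ) < s := by exact_mod_cast Nat.pos_of_ne_zero (NeZero.ne s)
  positivity

theorem inv_s_le (hN : 1 ≤ N) : 1 / (s : ℝ) ≤ N := by
  have h1 : (1 : ℝ) ≤ s := by exact_mod_cast Nat.one_le_iff_ne_zero.2 (NeZero.ne s)
  have h2 : (1 : ℝ) ≤ N := by exact_mod_cast hN
  refine le_trans ?_ h2
  rw [div_le_one (by linarith)]
  exact h1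

theorem LBn_cS3 (hN : 1 ≤ N) (hK : 0 ≤ K) (h0 : ∀ x, 0 ≤ h x)
    (h1 : ∀ x, h x ≤ 1) (hG : Good μ) {E G : Finset (Nd n (N * s))}
    (hE : hatb (N * s) b ⊆ E) (A : ℝ) :
    LBn (cS3 n s N μ K b h) E G A ↔
      LB μ (th (1 / (s : ℝ)) N (hS h) (blk K (b ×ˢ univ))) (pre E) (pre G) A := by
  constructor
  · intro H a haE haG
    have h2 := H (fun u => a (secF u))
      (fun u hu => haE _ (mem_pre.mpr (by rw [slotF_secF]; exact hu)))
      (fun u hu => haG _ (mem_pre.mpr (by rw [slotF_secF]; exact hu)))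
    rwa [netK_cS3, KK_sec3 inv_s_pos (inv_s_le hN) hK h0 h1 hG hE haE] at h2
  · intro H a haE haG
    rw [netK_cS3]
    exact H (fun z => a (slotF n s N z)) (fun z hz => haE _ (mem_pre.mp hz))
      (fun z hz => haG _ (mem_pre.mp hz))

theorem RBn_cS3 (hN : 1 ≤ N) (hK : 0 ≤ K) (h0 : ∀ x, 0 ≤ h x)
    (h1 : ∀ x, h x ≤ 1) (hG : Good μ) {E : Finset (Nd n (N * s))}
    (hE : hatb (N * s) b ⊆ E) {q : Nd n (N * s) → ℝ} (hq : ∀ x, q (0, x) = 0) (R : ℝ) :
    RBn (cS3 n s N μ K b h) E q R ↔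
      RB μ (th (1 / (s : ℝ)) N (hS h) (blk K (b ×ˢ univ))) (pre E) (qS q) R := by
  constructor
  · intro H a haE
    have h2 := H (fun u => a (secF u))
      (fun u hu => haE _ (mem_pre.mpr (by rw [slotF_secF]; exact hu)))
    rwa [netK_cS3, KK_sec3 inv_s_pos (inv_s_le hN) hK h0 h1 hG hE haE, sum_qS_sec hq] at h2
  · intro H a haE
    have h2 := H (fun z => a (slotF n s N z)) (fun z hz => haE _ (mem_pre.mp hz))
    rwa [sum_qS hq, ← netK_cS3] at h2

end Equiv'

/-- **`LowE` for the slots network of any good law, scaled fields.** -/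
theorem lowE_gen (hN : 1 ≤ N) {K : ℝ} (hK : 0 ≤ K)
    (b : Finset (Tor n)) {h0 lam ε : ℝ} (hh0 : 0 < h0) (hε : 0 ≤ ε) (hε1 : ε ^ 2 ≤ 1 / 2)
    {μ : Equiv.Perm (Fin (N + 1) × (Tor n × Fin s)) → ℝ} (hG : Good μ)
    (hmag : ∀ h, Fam n h0 lam h → ∀ z : Fin (N + 1) × (Tor n × Fin s), z.1 ≠ 0 →
      1 - ε ^ 2 ≤ mag μ (th (1 / (s : ℝ)) N (hS h) (blk K (b ×ˢ univ))) z) :
    LowE n (N * s) b 1 h0 lam ε (cS3 n s N μ K b) := by
  have hNn : 0 < N := hN
  have hNpos : (0 : ℝ) < N := by exact_mod_cast hNn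
  have hsn : 0 < s := Nat.pos_of_ne_zero (NeZero.ne s)
  have hs : (0 : ℝ) < s := by exact_mod_cast hsn
  obtain ⟨β, hβd⟩ : ∃ β : ℝ, β = 1 / (s : ℝ) := ⟨_, rfl⟩
  have hβ : 0 < β := by rw [hβd]; exact inv_s_pos
  have hNβ : β ≤ N := by rw [hβd]; exact inv_s_le hN
  have hsβ : (s : ℝ) * β = 1 := by rw [hβd]; field_simp
  rw [← hβd] at hmag
  set T : Tor n × Fin s → ℝ := blk K (b ×ˢ univ) with hT
  have hT0 : ∀ z, 0 ≤ T z := fun z => (blk_mem' hK z).1
  have hfpos : ∀ {h : Tor n → ℝ}, Fam n h0 lam h → ∀ x, 0 < h x :=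
    fun hf x => hh0.trans_le (hf.1 x).1
  have hmem : ∀ {h : Tor n → ℝ}, Fam n h0 lam h → ∀ z : Fin (N + 1) × (Tor n × Fin s),
      0 ≤ th β N (hS h) T z ∧ th β N (hS h) T z ≤ 1 := fun {h} hf z =>
    th_mem' (h := hS (s := s) h) hβ hNβ hK _ (fun x => (hfpos hf x.1).le)
      (fun x => (hf.1 x.1).2) z
  have hmono : ∀ {h h' : Tor n → ℝ}, (∀ x, h' x ≤ h x) →
      ∀ z : Fin (N + 1) × (Tor n × Fin s),
      th β N (hS h') T z ≤ th β N (hS h) T z := by
    intro h h' hle z
    unfold th hS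
    split_ifs
    · exact le_rfl
    · have := hle z.2.1
      gcongr
  have hlt : ∀ {h h' : Tor n → ℝ} (z : Fin (N + 1) × (Tor n × Fin s)),
      th β N (hS h') T z < th β N (hS h) T z → z.1 ≠ 0 := by
    intro h h' z hz h0
    unfold th at hz
    simp [h0] at hz
  have hfix : ∀ {h h' : Tor n → ℝ} (z : Fin (N + 1) × (Tor n × Fin s)),
      (z.1 ≠ 0 → h' z.2.1 = h z.2.1) →
      th β N (hS h') T z = th β N (hS h) T z := by
    intro h h' z hz
    unfold th hS
    split_ifs with h1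
    · rfl
    · rw [hz h1]
  have hpos : ∀ {h h' : Tor n → ℝ}, Fam n h0 lam h' → ∀ z : Fin (N + 1) × (Tor n × Fin s),
      th β N (hS h') T z < th β N (hS h) T z → 0 < th β N (hS h') T z := by
    intro h h' hf z hz
    have h1 := hlt z hz
    unfold th
    rw [if_neg h1]
    have := hfpos hf z.2.1
    unfold hS
    positivity
  have hm : ∀ {h h' : Tor n → ℝ}, Fam n h0 lam h → Fam n h0 lam h' → ∀ t : ℝ, 0 ≤ t →
      ∀ z : Fin (N + 1) × (Tor n × Fin s), th β N (hS h') T z < th β N (hS h) T z →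
      1 - ε ^ 2 ≤ mag μ (path (th β N (hS h) T) (th β N (hS h') T) t) z := by
    intro h h' hf hf' t ht z hz
    rw [path_thS hNn hβ hT0 h h' ht]
    exact hmag _ (Fam.lower hh0.le hf hf' ht) z (hlt z hz)
  refine ⟨?_, ?_⟩
  · intro h h' hf hf' hle E G hEG hbE hfixEG S hS1 hsum A hA hLB
    rw [LBn_cS3 hN hK (fun x => (hfpos hf x).le) (fun x => (hf.1 x).2) hG hbE, ← hβd] at hLB
    rw [LBn_cS3 hN hK (fun x => (hfpos hf' x).le) (fun x => (hf'.1 x).2) hG hbE, ← hβd]
    have hE : ∀ z ∈ pre E, th β N (hS h') T z = th β N (hS h) T z := fun z hz =>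
      hfix z fun h1 => hfixEG _ (Finset.mem_union_left _ (mem_pre.mp hz))
        (fun h2 => h1 ((slotF_zero_iff z).mp h2))
    have hG' : ∀ z ∈ pre G, th β N (hS h') T z = th β N (hS h) T z := fun z hz =>
      hfix z fun h1 => hfixEG _ (Finset.mem_union_right _ (mem_pre.mp hz))
        (fun h2 => h1 ((slotF_zero_iff z).mp h2))
    have hpre : Disjoint (pre (s := s) (N := N) E) (pre G) := by
      rw [Finset.disjoint_left] at hEG ⊢
      intro z hz hz'
      exact hEG (mem_pre.mp hz) (mem_pre.mp hz')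
    rw [one_mul] at hS1 ⊢
    have key := LB_lower hG hε (fun z => (hmem hf' z).1) (hmono hle) (fun z => (hmem hf z).2)
      hE hG' hpre (hpos hf') (hm hf hf') (Real.log_nonneg hS1)
      (B := S / 2) (by
        rw [sum_loweredS hβ hNβ T hle]
        have h5 : (s : ℝ) * (β / 2 * ∑ x, (if h' x = h x then 0 else h x)) =
            (s * β) / 2 * ∑ x, (if h' x = h x then 0 else h x) := by ring
        rw [h5, hsβ]
        linarith) hLB
    intro a haE haG
    refine le_trans ?_ (key a haE haG)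
    have hSpos : 0 < S := by linarith
    have e1 : Real.exp (-(4 * ε * Real.log S)) = S ^ (-(4 * ε)) := by
      rw [Real.rpow_def_of_pos hSpos]
      congr 1
      ring
    rw [e1, Real.exp_neg, Real.exp_log hSpos]
    have e2 : 2 * ε * (S / 2) * S⁻¹ = ε := by
      have h5 : S * S⁻¹ = 1 := mul_inv_cancel₀ hSpos.ne'
      linear_combination ε * h5
    rw [e2]
    linarith
  · intro _ hh1 h' hf' E q hbE hfixE hqE hq0 hqnn hq1 R hR hRB
    have hlam : 1 ≤ Real.exp lam := by
      have h1 := hf'.2 0 0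
      have h2 := hfpos hf' 0
      have h3 : h' 0 ≤ Real.exp lam * (Real.exp lam * h' 0) :=
        h1.1.trans (mul_le_mul_of_nonneg_left h1.2 (Real.exp_pos _).le)
      by_contra hcon
      have h4 : Real.exp lam < 1 := not_le.mp hcon
      have h5 := Real.exp_pos lam
      nlinarith [mul_pos h5 h2, mul_pos (sub_pos.mpr h4) h2,
        mul_pos (mul_pos h5 h2) (sub_pos.mpr h4)]
    have hf : Fam n h0 lam fun _ => (1 : ℝ) :=
      ⟨fun x => ⟨hh1, le_rfl⟩, fun x i => ⟨by linarith, by linarith⟩⟩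
    rw [RBn_cS3 hN hK (fun x => (hfpos hf x).le) (fun x => (hf.1 x).2) hG hbE hq0, ← hβd] at hRB
    rw [RBn_cS3 hN hK (fun x => (hfpos hf' x).le) (fun x => (hf'.1 x).2) hG hbE hq0, ← hβd]
    have hle : ∀ x, h' x ≤ (fun _ : Tor n => (1 : ℝ)) x := fun x => (hf'.1 x).2
    have hE : ∀ z ∈ pre E, th β N (hS h') T z = th β N (hS fun _ => 1) T z := fun z hz =>
      hfix z fun h1 => hfixE _ (mem_pre.mp hz) (fun h2 => h1 ((slotF_zero_iff z).mp h2))
    have hlog : 0 ≤ Real.log (1 / h0) := Real.log_nonneg (by rw [le_div_iff₀ hh0]; linarith)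
    have hqS1 : ∑ z : Fin (N + 1) × (Tor n × Fin s), qS q z = 1 := by
      have h1 := sum_qS (s := s) (N := N) hq0 (fun _ => 1)
      simp only [mul_one] at h1
      rw [h1, hq1]
    have key := ode_RB hG (fun z => (hmem hf' z).1) (hmono hle) (fun z => (hmem hf z).2)
      hE hqS1 (τ := 2 * ε) (by positivity)
      (fun t ht z hz => by
        have h1 := hm hf hf' t ht z hz
        refine ⟨sqrt_mag_le hε h1, ?_⟩
        have h2 : 1 / 2 ≤ 1 - ε ^ 2 := by linarith
        exact h2.trans h1)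
      hR hRB hlog (fun z => by
        rw [Real.exp_log (by positivity)]
        unfold th
        by_cases hz : z.1 = 0
        · simp only [hz, if_true]
          have h1 := hT0 z.2
          have h2 : 1 ≤ 1 / h0 := by rw [le_div_iff₀ hh0]; linarith
          nlinarith
        · simp only [hz, if_false, hS]
          have h2 := (hf'.1 z.2.1).1
          have h3 : (1 : ℝ) ≤ 1 / h0 * h' z.2.1 := by
            rw [one_div, inv_mul_eq_div, le_div_iff₀ hh0]
            linarith
          have hc : 0 ≤ β / (2 * N) := by positivity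
          calc β * 1 / (2 * N) = β / (2 * N) * 1 := by ring
            _ ≤ β / (2 * N) * (1 / h0 * h' z.2.1) := mul_le_mul_of_nonneg_left h3 hc
            _ = 1 / h0 * (β * h' z.2.1 / (2 * N)) := by ring)
    intro a ha
    refine (key a ha).trans ?_
    have hKK : 0 ≤ KK μ (th β N (hS h') T) a := by
      rw [← netK_c0]
      refine P361.LRO.netK_nonneg (fun x y => ?_) a
      unfold c0
      split_ifs with hxy
      · exact le_rfl
      · exact hG.ccnn _ (hmem hf') x y hxy
    refine mul_le_mul_of_nonneg_right ?_ hKK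
    have e1 : Real.exp (2 * (2 * ε) * Real.log (1 / h0)) = h0 ^ (-(4 * ε)) := by
      rw [Real.rpow_def_of_pos hh0, one_div, Real.log_inv]
      congr 1
      ring
    rw [e1]
    refine mul_le_mul_of_nonneg_left ?_ (Real.rpow_nonneg hh0.le _)
    refine add_le_add le_rfl ?_
    rw [Real.exp_log (by positivity)]
    have hq2 : ∑ z : Fin (N + 1) × (Tor n × Fin s), qS q z ^ 2 = ∑ u, q u ^ 2 := by
      have h1 := sum_slot (s := s) (N := N) (fun u => q u ^ 2) (fun x => by simp [hq0 x])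
      rw [← h1]
      refine Finset.sum_congr rfl fun z _ => ?_
      unfold qS
      split_ifs <;> simp
    have h5 : ∑ z ∈ univ.filter (fun z : Fin (N + 1) × (Tor n × Fin s) =>
        th β N (hS h') T z < th β N (hS fun _ => 1) T z),
        qS q z ^ 2 / th β N (hS fun _ => 1) T z ≤ 2 * N / β * ∑ u, q u ^ 2 := by
      rw [← hq2, Finset.mul_sum, Finset.sum_filter]
      refine Finset.sum_le_sum fun z _ => ?_
      split_ifs with h1
      · have hz := hlt z h1
        unfold th hS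
        rw [if_neg hz]
        apply le_of_eq
        field_simp
      · positivity
    have h6 : 0 ≤ ∑ z ∈ univ.filter (fun z : Fin (N + 1) × (Tor n × Fin s) =>
        th β N (hS h') T z < th β N (hS fun _ => 1) T z),
        qS q z ^ 2 / th β N (hS fun _ => 1) T z :=
      Finset.sum_nonneg fun z _ => div_nonneg (sq_nonneg _) (hmem hf z).1
    have h7 : 1 / h0 - 1 ≤ 1 / h0 := by linarith
    have h8 : 0 ≤ 1 / h0 := by positivity
    have h9 : 2 * N / β = 2 * (N * s) := by rw [hβd]; field_simp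
    calc 4 * (1 / h0 - 1) * ∑ z ∈ univ.filter (fun z : Fin (N + 1) × (Tor n × Fin s) =>
        th β N (hS h') T z < th β N (hS fun _ => 1) T z),
        qS q z ^ 2 / th β N (hS fun _ => 1) T z
        ≤ 4 * (1 / h0) * (2 * N / β * ∑ u, q u ^ 2) := by
          apply mul_le_mul _ h5 h6 (by positivity)
          linarith
      _ = 8 * ((N * s : ℕ) : ℝ) / (1 * h0) * (∑ u, q u ^ 2) := by
          rw [h9]
          push_cast
          field_simp
          ring

/-- **Lowering the field in the slots network.** -/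
theorem lowStmt3S {s : ℕ} (hs : 0 < s) : LowStmt3S s := by
  have : NeZero s := ⟨hs.ne'⟩
  intro n N _ K h0 lam ε b μ hN hK hh0 hε hε1 hG hmag
  exact lowE_gen hN hK b hh0 hε hε1 hG hmag

end

end Vale.Agent.P361.LRO.S3S
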