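import Vale.Agent.P361.LRO.S3S.Iface
import Vale.Agent.P361.LRO.S3.Answer

/-! # Stage 3, all spins: assembly, with the theorems of the blocks as hypotheses -/

namespace Vale.Agent.P361.LRO.S3S

open Filter Topology Vale.Agent.P361.LRO.S3

theorem bloch_of_blocksS (s : ℕ)
    (hK : KappaStmt3S s) (hD : DirStmt3) (hDS : DirSharpStmt3) (hE : EnergyStmt3S s)
    (h0 : StartStmt3S s)
    (boot : KappaStmt3S s → DirStmt3 → EnergyStmt3S s → StartStmt3S s → BootStmt3S s)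
    (mean : BootStmt3S s → MeanStmt3S s)
    (tail : BootStmt3S s → TailStmt3S s)
    (fin : KappaStmt3S s → BootStmt3S s → DirSharpStmt3 → MeanStmt3S s → TailStmt3S s →
      FinalStmt3S s)
    (lim : FinalStmt3S s →
      Tendsto (fun β : ℝ => β ^ (3 / 2 : ℝ) * ((s : ℝ) / 2 - Model.spontMag s β)) atTop
        (𝓝 (BCS s))) :
    Tendsto (fun β : ℝ => β ^ (3 / 2 : ℝ) * ((s : ℝ) / 2 - Model.spontMag s β)) atTop
      (𝓝 (BCS s)) :=
  have hB : BootStmt3S s := boot hK hD hE h0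
  lim (fin hK hB hDS (mean hB) (tail hB))

/-- The statement of the hand-in for all spins `S = n / 2`. -/
theorem answerS
    (H : ∀ n : ℕ, 1 ≤ n →
      Tendsto (fun β : ℝ => β ^ (3 / 2 : ℝ) * ((n : ℝ) / 2 - Model.spontMag n β)) atTop
        (𝓝 (BCS n))) :
    ∀ n : ℕ, 1 ≤ n →
    (∀ β : ℝ, 0 < β →
      (∀ h : ℝ, Tendsto (fun N : ℕ => Model.finPressure n N β h) atTop (𝓝 (Model.pressure n β h))) ∧
      ConvexOn ℝ Set.univ (Model.pressure n β) ∧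
      HasDerivWithinAt (Model.pressure n β) (Model.spontMag n β) (Set.Ioi 0) 0 ∧
      Model.spontMag n β ≤ (n : ℝ) / 2) ∧
    (∃ β₀ : ℝ, 0 < β₀ ∧ ∀ β : ℝ, β₀ ≤ β → 0 < Model.spontMag n β) ∧
    Tendsto (fun β : ℝ => Model.spontMag n β) atTop (𝓝 ((n : ℝ) / 2)) ∧
    Tendsto (fun β : ℝ => β ^ (3 / 2 : ℝ) * ((n : ℝ) / 2 - Model.spontMag n β)) atTop
      (𝓝 ((riemannZeta (3 / 2)).re /
        (8 * Real.pi ^ (3 / 2 : ℝ) * ((n : ℝ) / 2) ^ (3 / 2 : ℝ)))) :=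
  fun _ hn => answer_bloch hn (H _ hn)

end Vale.Agent.P361.LRO.S3S
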