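import Vale.Agent.P361.LRO.S3S.LogZS
import Vale.Agent.P361.B.Uniform

/-!
P361, stage 3, all spins: landed lower bound of the free energy of large tori, for the copies,
uniform in the multiplicity `M` (helper486).
-/

namespace Vale.Agent.P361.LRO.S3S

open Finset Matrix Filter Topology Vale.Agent.P361.LRO.GenS

noncomputable section

/-- Lower bound with the reduced pressure, number normalisation. -/
theorem logZS_lower (s : ℕ) (hs : 1 ≤ s) {β : ℝ} (hβ : 0 < β) (h : ℝ) {ε : ℝ} (hε : 0 < ε) :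
    ∃ n0 : ℕ, ∀ (n : ℕ) [NeZero n], n0 ≤ n → Odd n → ∀ M : ℕ,
      (n : ℝ) ^ 3 * (B.gRed s β h - ε) ≤
        Real.log (trace (NormedSpace.exp (-β • ham (edgesS n s M) (hS fun _ => h)))) -
          β * h * s / 2 * (n : ℝ) ^ 3 := by
  obtain ⟨n0, hn0⟩ := logZ_copies_ge (h := h) hs hβ hε
  refine ⟨n0, fun n _ hn hodd M => ?_⟩
  have h1 := hn0 n hn hodd M
  linarith

/-- Lower bound with the ideal gas of magnons. -/
theorem logZS_lower_FS {s : ℕ} (hs : 1 ≤ s) : ∃ K : ℝ, 1 ≤ K ∧ ∀ β : ℝ, K ≤ β → ∀ h : ℝ, 0 ≤ h →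
    ∀ ε : ℝ, 0 < ε → ∃ n0 : ℕ, ∀ (n : ℕ) [NeZero n], n0 ≤ n → Odd n → ∀ M : ℕ,
      ((1 - K / β) * B.FS ((s : ℝ) / 2) (β * h) / Real.sqrt β ^ 3 - ε) * (n : ℝ) ^ 3 ≤
        Real.log (trace (NormedSpace.exp (-β • ham (edgesS n s M) (hS fun _ => h)))) -
          β * h / 2 * ((n : ℝ) ^ 3 * s) := by
  obtain ⟨K, hK1, hK⟩ := B.gRed_lower hs
  refine ⟨K, hK1, fun β hβK h hh ε hε => ?_⟩
  have hβ : 0 < β := by linarith
  have hs3 : 0 < Real.sqrt β ^ 3 := by positivity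
  have hth : 0 ≤ β * h := by positivity
  have h1 : (1 - K / β) * B.FS ((s : ℝ) / 2) (β * h) / Real.sqrt β ^ 3 ≤ B.gRed s β h := by
    rw [div_le_iff₀ hs3]
    have h2 := (B.FR_tendsto ((s : ℝ) / 2) hth).const_mul (1 - K / β)
    refine le_of_tendsto' h2 fun R => ?_
    have := hK β hβK h hh R
    linarith
  obtain ⟨n0, hn0⟩ := logZS_lower s hs hβ h hε
  refine ⟨n0, fun n _ hn hodd M => ?_⟩
  have h3 := hn0 n hn hodd M
  have h4 : ((1 - K / β) * B.FS ((s : ℝ) / 2) (β * h) / Real.sqrt β ^ 3 - ε) * (n : ℝ) ^ 3 ≤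
      (B.gRed s β h - ε) * (n : ℝ) ^ 3 :=
    mul_le_mul_of_nonneg_right (by linarith) (by positivity)
  linarith

end

end Vale.Agent.P361.LRO.S3S
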