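import Vale.Agent.P361.LRO.S3S.MeanFin
import Vale.Agent.P361.LRO.S3S.TorLowS

/-!
P361, stage 3, all spins, block (M): `BootStmt3S s → MeanStmt3S s` (helper979).
-/

namespace Vale.Agent.P361.LRO.S3S

open Vale.Agent.P361.LRO.S3

theorem logZLowerS {s : ℕ} (hs : 1 ≤ s) : MF.LogZLowerS s := logZS_lower_FS hs

/-- **Block (M)**, all spins. -/
theorem meanStmt3S_of (s : ℕ) (hs : 1 ≤ s) (hB : BootStmt3S s) : MeanStmt3S s :=
  MF.meanStmt3S_of hs (logZLowerS hs) hB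

end Vale.Agent.P361.LRO.S3S
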