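import Vale.Agent.P361.LRO.S3S.StartOfS
import Vale.Agent.P361.BridgeC

/-! P361, stage 3, all spins, block (B0). -/

namespace Vale.Agent.P361.LRO.S3S

theorem startStmt3S (s : ℕ) (hs : 1 ≤ s) : StartStmt3S s :=
  startStmt3S_of s hs fun κ hκ ε hε => Vale.Agent.P361.BridgeB.mag_uniform s hs κ hκ ε hε

end Vale.Agent.P361.LRO.S3S
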