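import Vale.Agent.P361.LRO.S3S.Tail
import Vale.Agent.P361.LRO.S3S.LT0S
import Vale.Agent.P361.LRO.S3S.LT1SMain

/-!
P361, stage 3, all spins, block (T): `tailStmt3S`.
-/

namespace Vale.Agent.P361.LRO.S3S

open Finset Matrix Filter Topology
open Vale.Agent.P361.LRO Vale.Agent.P361.LRO.S3 Vale.Agent.P361.LRO.GenS Vale.Agent.P361.LRO.S3ST

theorem cardBS (w : ℕ) : (B.cube w).card = w ^ 3 := by
  unfold B.cube
  rw [Fintype.card_piFinset]
  simp

theorem lt01StmtS {s : ℕ} (hs : 1 ≤ s) : LT01StmtS s := by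
  intro β h hβ hh w hw ε hε
  obtain ⟨n0, hn0⟩ := lt1S hs hβ hh.le hw (half_pos hε)
  refine ⟨n0, fun n _ hn hodd x G τ1 τ2 c1 c2 hτ1 hτ2 hc1 hc2 hG => ?_⟩
  obtain ⟨M0, hM0⟩ := lt0S s hs (B.cube w) hβ hτ1 hτ2 hc1 hc2 (G := G) (by
    rw [cardBS]
    intro r hr
    have := hG r hr
    push_cast at this ⊢
    exact this) (half_pos hε)
  refine ⟨M0, fun M hM => ?_⟩
  have h1 := hn0 n hn hodd M x G
  have h2 := hM0 M hM
  rw [cardBS] at h2
  push_cast at h2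
  linarith

/-- **(T)** for all spins. -/
theorem tailStmt3S_of (s : ℕ) (hs : 1 ≤ s) : BootStmt3S s → TailStmt3S s := fun hB =>
  S3ST.tailStmt3S_of hs (lt01StmtS hs) hB

end Vale.Agent.P361.LRO.S3S
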