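import Vale.Agent.P361.LRO.S3S.Main
import Vale.Agent.P361.LRO.S3S.KappaMain
import Vale.Agent.P361.LRO.S3S.CCge
import Vale.Agent.P361.LRO.S3S.LongTrMain
import Vale.Agent.P361.LRO.S3S.EnergyS
import Vale.Agent.P361.LRO.S3S.StartS
import Vale.Agent.P361.LRO.S3S.BootS
import Vale.Agent.P361.LRO.S3S.MeanMain
import Vale.Agent.P361.LRO.S3S.TailMain
import Vale.Agent.P361.LRO.S3S.FinalS
import Vale.Agent.P361.LRO.S3S.Lim
import Vale.Agent.P361.LRO.S3.DirStmt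

/-! # Bloch's law for every spin `S = n / 2` -/

namespace Vale.Agent.P361.LRO.S3S

open Filter Topology Vale.Agent.P361.LRO.S3

theorem kappaStmt3S (s : ℕ) (hs : 1 ≤ s) : KappaStmt3S s :=
  kappaStmt3S_of_CC hs (ccgeS_of hs (longTr s))

/-- Bloch's law for every spin. -/
theorem bloch_all : ∀ n : ℕ, 1 ≤ n →
    (∀ β : ℝ, 0 < β →
      (∀ h : ℝ, Tendsto (fun N : ℕ => Model.finPressure n N β h) atTop (𝓝 (Model.pressure n β h))) ∧
      ConvexOn ℝ Set.univ (Model.pressure n β) ∧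
      HasDerivWithinAt (Model.pressure n β) (Model.spontMag n β) (Set.Ioi 0) 0 ∧
      Model.spontMag n β ≤ (n : ℝ) / 2) ∧
    (∃ β₀ : ℝ, 0 < β₀ ∧ ∀ β : ℝ, β₀ ≤ β → 0 < Model.spontMag n β) ∧
    Tendsto (fun β : ℝ => Model.spontMag n β) atTop (𝓝 ((n : ℝ) / 2)) ∧
    Tendsto (fun β : ℝ => β ^ (3 / 2 : ℝ) * ((n : ℝ) / 2 - Model.spontMag n β)) atTop
      (𝓝 ((riemannZeta (3 / 2)).re /
        (8 * Real.pi ^ (3 / 2 : ℝ) * ((n : ℝ) / 2) ^ (3 / 2 : ℝ)))) :=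
  answerS fun s hs =>
    bloch_of_blocksS s (kappaStmt3S s hs) dirStmt3 dirSharpStmt3 (energyStmt3S s hs)
      (startStmt3S s hs) (bootStmt3S_of s hs) (meanStmt3S_of s hs) (tailStmt3S_of s hs)
      (finalStmt3S_of s hs) (bloch_of_final hs)

end Vale.Agent.P361.LRO.S3S
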