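import Vale.Agent.P361.LRO.S3S.Main
import Vale.Agent.P361.LRO.S3S.KappaMain
import Vale.Agent.P361.LRO.S3S.CCge
import Vale.Agent.P361.LRO.S3S.EnergyS
import Vale.Agent.P361.LRO.S3S.StartS
import Vale.Agent.P361.LRO.S3S.BootS
import Vale.Agent.P361.LRO.S3S.MeanMain
import Vale.Agent.P361.LRO.S3S.TailMain
import Vale.Agent.P361.LRO.S3S.FinalS
import Vale.Agent.P361.LRO.S3S.Lim
import Vale.Agent.P361.LRO.S3S.LongLocH4b
import Vale.Agent.P361.LRO.S3.DirStmt

/-! # Bloch's law for all spins from the long windows -/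

namespace Vale.Agent.P361.LRO.S3S

open Filter Topology Vale.Agent.P361.LRO.S3

/-- Bloch's law for all spins, from the long windows. -/
theorem blochAll_of (hL : ∀ s : ℕ, 0 < s → LongTr s) (n : ℕ) (hn : 1 ≤ n) :
    Tendsto (fun β : ℝ => β ^ (3 / 2 : ℝ) * ((n : ℝ) / 2 - Model.spontMag n β)) atTop
        (𝓝 (BCS n)) := by
  have hK := kappaStmt3S_of_CC hn (ccgeS_of hn (hL n hn))
  have hB := bootStmt3S_of n hn hK dirStmt3 (energyStmt3S n hn) (startStmt3S n hn)
  exact bloch_of_final hn (finalStmt3S_of n hn hK hB dirSharpStmt3 (meanStmt3S_of n hn hB)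
    (tailStmt3S_of n hn hB))

end Vale.Agent.P361.LRO.S3S
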