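import Vale.Agent.P361.LRO.S3.Mean

/-!
P361, stage 3, all spins, block (M), step (V2): the variational inequality for the edge list
`L ++ E`, where only `L` (inter site edges) is kept in the free gas and the energy of `E`
(intra site edges, any multiplicity) is dropped.
-/

set_option linter.unusedSectionVars false

namespace Vale.Agent.P361.LRO.S3.MeanS

open Finset Matrix Vale.Agent.P361.LRO.S3.Mean

noncomputable section

variable {V : Type} [Fintype V] [DecidableEq V]

theorem sum_hM_symm (E : List (V × V)) :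
    ((E.map fun e => hM e.1 e.2).sum : Matrix (V → Fin 2) (V → Fin 2) ℝ).IsSymm := by
  induction E with
  | nil => simp [Matrix.isSymm_zero]
  | cons e E ih =>
    simp only [List.map_cons, List.sum_cons]
    exact (hM_symm _ _).add ih

theorem hM_sq' (x y : V) :
    (hM x y : Matrix (V → Fin 2) (V → Fin 2) ℝ) * hM x y = hM x y := by
  have h1 : (swapM x y : Matrix (V → Fin 2) (V → Fin 2) ℝ) * swapM x y = 1 := by
    ext σ τ
    simp only [Matrix.mul_apply, swapM, Matrix.of_apply, Matrix.one_apply]
    rw [Finset.sum_eq_single (τ ∘ Equiv.swap x y)]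
    · have : (τ ∘ Equiv.swap x y) ∘ Equiv.swap x y = τ := by
        funext z; simp
      rw [this]
      simp
    · intro ρ _ hρ
      simp [hρ]
    · intro h
      exact absurd (Finset.mem_univ _) h
  rw [hM, smul_mul_smul_comm, sub_mul, mul_sub, mul_sub, one_mul, mul_one, one_mul, h1,
    show (1 : Matrix (V → Fin 2) (V → Fin 2) ℝ) - swapM x y - (swapM x y - 1) =
      (2 : ℝ) • (1 - swapM x y) by rw [two_smul]; abel, smul_smul]
  norm_num

theorem hM_psd (x y : V) : (hM x y : Matrix (V → Fin 2) (V → Fin 2) ℝ).PosSemidef := by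
  have h : (hM x y : Matrix (V → Fin 2) (V → Fin 2) ℝ) = (hM x y)ᴴ * hM x y := by
    rw [Matrix.conjTranspose_eq_transpose_of_trivial, (hM_symm x y).eq, hM_sq']
  rw [h]
  exact Matrix.posSemidef_conjTranspose_mul_self _

theorem sum_hM_psd (E : List (V × V)) :
    ((E.map fun e => hM e.1 e.2).sum : Matrix (V → Fin 2) (V → Fin 2) ℝ).PosSemidef := by
  induction E with
  | nil => simp [Matrix.PosSemidef.zero]
  | cons e E ih =>
    simp only [List.map_cons, List.sum_cons]
    exact (hM_psd _ _).add ih

theorem ham_append (L E : List (V × V)) (h : V → ℝ) :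
    ham (L ++ E) h = ham L h + (E.map fun e => hM e.1 e.2).sum := by
  simp only [ham, List.map_append, List.sum_append]
  abel

/-- **(V2), all spins**: `lam * β * <dΓ(g)> ≤ log (free gas of the edges L) - log Z̃_{L ++ E} +
β <W_L>`, Gibbs state of `L ++ E`. -/
theorem mean_ineqS (L E : List (V × V)) (hL : ∀ e ∈ L, e.1 ≠ e.2) {β : ℝ} (hβ : 0 ≤ β)
    (h lam : ℝ) (g : V → V → ℝ) (hg : ∀ u v, g u v = g v u) {F : ℝ}
    (hF : Matrix.trace (NormedSpace.exp (-(hcM fun u v =>
      β * (tL L u v + h * oneK u v - lam * g u v)))) ≤ Real.exp F) :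
    β * lam * gib (L ++ E) β (fun _ => h) (hcM g) ≤ F -
      (Real.log (Matrix.trace (NormedSpace.exp (-β • ham (L ++ E) fun _ => h))) -
        β * h * Fintype.card V / 2) + β * gib (L ++ E) β (fun _ => h) (WL L) := by
  set X : Matrix (V → Fin 2) (V → Fin 2) ℝ := -β • ham (L ++ E) fun _ => h with hX
  set K : Matrix (V → Fin 2) (V → Fin 2) ℝ := (E.map fun e => hM e.1 e.2).sum with hK
  set Y : Matrix (V → Fin 2) (V → Fin 2) ℝ := (β * lam) • hcM g - β • WL L with hY
  have hgs : (hcM g).IsSymm := hcM_symm hg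
  have hXs : X.IsSymm := (ham_symm (L ++ E) _).smul _
  have hYs : Y.IsSymm := (hgs.smul _).sub ((WL_symm L).smul _)
  have hKs : K.IsSymm := sum_hM_symm E
  have hKp : K.PosSemidef := sum_hM_psd E
  have h1 := peierls_bogoliubov_real hXs hYs
  have h2 : trace (NormedSpace.exp X * Y) / trace (NormedSpace.exp X) =
      β * lam * gib (L ++ E) β (fun _ => h) (hcM g) - β * gib (L ++ E) β (fun _ => h) (WL L) := by
    have : trace (NormedSpace.exp X * Y) / trace (NormedSpace.exp X) =
        gib (L ++ E) β (fun _ => h) Y := rfl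
    rw [this, hY, gib_sub, gib_smul, gib_smul]
  have hmono : trace (NormedSpace.exp (X + Y)) ≤ trace (NormedSpace.exp (X + Y + β • K)) := by
    refine trace_exp_mono_real (hXs.add hYs) ((hXs.add hYs).add (hKs.smul _)) ?_
    rw [add_sub_cancel_left]
    exact hKp.smul hβ
  have h3 : X + Y + β • K = -(hcM fun u v => β * (tL L u v + h * oneK u v - lam * g u v)) +
      (β * h * Fintype.card V / 2) • (1 : Matrix (V → Fin 2) (V → Fin 2) ℝ) := by
    rw [hcM_smul, hcM_sub (fun u v => tL L u v + h * oneK u v) (fun u v => lam * g u v),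
      hcM_smul]
    have h4 := ham_eq L hL h
    rw [hX, hY, ham_append, h4, ← hK]
    simp only [smul_sub, smul_add, smul_smul, neg_smul]
    have h5 : -β * (h * Fintype.card V / 2) = -(β * h * Fintype.card V / 2) := by ring
    rw [h5, neg_smul]
    abel
  have hpos0 := trace_exp_pos_real (hXs.add hYs)
  have hlog := h1.trans (Real.log_le_log hpos0 hmono)
  rw [h2, h3, exp_add_smul_one, Matrix.trace_smul, smul_eq_mul] at hlog
  have hAs : (-(hcM fun u v => β * (tL L u v + h * oneK u v - lam * g u v))).IsSymm := by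
    refine Matrix.IsSymm.neg (hcM_symm fun u v => ?_)
    have e1 : tL L u v = tL L v u := by
      simp only [tL, pairK_symm _ _ u v]
    have e2 : (oneK u v : ℝ) = oneK v u := by
      simp only [oneK, eq_comm]
    rw [e1, e2, hg u v]
  have hpos := trace_exp_pos_real hAs
  rw [Real.log_mul (Real.exp_pos _).ne' hpos.ne', Real.log_exp] at hlog
  have h6 : Real.log (trace (NormedSpace.exp (-(hcM fun u v =>
      β * (tL L u v + h * oneK u v - lam * g u v))))) ≤ F := by
    calc _ ≤ Real.log (Real.exp F) := Real.log_le_log hpos hF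
      _ = F := Real.log_exp F
  linarith

end

end Vale.Agent.P361.LRO.S3.MeanS
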