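import Vale.Agent.P361.LRO.S3S.MeanBS
import Vale.Agent.P361.LRO.S3S.MeanV2S
import Vale.Agent.P361.LRO.S3.PairWL

/-!
P361, stage 3, all spins, block (M): the inequality for the block mean on a finite torus with `s`
copies of each site and any multiplicity `M` of the intra-site edges (helper979).
-/

set_option linter.unusedSectionVars false

namespace Vale.Agent.P361.LRO.S3S.MeanAS

open Finset Matrix Vale.Agent.P361.LRO.GenS Vale.Agent.P361.LRO.S3

noncomputable section

variable {n s : ℕ} [NeZero n]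

/-- `log Tr exp (-β (H_M + h N))`, `N` = number of reversed copies. -/
def logZS (n s M : ℕ) [NeZero n] (β h : ℝ) : ℝ :=
  Real.log (trace (NormedSpace.exp (-β • ham (edgesS n s M) (hS fun _ => h)))) -
    β * h / 2 * ((n : ℝ) ^ 3 * s)

theorem interE_ne (hn : 2 ≤ n) : ∀ e ∈ interE n s, e.1 ≠ e.2 := by
  intro e he
  unfold interE at he
  rw [List.mem_flatMap] at he
  obtain ⟨e0, he0, he⟩ := he
  rw [List.mem_flatMap] at he
  obtain ⟨i, -, he⟩ := he
  rw [List.mem_map] at he
  obtain ⟨j, -, rfl⟩ := he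
  intro h
  exact S3P.edges_ne n hn e0 he0 (congrArg Prod.fst h)

theorem interE_length : (interE n s).length = 3 * n ^ 3 * s ^ 2 := by
  unfold interE
  have h1 : ∀ l : List (Tor n × Tor n), (l.flatMap fun e => (List.finRange s).flatMap fun i =>
      (List.finRange s).map fun j => (((e.1, i), (e.2, j)) :
        (Tor n × Fin s) × (Tor n × Fin s))).length = l.length * s ^ 2 := by
    intro l
    induction l with
    | nil => simp
    | cons e l ih =>
      rw [List.flatMap_cons, List.length_append, ih, List.length_cons]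
      have h2 : ((List.finRange s).flatMap fun i => (List.finRange s).map fun j =>
          (((e.1, i), (e.2, j)) : (Tor n × Fin s) × (Tor n × Fin s))).length = s ^ 2 := by
        simp [List.length_flatMap, sq]
      rw [h2]
      ring
  rw [h1, S3P.edges_length]

theorem card_copies : (Fintype.card (Tor n × Fin s) : ℝ) = (n : ℝ) ^ 3 * s := by
  rw [Fintype.card_prod, Fintype.card_fun, ZMod.card, Fintype.card_fin, Fintype.card_fin]
  push_cast
  ring

theorem gib_WL_inter (hn : 2 ≤ n) (M : ℕ) {β : ℝ} (hβ : 0 < β) {h : ℝ} (hh : 0 ≤ h) {η : ℝ}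
    (hη : η ≤ 1 / 4) (hr : ∀ z, rho (edgesS n s M) β (hS fun _ => h) z ≤ η) :
    gib (edgesS n s M) β (hS fun _ => h) (Mean.WL (interE n s)) ≤
      24 * (s : ℝ) ^ 2 * (n : ℝ) ^ 3 * η ^ 2 := by
  have h1 := S3P.gib_WL_le (edgesS n s M) (interE n s) (interE_ne hn) hβ
    (h := hS fun _ => h) (fun _ => hh) hη hr
  rw [interE_length] at h1
  push_cast at h1
  linarith

/-- **The inequality for the block mean on a finite torus**, all spins. -/
theorem mean_fin [NeZero s] (hn : 2 ≤ n) (M : ℕ) {w : ℕ} {β h lam μ η : ℝ} (hβ : 1 ≤ β)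
    (hh : 0 < h) (hlam : 0 ≤ lam) (hμ : 12 * lam * (w : ℝ) ^ 2 ≤ μ) (hμ1 : μ ≤ 1 / 2)
    (hη : η ≤ 1 / 4) (hρ : ∀ z, rho (edgesS n s M) β (hS fun _ => h) z ≤ η) {Y : ℝ}
    (hY : Y ≤ gib (edgesS n s M) β (hS fun _ => h) (hcM (gmatS n s w))) :
    β * lam * Y ≤
      (∑ k : Tor n, -Real.log (1 - Real.exp (-(β * (s * OB.tq k + h)))) +
          (n : ℝ) ^ 3 * (2 * s * Real.exp (-(3 * β)))) +
        β * lam * (∑ k : Tor n, 1 / (Real.exp (β * ((1 - μ) * (s * OB.tq k) + h)) - 1) +
          (n : ℝ) ^ 3 * (2 * s * Real.exp (-β))) -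
        logZS n s M β h + β * (24 * (s : ℝ) ^ 2 * (n : ℝ) ^ 3 * η ^ 2) := by
  have hβ0 : 0 < β := by linarith
  have h1 := MeanS.mean_ineqS (interE n s) ((List.replicate M (intraE n s)).flatten)
    (interE_ne hn) hβ0.le h lam (gmatS n s w) (MeanBS.gmatS_symm w)
    (MeanBS.trace_le' hβ hh hlam hμ hμ1)
  have h2 := mul_le_mul_of_nonneg_left (gib_WL_inter hn M hβ0 hh.le hη hρ) hβ0.le
  have h3 := mul_le_mul_of_nonneg_left hY (mul_nonneg hβ0.le hlam)
  have e1 : (fun _ : Tor n × Fin s => h) = hS fun _ => h := rfl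
  have e2 : interE n s ++ (List.replicate M (intraE n s)).flatten = edgesS n s M := rfl
  rw [e1, e2, card_copies] at h1
  have e3 : Real.log (trace (NormedSpace.exp (-β • ham (edgesS n s M) (hS fun _ => h)))) -
      β * h * ((n : ℝ) ^ 3 * s) / 2 = logZS n s M β h := by
    unfold logZS
    ring
  rw [e3] at h1
  linarith

end

end Vale.Agent.P361.LRO.S3S.MeanAS
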