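import Vale.Agent.P361.LRO.S3.OneBody
import Vale.Agent.P361.LRO.GenS.Iface

/-!
P361 stage 3, all spins: one-particle part on `Tor n × Fin s` (inter-site edges between all
copies).  Modes symmetric in the copies have energy `s * tq k`, all other modes energy `3 s`.
-/

namespace Vale.Agent.P361.LRO.S3S

open Finset Vale.Agent.P361.LRO.S3.OB Vale.Agent.P361.LRO.GenS

noncomputable section

/-! ### An orthonormal basis of `ℝ^s` containing the constant vector -/

set_option linter.unusedSectionVars false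

theorem exists_wb (s : ℕ) [NeZero s] : ∃ w : Fin s → Fin s → ℝ,
    (∀ j l, ∑ i, w j i * w l i = if j = l then 1 else 0) ∧
    (∀ i k, ∑ j, w j i * w j k = if i = k then 1 else 0) ∧
    ∀ i, w 0 i = 1 / Real.sqrt s := by
  classical
  have hs : (0 : ℝ) < s := by exact_mod_cast Nat.pos_of_ne_zero (NeZero.ne s)
  have hsq : (0 : ℝ) < Real.sqrt s := Real.sqrt_pos.2 hs
  let v : Fin s → EuclideanSpace ℝ (Fin s) := fun _ =>
    WithLp.toLp 2 (fun _ => 1 / Real.sqrt s)
  have hv : Orthonormal ℝ (Set.domRestrict ({0} : Set (Fin s)) v) := by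
    rw [orthonormal_iff_ite]
    intro a b
    have hab : a = b := by
      apply Subtype.ext
      rw [Set.mem_singleton_iff.1 a.2, Set.mem_singleton_iff.1 b.2]
    rw [if_pos hab]
    have h0 : ∀ a : ({0} : Set (Fin s)), Set.domRestrict ({0} : Set (Fin s)) v a =
        WithLp.toLp 2 (fun _ => 1 / Real.sqrt s) := fun a => rfl
    rw [h0, h0]
    simp only [PiLp.inner_apply, RCLike.inner_apply, conj_trivial]
    rw [Finset.sum_const, Finset.card_univ, Fintype.card_fin, nsmul_eq_mul, div_mul_div_comm,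
      Real.mul_self_sqrt hs.le]
    field_simp
  obtain ⟨b, hb⟩ := hv.exists_orthonormalBasis_extension_of_card_eq
    (ι := Fin s) (by simp)
  refine ⟨fun j i => b j i, ?_, ?_, ?_⟩
  · intro j l
    have h := orthonormal_iff_ite.1 b.orthonormal l j
    simp only [PiLp.inner_apply, RCLike.inner_apply, conj_trivial] at h
    rw [h]
    by_cases hjl : j = l
    · subst hjl; simp
    · rw [if_neg hjl, if_neg fun h => hjl h.symm]
  · have hM : ∀ j l, ∑ i, b j i * b l i = if j = l then (1 : ℝ) else 0 := by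
      intro j l
      have h := orthonormal_iff_ite.1 b.orthonormal l j
      simp only [PiLp.inner_apply, RCLike.inner_apply, conj_trivial] at h
      rw [h]
      by_cases hjl : j = l
      · subst hjl; simp
      · rw [if_neg hjl, if_neg fun h => hjl h.symm]
    have h1 : (Matrix.of fun j i => b j i) * (Matrix.of fun j i => b j i).transpose =
        (1 : Matrix (Fin s) (Fin s) ℝ) := by
      ext j l
      rw [Matrix.mul_apply, Matrix.one_apply]
      exact hM j l
    have h2 := mul_eq_one_comm.1 h1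
    intro i k
    have h3 := congrFun (congrFun h2 i) k
    rw [Matrix.mul_apply, Matrix.one_apply] at h3
    exact h3
  · intro i
    have := hb 0 (Set.mem_singleton _)
    simp only [v] at this
    simp only [this]

/-- The basis of `ℝ^s`. -/
def wb {s : ℕ} [NeZero s] (j i : Fin s) : ℝ := Classical.choose (exists_wb s) j i

variable {n s : ℕ} [NeZero n] [NeZero s]

lemma wb_orth (j l : Fin s) : ∑ i, wb j i * wb l i = if j = l then 1 else 0 :=
  (Classical.choose_spec (exists_wb s)).1 j l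

lemma wb_compl (i k : Fin s) : ∑ j, wb j i * wb j k = if i = k then 1 else 0 :=
  (Classical.choose_spec (exists_wb s)).2.1 i k

lemma wb_zero (i : Fin s) : wb 0 i = 1 / Real.sqrt s :=
  (Classical.choose_spec (exists_wb s)).2.2 i

lemma sqrt_pos' : (0 : ℝ) < Real.sqrt s := by
  have hs : (0 : ℝ) < s := by exact_mod_cast Nat.pos_of_ne_zero (NeZero.ne s)
  exact Real.sqrt_pos.2 hs

lemma sum_wb (j c : Fin s) : ∑ i, wb j i = if j = 0 then s * wb j c else 0 := by
  have h1 : ∀ i, wb j i = Real.sqrt s * (wb j i * wb 0 i) := by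
    intro i
    rw [wb_zero]
    have := sqrt_pos' (s := s)
    field_simp
  rw [Finset.sum_congr rfl fun i _ => h1 i, ← Finset.mul_sum, wb_orth]
  by_cases hj : j = 0
  · subst hj
    rw [if_pos rfl, if_pos rfl, wb_zero, mul_one]
    have hs : (0 : ℝ) ≤ s := Nat.cast_nonneg s
    have h2 := sqrt_pos' (s := s)
    have h3 := Real.mul_self_sqrt hs
    field_simp
    nlinarith
  · rw [if_neg hj, if_neg hj, mul_zero]

/-! ### The basis on `Tor n × Fin s` -/

/-- The basis. -/
def hbS (k x : Tor n × Fin s) : ℝ := hb k.1 x.1 * wb k.2 x.2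

lemma hbS_orth (k l : Tor n × Fin s) : ∑ x, hbS k x * hbS l x = if k = l then 1 else 0 := by
  unfold hbS
  rw [Fintype.sum_prod_type]
  have h1 : ∀ x : Tor n, ∑ i : Fin s, hb k.1 x * wb k.2 i * (hb l.1 x * wb l.2 i) =
      hb k.1 x * hb l.1 x * (if k.2 = l.2 then 1 else 0) := by
    intro x
    rw [← wb_orth, Finset.mul_sum]
    exact Finset.sum_congr rfl fun i _ => by ring
  simp only [h1]
  rw [← Finset.sum_mul, hb_orth]
  by_cases h : k = l
  · subst h; simp
  · rw [if_neg h]
    by_cases h2 : k.1 = l.1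
    · have h3 : k.2 ≠ l.2 := fun h3 => h (Prod.ext h2 h3)
      rw [if_neg h3, mul_zero]
    · rw [if_neg h2, zero_mul]

lemma hbS_compl (x y : Tor n × Fin s) : ∑ k, hbS k x * hbS k y = if x = y then 1 else 0 := by
  unfold hbS
  rw [Fintype.sum_prod_type]
  have h1 : ∀ k : Tor n, ∑ j : Fin s, hb k x.1 * wb j x.2 * (hb k y.1 * wb j y.2) =
      hb k x.1 * hb k y.1 * (if x.2 = y.2 then 1 else 0) := by
    intro k
    rw [← wb_compl, Finset.mul_sum]
    exact Finset.sum_congr rfl fun i _ => by ring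
  simp only [h1]
  rw [← Finset.sum_mul, hb_compl]
  by_cases h : x = y
  · subst h; simp
  · rw [if_neg h]
    by_cases h2 : x.1 = y.1
    · have h3 : x.2 ≠ y.2 := fun h3 => h (Prod.ext h2 h3)
      rw [if_neg h3, mul_zero]
    · rw [if_neg h2, zero_mul]

/-- The one-particle kinetic matrix. -/
def tmatS (n s : ℕ) [NeZero n] (u v : Tor n × Fin s) : ℝ :=
  ((interE n s).map fun e => dd e.1 e.2 u v).sum / 2

/-- Its eigenvalues. -/
def tqS (k : Tor n × Fin s) : ℝ := if k.2 = 0 then s * tq k.1 else 3 * s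

lemma tmatS_eq (u v : Tor n × Fin s) :
    tmatS n s u v = (∑ j : Fin 3, ∑ z : Tor n, ∑ i : Fin s, ∑ l : Fin s,
      dd (z, i) (z + Pi.single j 1, l) u v) / 2 := by
  unfold tmatS interE edges
  congr 1
  have h0 : ∀ (l : List (Tor n × Tor n)) (g : (Tor n × Fin s) × (Tor n × Fin s) → ℝ),
      ((l.flatMap fun e => (List.finRange s).flatMap fun i => (List.finRange s).map fun j =>
        ((e.1, i), (e.2, j))).map g).sum =
      (l.map fun e => ∑ i : Fin s, ∑ j : Fin s, g ((e.1, i), (e.2, j))).sum := by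
    intro l g
    induction l with
    | nil => simp
    | cons e l ih =>
      rw [List.flatMap_cons, List.map_append, List.sum_append, ih, List.map_cons, List.sum_cons]
      congr 1
      have h3 : ∀ f : Fin s → ℝ, ((List.finRange s).map f).sum = ∑ i, f i := by
        intro f
        rw [← List.sum_ofFn, List.ofFn_eq_map]
      rw [List.map_flatMap, ← h3]
      have h4 : ∀ (q : List (Fin s)) (F : Fin s → List ℝ),
          (q.flatMap F).sum = (q.map fun i => (F i).sum).sum := by
        intro q F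
        induction q with
        | nil => simp
        | cons a q ih => rw [List.flatMap_cons, List.sum_append, ih, List.map_cons, List.sum_cons]
      rw [h4]
      congr 1
      refine List.map_congr_left fun i _ => ?_
      rw [List.map_map, ← h3]
      rfl
  rw [h0, List.map_map]
  have h1 := Finset.sum_map_toList (Finset.univ : Finset (Tor n × Fin 3))
    (fun z => ∑ i : Fin s, ∑ j : Fin s, dd (z.1, i) (z.1 + Pi.single z.2 1, j) u v)
  have h2 : ((fun e : Tor n × Tor n => ∑ i : Fin s, ∑ j : Fin s, dd (e.1, i) (e.2, j) u v) ∘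
      fun z : Tor n × Fin 3 => (z.1, z.1 + Pi.single z.2 1)) =
      fun z => ∑ i : Fin s, ∑ j : Fin s, dd (z.1, i) (z.1 + Pi.single z.2 1, j) u v := rfl
  rw [h2, h1, Fintype.sum_prod_type, Finset.sum_comm]

/-- A translated family of pairs, applied to a basis vector. -/
lemma ddS_shift (k : Tor n × Fin s) (u : Tor n × Fin s) (a b : Tor n) :
    ∑ z, ∑ i : Fin s, ∑ l : Fin s, ∑ v, dd (z + a, i) (z + b, l) u v * hbS k v =
      2 * s * hbS k u - 2 * (chi k.1 (a - b)).re * (hb k.1 u.1 * ∑ i, wb k.2 i) := by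
  simp only [dd_apply]
  obtain ⟨p, q⟩ := k
  obtain ⟨x, c⟩ := u
  have h1 : ∀ (z : Tor n) (i l : Fin s),
      ((if (x, c) = (z + a, i) then (1 : ℝ) else 0) - (if (x, c) = (z + b, l) then 1 else 0)) *
      (hbS (p, q) (z + a, i) - hbS (p, q) (z + b, l)) =
      (if i = c then (if z = x - a then hb p (z + a) * wb q i - hb p (z + b) * wb q l else 0)
        else 0) -
      (if l = c then (if z = x - b then hb p (z + a) * wb q i - hb p (z + b) * wb q l else 0)
        else 0) := by
    intro z i l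
    have e1 : ((x, c) = (z + a, i)) ↔ (i = c ∧ z = x - a) := by
      rw [Prod.mk.injEq]
      constructor
      · rintro ⟨h, h'⟩; exact ⟨h'.symm, by rw [h]; abel⟩
      · rintro ⟨h, h'⟩; exact ⟨by rw [h']; abel, h.symm⟩
    have e2 : ((x, c) = (z + b, l)) ↔ (l = c ∧ z = x - b) := by
      rw [Prod.mk.injEq]
      constructor
      · rintro ⟨h, h'⟩; exact ⟨h'.symm, by rw [h]; abel⟩
      · rintro ⟨h, h'⟩; exact ⟨by rw [h']; abel, h.symm⟩
    simp only [e1, e2, hbS, ite_and]
    split_ifs <;> ring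
  simp only [h1]
  have h2 : ∀ z : Tor n, ∑ i : Fin s, ∑ l : Fin s,
      ((if i = c then (if z = x - a then hb p (z + a) * wb q i - hb p (z + b) * wb q l else 0)
        else 0) -
      (if l = c then (if z = x - b then hb p (z + a) * wb q i - hb p (z + b) * wb q l else 0)
        else 0)) =
      (if z = x - a then s * (hb p (z + a) * wb q c) - hb p (z + b) * ∑ l, wb q l else 0) -
      (if z = x - b then hb p (z + a) * ∑ i, wb q i - s * (hb p (z + b) * wb q c) else 0) := by
    intro z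
    simp only [Finset.sum_sub_distrib]
    congr 1
    · rw [Finset.sum_comm]
      simp only [Finset.sum_ite_eq', Finset.mem_univ, if_true]
      split_ifs
      · rw [Finset.sum_sub_distrib, Finset.sum_const, Finset.card_univ, Fintype.card_fin,
          nsmul_eq_mul, ← Finset.mul_sum]
      · simp
    · simp only [Finset.sum_ite_eq', Finset.mem_univ, if_true]
      split_ifs
      · rw [Finset.sum_sub_distrib, Finset.sum_const, Finset.card_univ, Fintype.card_fin,
          nsmul_eq_mul, ← Finset.mul_sum]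
      · simp
  simp only [h2]
  rw [Finset.sum_sub_distrib, Finset.sum_ite_eq' Finset.univ, Finset.sum_ite_eq' Finset.univ,
    if_pos (Finset.mem_univ _), if_pos (Finset.mem_univ _)]
  have h3 := hb_avg p x (a - b)
  have e1 : x - a + a = x := by abel
  have e2 : x - a + b = x - (a - b) := by abel
  have e3 : x - b + a = x + (a - b) := by abel
  have e4 : x - b + b = x := by abel
  rw [e1, e2, e3, e4]
  simp only [hbS]
  linear_combination (-(∑ i, wb q i)) * h3

lemma tmatS_hb (k u : Tor n × Fin s) : ∑ v, tmatS n s u v * hbS k v = tqS k * hbS k u := by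
  simp only [tmatS_eq]
  have h1 : ∀ v, (∑ j : Fin 3, ∑ z : Tor n, ∑ i : Fin s, ∑ l : Fin s,
      dd (z, i) (z + Pi.single j 1, l) u v) / 2 * hbS k v =
      ∑ j : Fin 3, ∑ z : Tor n, ∑ i : Fin s, ∑ l : Fin s,
        (dd (z, i) (z + Pi.single j 1, l) u v * hbS k v) / 2 := by
    intro v
    rw [div_mul_eq_mul_div, Finset.sum_mul, Finset.sum_div]
    refine Finset.sum_congr rfl fun j _ => ?_
    rw [Finset.sum_mul, Finset.sum_div]
    refine Finset.sum_congr rfl fun z _ => ?_
    rw [Finset.sum_mul, Finset.sum_div]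
    refine Finset.sum_congr rfl fun i _ => ?_
    rw [Finset.sum_mul, Finset.sum_div]
  simp only [h1]
  rw [Finset.sum_comm]
  have h2 : ∀ j : Fin 3, ∑ v, ∑ z : Tor n, ∑ i : Fin s, ∑ l : Fin s,
      (dd (z, i) (z + Pi.single j 1, l) u v * hbS k v) / 2 =
      s * hbS k u - (chi k.1 (Pi.single j 1)).re * (hb k.1 u.1 * ∑ i, wb k.2 i) := by
    intro j
    have h3 := ddS_shift k u 0 (Pi.single j 1)
    simp only [add_zero] at h3
    have h4 : (chi k.1 (0 - Pi.single j 1)).re = (chi k.1 (Pi.single j 1)).re := by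
      rw [zero_sub, chi_neg, Complex.conj_re]
    rw [h4] at h3
    have h5 : ∑ v, ∑ z : Tor n, ∑ i : Fin s, ∑ l : Fin s,
        (dd (z, i) (z + Pi.single j 1, l) u v * hbS k v) / 2 =
        (∑ z, ∑ i : Fin s, ∑ l : Fin s, ∑ v, dd (z, i) (z + Pi.single j 1, l) u v * hbS k v) / 2 := by
      rw [Finset.sum_comm, Finset.sum_div]
      refine Finset.sum_congr rfl fun z _ => ?_
      rw [Finset.sum_comm, Finset.sum_div]
      refine Finset.sum_congr rfl fun i _ => ?_
      rw [Finset.sum_comm, Finset.sum_div]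
      refine Finset.sum_congr rfl fun l _ => ?_
      rw [Finset.sum_div]
    rw [h5, h3]
    ring
  rw [Finset.sum_congr rfl fun j _ => h2 j, sum_wb k.2 u.2]
  unfold tqS tq
  simp only [hbS, Fin.sum_univ_three]
  split_ifs <;> ring

/-- The one-particle matrix of the block reward, averaged over all translates of the cube. -/
def gmatS (n s : ℕ) [NeZero n] (w : ℕ) (u v : Tor n × Fin s) : ℝ :=
  (∑ z : Tor n, ∑ a : Fin 3 → Fin w, ∑ b : Fin 3 → Fin w, ∑ i : Fin s, ∑ l : Fin s,
    dd (z + io n a, i) (z + io n b, l) u v) / (2 * ((w : ℝ) ^ 6 * s))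

/-- Its eigenvalues. -/
def gqS (w : ℕ) (k : Tor n × Fin s) : ℝ := if k.2 = 0 then gq w k.1 else if w = 0 then 0 else 1

lemma gmatS_hb (w : ℕ) (k u : Tor n × Fin s) :
    ∑ v, gmatS n s w u v * hbS k v = gqS w k * hbS k u := by
  have hs : (0 : ℝ) < s := by exact_mod_cast Nat.pos_of_ne_zero (NeZero.ne s)
  unfold gmatS
  have h1 : ∀ v, (∑ z : Tor n, ∑ a : Fin 3 → Fin w, ∑ b : Fin 3 → Fin w, ∑ i : Fin s,
      ∑ l : Fin s, dd (z + io n a, i) (z + io n b, l) u v) / (2 * ((w : ℝ) ^ 6 * s)) * hbS k v =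
      (∑ z : Tor n, ∑ a : Fin 3 → Fin w, ∑ b : Fin 3 → Fin w, ∑ i : Fin s, ∑ l : Fin s,
        dd (z + io n a, i) (z + io n b, l) u v * hbS k v) / (2 * ((w : ℝ) ^ 6 * s)) := by
    intro v
    rw [div_mul_eq_mul_div]
    congr 1
    simp only [Finset.sum_mul]
  simp only [h1]
  rw [← Finset.sum_div]
  have h2 : ∑ v, ∑ z : Tor n, ∑ a : Fin 3 → Fin w, ∑ b : Fin 3 → Fin w, ∑ i : Fin s,
      ∑ l : Fin s, dd (z + io n a, i) (z + io n b, l) u v * hbS k v =
      ∑ a : Fin 3 → Fin w, ∑ b : Fin 3 → Fin w, ∑ z : Tor n, ∑ i : Fin s, ∑ l : Fin s, ∑ v,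
        dd (z + io n a, i) (z + io n b, l) u v * hbS k v := by
    rw [Finset.sum_comm]
    have h3 : ∀ z : Tor n, ∑ v, ∑ a : Fin 3 → Fin w, ∑ b : Fin 3 → Fin w, ∑ i : Fin s,
        ∑ l : Fin s, dd (z + io n a, i) (z + io n b, l) u v * hbS k v =
        ∑ a : Fin 3 → Fin w, ∑ b : Fin 3 → Fin w, ∑ i : Fin s, ∑ l : Fin s, ∑ v,
        dd (z + io n a, i) (z + io n b, l) u v * hbS k v := by
      intro z
      rw [Finset.sum_comm]
      refine Finset.sum_congr rfl fun a _ => ?_
      rw [Finset.sum_comm]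
      refine Finset.sum_congr rfl fun b _ => ?_
      rw [Finset.sum_comm]
      refine Finset.sum_congr rfl fun i _ => ?_
      rw [Finset.sum_comm]
    rw [Finset.sum_congr rfl fun z _ => h3 z, Finset.sum_comm]
    refine Finset.sum_congr rfl fun a _ => ?_
    rw [Finset.sum_comm]
  rw [h2]
  simp only [ddS_shift]
  rw [sum_wb k.2 u.2]
  have hcard : (∑ _a : Fin 3 → Fin w, ∑ _b : Fin 3 → Fin w, (1 : ℝ)) = (w : ℝ) ^ 6 := by
    simp
    ring
  unfold gqS
  rcases Nat.eq_zero_or_pos w with hw | hw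
  · subst hw
    simp [gq]
  have hw' : (0 : ℝ) < (w : ℝ) ^ 6 := by positivity
  by_cases hk : k.2 = 0
  · rw [if_pos hk, if_pos hk]
    unfold gq
    have e1 : ∀ a b : Fin 3 → Fin w, 2 * (s : ℝ) * hbS k u - 2 * (chi k.1 (io n a - io n b)).re *
        (hb k.1 u.1 * (s * wb k.2 u.2)) =
        (1 - (chi k.1 (io n a - io n b)).re) * (2 * s * hbS k u) := by
      intro a b
      simp only [hbS]
      ring
    simp only [e1]
    simp only [← Finset.sum_mul]
    field_simp
  · rw [if_neg hk, if_neg hk, if_neg hw.ne']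
    have e1 : ∀ a b : Fin 3 → Fin w, 2 * (s : ℝ) * hbS k u - 2 * (chi k.1 (io n a - io n b)).re *
        (hb k.1 u.1 * 0) = 1 * (2 * s * hbS k u) := by
      intro a b
      ring
    simp only [e1]
    simp only [← Finset.sum_mul]
    rw [hcard]
    field_simp

lemma tqS_nonneg (k : Tor n × Fin s) : 0 ≤ tqS k := by
  unfold tqS
  split_ifs
  · exact mul_nonneg (Nat.cast_nonneg s) (tq_nonneg _)
  · positivity

lemma gqS_nonneg (w : ℕ) (k : Tor n × Fin s) : 0 ≤ gqS w k := by
  unfold gqS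
  split_ifs
  · exact gq_nonneg _ _
  · exact le_rfl
  · exact zero_le_one

lemma gqS_le_one (w : ℕ) (k : Tor n × Fin s) : gqS w k ≤ 1 := by
  unfold gqS
  split_ifs
  · exact gq_le_one _ _
  · exact zero_le_one
  · exact le_rfl

lemma gqS_le (w : ℕ) (k : Tor n × Fin s) : gqS w k ≤ 12 * (w : ℝ) ^ 2 * tqS k := by
  have hs : (1 : ℝ) ≤ s := by exact_mod_cast Nat.pos_of_ne_zero (NeZero.ne s)
  unfold gqS tqS
  split_ifs with h1 h2
  · refine (gq_le w k.1).trans ?_
    refine mul_le_mul_of_nonneg_left ?_ (by positivity)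
    exact le_mul_of_one_le_left (tq_nonneg _) hs
  · positivity
  · have hw : (1 : ℝ) ≤ w := by exact_mod_cast Nat.pos_of_ne_zero h2
    have hw2 : (1 : ℝ) ≤ (w : ℝ) ^ 2 := by nlinarith
    nlinarith

/-- The eigenvalues stay positive. -/
lemma eigS_pos {w : ℕ} {β h lam μ : ℝ} (hβ : 0 < β) (hh : 0 < h) (hlam : 0 ≤ lam)
    (hμ : 12 * lam * (w : ℝ) ^ 2 ≤ μ) (hμ1 : μ ≤ 1) (k : Tor n × Fin s) :
    β * ((1 - μ) * tqS k + h) ≤ β * (tqS k + h - lam * gqS w k) ∧
      0 < β * ((1 - μ) * tqS k + h) := by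
  have h1 := tqS_nonneg k
  have h2 := mul_le_mul_of_nonneg_left (gqS_le w k) hlam
  constructor
  · refine mul_le_mul_of_nonneg_left ?_ hβ.le
    have h3 : lam * (12 * (w : ℝ) ^ 2 * tqS k) ≤ μ * tqS k := by
      have := mul_le_mul_of_nonneg_right hμ h1
      linarith
    linarith
  · have : 0 ≤ (1 - μ) * tqS k := mul_nonneg (by linarith) h1
    positivity

/-- (S1) for `s` copies: the free gas with the block reward. -/
theorem sum_logS_le {w : ℕ} {β h lam μ : ℝ} (hβ : 0 < β) (hh : 0 < h) (hlam : 0 ≤ lam)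
    (hμ : 12 * lam * (w : ℝ) ^ 2 ≤ μ) (hμ1 : μ ≤ 1) :
    ∑ k : Tor n × Fin s, -Real.log (1 - Real.exp (-(β * (tqS k + h - lam * gqS w k)))) ≤
      ∑ k : Tor n × Fin s, -Real.log (1 - Real.exp (-(β * (tqS k + h)))) +
        β * lam * ∑ k : Tor n × Fin s, 1 / (Real.exp (β * ((1 - μ) * tqS k + h)) - 1) := by
  rw [Finset.mul_sum, ← Finset.sum_add_distrib]
  refine Finset.sum_le_sum fun k _ => ?_
  obtain ⟨h1, h2⟩ := eigS_pos (w := w) hβ hh hlam hμ hμ1 k
  have hg0 := gqS_nonneg w k
  have hg1 := gqS_le_one w k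
  have hd : 0 ≤ β * (lam * gqS w k) := mul_nonneg hβ.le (mul_nonneg hlam hg0)
  have e1 : β * (tqS k + h - lam * gqS w k) = β * (tqS k + h) - β * (lam * gqS w k) := by ring
  have h3 := neg_log_shift (x := β * (tqS k + h)) hd (by linarith)
  rw [← e1] at h3
  refine h3.trans (add_le_add le_rfl ?_)
  have h4 := bose_anti h2 h1
  have h5 : β * (lam * gqS w k) ≤ β * lam := by
    rw [← mul_assoc]
    exact mul_le_of_le_one_right (mul_nonneg hβ.le hlam) hg1
  have h6 : 0 ≤ 1 / (Real.exp (β * ((1 - μ) * tqS k + h)) - 1) := by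
    have : 1 < Real.exp (β * ((1 - μ) * tqS k + h)) := by
      rw [Real.one_lt_exp_iff]; exact h2
    exact one_div_nonneg.2 (by linarith)
  exact (mul_le_mul_of_nonneg_left h4 hd).trans (mul_le_mul_of_nonneg_right h5 h6)

/-! ### Separation of the symmetric modes -/

lemma sum_modes (F : ℝ → ℝ) :
    ∑ k : Tor n × Fin s, F (tqS k) =
      ∑ k : Tor n, F (s * tq k) + (n : ℝ) ^ 3 * ((s : ℝ) - 1) * F (3 * s) := by
  rw [Fintype.sum_prod_type]
  have h1 : ∀ k : Tor n, ∑ j : Fin s, F (tqS (k, j)) =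
      F (s * tq k) + ((s : ℝ) - 1) * F (3 * s) := by
    intro k
    rw [← Finset.add_sum_erase Finset.univ _ (Finset.mem_univ (0 : Fin s))]
    congr 1
    have h2 : ∀ j ∈ Finset.univ.erase (0 : Fin s), F (tqS (k, j)) = F (3 * s) := by
      intro j hj
      have : j ≠ 0 := Finset.ne_of_mem_erase hj
      unfold tqS
      rw [if_neg this]
    rw [Finset.sum_congr rfl h2, Finset.sum_const, Finset.card_erase_of_mem (Finset.mem_univ _),
      Finset.card_univ, Fintype.card_fin, nsmul_eq_mul, Nat.cast_sub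
        (Nat.pos_of_ne_zero (NeZero.ne s)), Nat.cast_one]
  rw [Finset.sum_congr rfl fun k _ => h1 k, Finset.sum_add_distrib, Finset.sum_const,
    Finset.card_univ, nsmul_eq_mul]
  congr 1
  have hc : (Fintype.card (Tor n) : ℝ) = (n : ℝ) ^ 3 := by
    rw [Fintype.card_fun, ZMod.card, Fintype.card_fin]
    push_cast
    ring
  rw [hc]
  ring

lemma neg_log_le_exp {x : ℝ} (hx : 1 ≤ x) : -Real.log (1 - Real.exp (-x)) ≤ 2 * Real.exp (-x) := by
  have h1 : Real.exp (-x) ≤ 1 / 2 := by
    have h2 : Real.exp (-x) ≤ Real.exp (-1) := Real.exp_le_exp.2 (by linarith)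
    have h3 : Real.exp (-1) ≤ 1 / 2 := by
      rw [Real.exp_neg, inv_eq_one_div]
      exact one_div_le_one_div_of_le (by norm_num) (by linarith [Real.add_one_le_exp (1 : ℝ)])
    linarith
  have h0 := Real.exp_pos (-x)
  have h4 : Real.log (1 - Real.exp (-x))⁻¹ ≤ (1 - Real.exp (-x))⁻¹ - 1 :=
    Real.log_le_sub_one_of_pos (by
      have : 0 < 1 - Real.exp (-x) := by linarith
      positivity)
  rw [Real.log_inv] at h4
  refine h4.trans ?_
  have h5 : 0 < 1 - Real.exp (-x) := by linarith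
  rw [inv_eq_one_div, div_sub_one h5.ne', div_le_iff₀ h5]
  nlinarith

lemma bose_le_exp {x : ℝ} (hx : 1 ≤ x) : 1 / (Real.exp x - 1) ≤ 2 * Real.exp (-x) := by
  have h1 : 2 ≤ Real.exp x := by linarith [Real.add_one_le_exp x]
  have h2 : Real.exp x * Real.exp (-x) = 1 := by rw [← Real.exp_add]; simp
  have h0 := Real.exp_pos (-x)
  rw [div_le_iff₀ (by linarith)]
  nlinarith

/-- The free gas for `s` copies, against the symmetric modes. -/
theorem sum_logS_le_sym {β h : ℝ} (hβ : 1 ≤ β) (hh : 0 < h) :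
    ∑ k : Tor n × Fin s, -Real.log (1 - Real.exp (-(β * (tqS k + h)))) ≤
      ∑ k : Tor n, -Real.log (1 - Real.exp (-(β * (s * tq k + h)))) +
        (n : ℝ) ^ 3 * (2 * s * Real.exp (-(3 * β))) := by
  have hs : (1 : ℝ) ≤ s := by exact_mod_cast Nat.pos_of_ne_zero (NeZero.ne s)
  rw [sum_modes (n := n) (s := s) fun t => -Real.log (1 - Real.exp (-(β * (t + h))))]
  refine add_le_add le_rfl ?_
  rw [mul_assoc]
  refine mul_le_mul_of_nonneg_left ?_ (by positivity)
  have hx : 3 * β ≤ β * (3 * s + h) := by nlinarith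
  have h1 := neg_log_le_exp (x := β * (3 * s + h)) (by linarith)
  have h2 : Real.exp (-(β * (3 * s + h))) ≤ Real.exp (-(3 * β)) := Real.exp_le_exp.2 (by linarith)
  have h3 := Real.exp_pos (-(3 * β))
  have h4 := Real.exp_pos (-(β * (3 * s + h)))
  calc ((s : ℝ) - 1) * -Real.log (1 - Real.exp (-(β * (3 * s + h))))
      ≤ ((s : ℝ) - 1) * (2 * Real.exp (-(β * (3 * s + h)))) :=
        mul_le_mul_of_nonneg_left h1 (by linarith)
    _ ≤ s * (2 * Real.exp (-(3 * β))) := by
        refine mul_le_mul (by linarith) (by linarith) (by positivity) (by linarith)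
    _ = _ := by ring

/-- The density for `s` copies, against the symmetric modes. -/
theorem sum_boseS_le_sym {β h μ : ℝ} (hβ : 1 ≤ β) (hh : 0 < h) (hμ1 : μ ≤ 1 / 2) :
    ∑ k : Tor n × Fin s, 1 / (Real.exp (β * ((1 - μ) * tqS k + h)) - 1) ≤
      ∑ k : Tor n, 1 / (Real.exp (β * ((1 - μ) * (s * tq k) + h)) - 1) +
        (n : ℝ) ^ 3 * (2 * s * Real.exp (-β)) := by
  have hs : (1 : ℝ) ≤ s := by exact_mod_cast Nat.pos_of_ne_zero (NeZero.ne s)
  rw [sum_modes (n := n) (s := s) fun t => 1 / (Real.exp (β * ((1 - μ) * t + h)) - 1)]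
  refine add_le_add le_rfl ?_
  rw [mul_assoc]
  refine mul_le_mul_of_nonneg_left ?_ (by positivity)
  have hx : β ≤ β * ((1 - μ) * (3 * s) + h) := by
    have h1 : 1 ≤ (1 - μ) * (3 * s) + h := by nlinarith
    nlinarith
  have h1 := bose_le_exp (x := β * ((1 - μ) * (3 * s) + h)) (by linarith)
  have h2 : Real.exp (-(β * ((1 - μ) * (3 * s) + h))) ≤ Real.exp (-β) :=
    Real.exp_le_exp.2 (by linarith)
  have h3 := Real.exp_pos (-β)
  have h4 := Real.exp_pos (-(β * ((1 - μ) * (3 * s) + h)))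
  calc ((s : ℝ) - 1) * (1 / (Real.exp (β * ((1 - μ) * (3 * s) + h)) - 1))
      ≤ ((s : ℝ) - 1) * (2 * Real.exp (-(β * ((1 - μ) * (3 * s) + h)))) :=
        mul_le_mul_of_nonneg_left h1 (by linarith)
    _ ≤ s * (2 * Real.exp (-β)) := by
        refine mul_le_mul (by linarith) (by linarith) (by positivity) (by linarith)
    _ = _ := by ring

end

end Vale.Agent.P361.LRO.S3S
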