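import Vale.Agent.P361.LRO.S3.HardCoreHc
import Vale.Agent.P361.LRO.S3.Mean
import Vale.Agent.P361.LRO.S3S.OneBodyS

/-!
P361, stage 3, all spins, block (M), row (B): the trace of the hard core gas on `Tor n × Fin s`
with the one-particle matrix `β (t_inter + h - lam g)` (helper979).
-/

set_option linter.unusedSectionVars false

namespace Vale.Agent.P361.LRO.S3S.MeanBS

open Finset Matrix Vale.Agent.P361.LRO.GenS Vale.Agent.P361.LRO.S3

noncomputable section

section General

variable {V : Type} [Fintype V] [DecidableEq V]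

/-- A kernel with the complete orthonormal system `e` of eigenvectors. -/
theorem kernel_eq {a : V → V → ℝ} {e : V → V → ℝ} {al : V → ℝ}
    (hc : ∀ x y, ∑ k, e k x * e k y = if x = y then 1 else 0)
    (heig : ∀ k u, ∑ v, a u v * e k v = al k * e k u) (x y : V) :
    a x y = ∑ k, al k * (e k x * e k y) := by
  have h1 : a x y = ∑ v, a x v * ∑ k, e k v * e k y := by
    simp only [hc]
    simp
  rw [h1]
  simp only [Finset.mul_sum]
  rw [Finset.sum_comm]
  refine Finset.sum_congr rfl fun k _ => ?_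
  rw [← mul_assoc, ← heig k x, Finset.sum_mul]
  exact Finset.sum_congr rfl fun v _ => by ring

theorem prod_inv_eq_exp {ι : Type*} (s : Finset ι) (f : ι → ℝ) (hf : ∀ k ∈ s, 0 < f k) :
    ∏ k ∈ s, (f k)⁻¹ = Real.exp (∑ k ∈ s, -Real.log (f k)) := by
  rw [Real.exp_sum]
  refine Finset.prod_congr rfl fun k hk => ?_
  rw [Real.exp_neg, Real.exp_log (hf k hk)]

/-- **(V1)** for a kernel given by its eigenvectors. -/
theorem trace_le_of_eig {a : V → V → ℝ} {e : V → V → ℝ} {al : V → ℝ}
    (hc : ∀ x y, ∑ k, e k x * e k y = if x = y then 1 else 0)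
    (ho : ∀ k l, ∑ x, e k x * e l x = if k = l then 1 else 0) (hal : ∀ k, 0 < al k)
    (heig : ∀ k u, ∑ v, a u v * e k v = al k * e k u) :
    trace (NormedSpace.exp (-(hcM a))) ≤
      Real.exp (∑ k, -Real.log (1 - Real.exp (-al k))) := by
  rw [← prod_inv_eq_exp]
  · exact hcM_trace_le hc ho hal (kernel_eq hc heig)
  · intro k _
    have : Real.exp (-al k) < 1 := by
      rw [Real.exp_lt_one_iff]
      linarith [hal k]
    linarith

end General

variable {n s : ℕ} [NeZero n] [NeZero s]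

theorem tL_eq_tmatS (u v : Tor n × Fin s) : Mean.tL (interE n s) u v = tmatS n s u v := by
  rw [Mean.tL, tmatS, mul_comm, one_div, ← div_eq_mul_inv]
  rfl

theorem eig_all (w : ℕ) (β h lam : ℝ) (k u : Tor n × Fin s) :
    ∑ v, (β * (Mean.tL (interE n s) u v + h * Mean.oneK u v - lam * gmatS n s w u v)) * hbS k v =
      (β * (tqS k + h - lam * gqS w k)) * hbS k u := by
  have h1 : ∀ v, (β * (Mean.tL (interE n s) u v + h * Mean.oneK u v - lam * gmatS n s w u v)) *
      hbS k v = β * (tmatS n s u v * hbS k v) + β * h * (Mean.oneK u v * hbS k v) -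
        β * lam * (gmatS n s w u v * hbS k v) := by
    intro v
    rw [tL_eq_tmatS]
    ring
  simp only [h1]
  rw [Finset.sum_sub_distrib, Finset.sum_add_distrib, ← Finset.mul_sum, ← Finset.mul_sum,
    ← Finset.mul_sum, tmatS_hb, gmatS_hb]
  have h2 : ∑ v, Mean.oneK u v * hbS k v = hbS k u := by
    simp [Mean.oneK]
  rw [h2]
  ring

theorem gmatS_symm (w : ℕ) (u v : Tor n × Fin s) : gmatS n s w u v = gmatS n s w v u := by
  rw [kernel_eq (a := gmatS n s w) hbS_compl (gmatS_hb w) u v,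
    kernel_eq (a := gmatS n s w) hbS_compl (gmatS_hb w) v u]
  exact Finset.sum_congr rfl fun k _ => by ring

/-- **Row (B)** for `s` copies. -/
theorem trace_le {β h lam μ : ℝ} {w : ℕ} (hβ : 0 < β) (hh : 0 < h) (hlam : 0 ≤ lam)
    (hμ : 12 * lam * (w : ℝ) ^ 2 ≤ μ) (hμ1 : μ ≤ 1) :
    trace (NormedSpace.exp (-(hcM fun u v : Tor n × Fin s =>
        β * (Mean.tL (interE n s) u v + h * Mean.oneK u v - lam * gmatS n s w u v)))) ≤
      Real.exp (∑ k : Tor n × Fin s, -Real.log (1 - Real.exp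
        (-(β * (tqS k + h - lam * gqS w k))))) := by
  refine trace_le_of_eig hbS_compl hbS_orth (fun k => ?_) (eig_all w β h lam)
  obtain ⟨h1, h2⟩ := eigS_pos (w := w) hβ hh hlam hμ hμ1 k
  exact lt_of_lt_of_le h2 h1

/-- (B), (S1) and the separation of the symmetric modes. -/
theorem trace_le' {β h lam μ : ℝ} {w : ℕ} (hβ : 1 ≤ β) (hh : 0 < h) (hlam : 0 ≤ lam)
    (hμ : 12 * lam * (w : ℝ) ^ 2 ≤ μ) (hμ1 : μ ≤ 1 / 2) :
    trace (NormedSpace.exp (-(hcM fun u v : Tor n × Fin s =>
        β * (Mean.tL (interE n s) u v + h * Mean.oneK u v - lam * gmatS n s w u v)))) ≤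
      Real.exp ((∑ k : Tor n, -Real.log (1 - Real.exp (-(β * (s * OB.tq k + h)))) +
          (n : ℝ) ^ 3 * (2 * s * Real.exp (-(3 * β)))) +
        β * lam * (∑ k : Tor n, 1 / (Real.exp (β * ((1 - μ) * (s * OB.tq k) + h)) - 1) +
          (n : ℝ) ^ 3 * (2 * s * Real.exp (-β)))) := by
  have hβ0 : 0 < β := by linarith
  refine (trace_le hβ0 hh hlam hμ (by linarith)).trans (Real.exp_le_exp.2 ?_)
  refine (sum_logS_le hβ0 hh hlam hμ (by linarith)).trans ?_
  exact add_le_add (sum_logS_le_sym hβ hh)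
    (mul_le_mul_of_nonneg_left (sum_boseS_le_sym hβ hh hμ1) (mul_nonneg hβ0.le hlam))

end

end Vale.Agent.P361.LRO.S3S.MeanBS
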