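import Vale.Agent.P361.LRO.S3S.Iface
import Vale.Agent.P361.LRO.S3S.OneBodyS
import Vale.Agent.P361.LRO.S3.MeanC
import Vale.Agent.P361.LRO.GenS.Trans

/-!
P361, stage 3, all spins, block (M), item (C): the block rewards of all translates of the cube
together are bounded by the second quantisation of `gmatS` (helper44).
-/

set_option linter.unusedSectionVars false

namespace Vale.Agent.P361.LRO.S3S

open Finset Matrix Vale.Agent.P361.LRO.GenS Vale.Agent.P361.LRO.S3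

noncomputable section

variable {n s : ℕ} [NeZero n]

/-- Translation of the sites, copies fixed. -/
def trS (a : Tor n) : (Tor n × Fin s) ≃ (Tor n × Fin s) :=
  (Equiv.addRight a).prodCongr (Equiv.refl (Fin s))

omit [NeZero n] in
theorem trS_apply (a x : Tor n) (i : Fin s) : trS a (x, i) = (x + a, i) := rfl

theorem edgesS_translate {A : Type*} [AddCommMonoid A] (M : ℕ)
    (f : (Tor n × Fin s) → (Tor n × Fin s) → A) (a : Tor n) :
    ((edgesS n s M).map fun e => f e.1 e.2).sum =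
      ((edgesS n s M).map fun e => f (trS a e.1) (trS a e.2)).sum := by
  rw [TransS.edgesS_map_sum M f, TransS.edgesS_map_sum M (fun u v => f (trS a u) (trS a v))]
  have h1 : ((interE n s).map fun e => f (trS a e.1) (trS a e.2)).sum =
      ((interE n s).map fun e => f e.1 e.2).sum :=
    TransS.interE_inv a (Equiv.refl (Fin s)) f
  have h2 : ((intraE n s).map fun e => f (trS a e.1) (trS a e.2)).sum =
      ((intraE n s).map fun e => f e.1 e.2).sum := by
    rw [TransS.intraE_map_sum, TransS.intraE_map_sum (fun u v => f (trS a u) (trS a v)),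
      Finset.sum_filter, Finset.sum_filter, Fintype.sum_prod_type, Fintype.sum_prod_type]
    refine Fintype.sum_equiv (Equiv.addRight a) _ _ fun x => ?_
    refine Finset.sum_congr rfl fun p _ => ?_
    rfl
  rw [h1, h2]

theorem gib_hM_translateS (M : ℕ) (β h : ℝ) (x y v : Tor n) (i l : Fin s) :
    gib (edgesS n s M) β (hS fun _ => h) (hM (x + v, i) (y + v, l)) =
      gib (edgesS n s M) β (hS fun _ => h) (hM (x, i) (y, l)) := by
  have h1 := gib_relab (edgesS n s M) (trS v) (fun f => edgesS_translate M f v) β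
    (hS fun _ => h) (hM (x + v, i) (y + v, l))
  have h2 : (hM (x + v, i) (y + v, l) :
      Matrix (Tor n × Fin s → Fin 2) (Tor n × Fin s → Fin 2) ℝ).submatrix
      (Bs.relab (trS v)) (Bs.relab (trS v)) = hM (x, i) (y, l) :=
    Bs.hM_relab (trS v) (x, i) (y, l)
  rw [h2] at h1
  exact h1.symm

omit [NeZero n] in
theorem sum_cubeSM {w : ℕ} (hw : w ≤ n) {A : Type*} [AddCommMonoid A] (z : Tor n)
    (f : Tor n × Fin s → A) :
    ∑ x ∈ cubeS n s z w, f x = ∑ a : Fin 3 → Fin w, ∑ i : Fin s, f (ptc z a, i) := by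
  unfold cubeS
  rw [Finset.sum_product, sum_cubeM hw]

omit [NeZero n] in
theorem card_cubeSM {w : ℕ} (hw : w ≤ n) (z : Tor n) : (cubeS n s z w).card = w ^ 3 * s := by
  unfold cubeS
  rw [Finset.card_product, card_cubeM hw, Finset.card_univ, Fintype.card_fin]

theorem gib_CM_eqS {w : ℕ} (hw : w ≤ n) (M : ℕ) (β h : ℝ) (z : Tor n) :
    gib (edgesS n s M) β (hS fun _ => h) (CM (cubeS n s z w)) =
      ∑ a : Fin 3 → Fin w, ∑ i : Fin s, ∑ b : Fin 3 → Fin w, ∑ l : Fin s,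
        gib (edgesS n s M) β (hS fun _ => h) (hM (ptc z a, i) (ptc z b, l)) := by
  unfold CM
  rw [Bs.gib_sum, sum_cubeSM hw]
  refine Finset.sum_congr rfl fun a _ => Finset.sum_congr rfl fun i _ => ?_
  rw [Bs.gib_sum, sum_cubeSM hw]

theorem gib_CM_translateS {w : ℕ} (hw : w ≤ n) (M : ℕ) (β h : ℝ) (z z' : Tor n) :
    gib (edgesS n s M) β (hS fun _ => h) (CM (cubeS n s z w)) =
      gib (edgesS n s M) β (hS fun _ => h) (CM (cubeS n s z' w)) := by
  rw [gib_CM_eqS hw, gib_CM_eqS hw]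
  refine Finset.sum_congr rfl fun a _ => Finset.sum_congr rfl fun i _ =>
    Finset.sum_congr rfl fun b _ => Finset.sum_congr rfl fun l _ => ?_
  have h1 : ∀ c : Fin 3 → Fin w, ptc z c = ptc z' c + (z - z') := by
    intro c
    unfold ptc
    abel
  rw [h1 a, h1 b, gib_hM_translateS]

theorem yb_eqS [NeZero s] {w : ℕ} (hw : w ≤ n) (hw0 : 0 < w) (M : ℕ) (β h : ℝ) (x : Tor n) :
    ((n : ℝ) ^ 3 * s) * yb (edgesS n s M) β (hS fun _ => h) (cubeS n s x w) =
      (1 / ((w : ℝ) ^ 6 * s)) * ∑ z : Tor n, ∑ a : Fin 3 → Fin w, ∑ i : Fin s,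
        ∑ b : Fin 3 → Fin w, ∑ l : Fin s,
        gib (edgesS n s M) β (hS fun _ => h) (hM (ptc z a, i) (ptc z b, l)) := by
  have h1 : ∀ z : Tor n, ∑ a : Fin 3 → Fin w, ∑ i : Fin s, ∑ b : Fin 3 → Fin w, ∑ l : Fin s,
      gib (edgesS n s M) β (hS fun _ => h) (hM (ptc z a, i) (ptc z b, l)) =
      gib (edgesS n s M) β (hS fun _ => h) (CM (cubeS n s x w)) := by
    intro z
    rw [← gib_CM_eqS hw, gib_CM_translateS hw M β h z x]
  simp only [h1, Finset.sum_const, Finset.card_univ, nsmul_eq_mul]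
  unfold yb
  rw [card_cubeSM hw, Fintype.card_fun, ZMod.card, Fintype.card_fin]
  push_cast
  have hw1 : (0 : ℝ) < w := by exact_mod_cast hw0
  have hs : (0 : ℝ) < s := by exact_mod_cast Nat.pos_of_ne_zero (NeZero.ne s)
  field_simp

theorem hcM_gmatS (w : ℕ) : hcM (gmatS n s w) = (1 / (2 * ((w : ℝ) ^ 6 * s))) •
    ∑ z : Tor n, ∑ a : Fin 3 → Fin w, ∑ b : Fin 3 → Fin w, ∑ i : Fin s, ∑ l : Fin s,
      hcM (OB.dd ((ptc z a, i) : Tor n × Fin s) (ptc z b, l)) := by
  have h0 : gmatS n s w = fun u v => (1 / (2 * ((w : ℝ) ^ 6 * s))) *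
      ∑ z : Tor n, ∑ a : Fin 3 → Fin w, ∑ b : Fin 3 → Fin w, ∑ i : Fin s, ∑ l : Fin s,
        OB.dd ((ptc z a, i) : Tor n × Fin s) (ptc z b, l) u v := by
    funext u v
    unfold gmatS
    rw [div_eq_inv_mul, one_div]
    rfl
  rw [h0, hcM_smul, hcM_sum]
  congr 1
  refine Finset.sum_congr rfl fun z _ => ?_
  rw [hcM_sum]
  refine Finset.sum_congr rfl fun a _ => ?_
  rw [hcM_sum]
  refine Finset.sum_congr rfl fun b _ => ?_
  rw [hcM_sum]
  refine Finset.sum_congr rfl fun i _ => ?_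
  rw [hcM_sum]

/-- **Item (C), all spins**: `s n³ y_b ≤ <dΓ(g)>`. -/
theorem yb_le_gmatS [NeZero s] {w : ℕ} (hw0 : 1 ≤ w) (hw : w ≤ n) (M : ℕ) (β h : ℝ) (x : Tor n) :
    ((n : ℝ) ^ 3 * s) * yb (edgesS n s M) β (hS fun _ => h) (cubeS n s x w) ≤
      gib (edgesS n s M) β (hS fun _ => h) (hcM (gmatS n s w)) := by
  rw [yb_eqS hw hw0, hcM_gmatS, Mean.gib_smul, Mean.gib_sum]
  have h1 : ∀ z : Tor n, 2 * ∑ a : Fin 3 → Fin w, ∑ i : Fin s, ∑ b : Fin 3 → Fin w, ∑ l : Fin s,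
      gib (edgesS n s M) β (hS fun _ => h) (hM (ptc z a, i) (ptc z b, l)) ≤
      gib (edgesS n s M) β (hS fun _ => h) (∑ a : Fin 3 → Fin w, ∑ b : Fin 3 → Fin w,
        ∑ i : Fin s, ∑ l : Fin s, hcM (OB.dd ((ptc z a, i) : Tor n × Fin s) (ptc z b, l))) := by
    intro z
    rw [Mean.gib_sum, Finset.mul_sum]
    refine Finset.sum_le_sum fun a _ => ?_
    rw [Mean.gib_sum, Finset.sum_comm, Finset.mul_sum]
    refine Finset.sum_le_sum fun b _ => ?_
    rw [Mean.gib_sum, Finset.mul_sum]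
    refine Finset.sum_le_sum fun i _ => ?_
    rw [Mean.gib_sum, Finset.mul_sum]
    exact Finset.sum_le_sum fun l _ => gib_hcM_dd _ _ _ _ _
  have h2 := Finset.sum_le_sum fun (z : Tor n) (_ : z ∈ Finset.univ) => h1 z
  rw [← Finset.mul_sum] at h2
  have hs : (0 : ℝ) < s := by exact_mod_cast Nat.pos_of_ne_zero (NeZero.ne s)
  have hw6 : (0 : ℝ) < (w : ℝ) ^ 6 := by
    have : (0 : ℝ) < w := by exact_mod_cast hw0
    positivity
  calc (1 / ((w : ℝ) ^ 6 * s)) * ∑ z : Tor n, ∑ a : Fin 3 → Fin w, ∑ i : Fin s,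
        ∑ b : Fin 3 → Fin w, ∑ l : Fin s,
        gib (edgesS n s M) β (hS fun _ => h) (hM (ptc z a, i) (ptc z b, l))
      = (1 / (2 * ((w : ℝ) ^ 6 * s))) * (2 * ∑ z : Tor n, ∑ a : Fin 3 → Fin w, ∑ i : Fin s,
        ∑ b : Fin 3 → Fin w, ∑ l : Fin s,
        gib (edgesS n s M) β (hS fun _ => h) (hM (ptc z a, i) (ptc z b, l))) := by
        field_simp
    _ ≤ _ := mul_le_mul_of_nonneg_left h2 (by positivity)

end

end Vale.Agent.P361.LRO.S3S
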