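import Vale.Agent.P361.LRO.S3.MeanNum2
import Vale.Agent.P361.LRO.S3S.Iface

/-!
P361 stage 3, block (M) for all spins `s / 2`: the numbers.
-/

namespace Vale.Agent.P361.LRO.S3S

open Filter Topology Vale.Agent.P361.B Vale.Agent.P361.LRO.S3

theorem aS_eq_BCS (s : ℕ) : aS ((s : ℝ) / 2) = BCS s := by
  have hpi := Real.pi_pos
  unfold aS BCS
  have hs0 : (0 : ℝ) ≤ (s : ℝ) / 2 := by positivity
  have h1 : Real.sqrt (4 * Real.pi * ((s : ℝ) / 2)) ^ 3 = (4 * Real.pi * ((s : ℝ) / 2)) ^ (3 / 2 : ℝ) := by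
    rw [Real.sqrt_eq_rpow, ← Real.rpow_natCast, ← Real.rpow_mul (by positivity)]
    norm_num
  have h2 : (8 : ℝ) * Real.pi ^ (3 / 2 : ℝ) * ((s : ℝ) / 2) ^ (3 / 2 : ℝ) =
      (4 * Real.pi * ((s : ℝ) / 2)) ^ (3 / 2 : ℝ) := by
    have h8 : (8 : ℝ) = 4 ^ (3 / 2 : ℝ) := by
      rw [show (4 : ℝ) = 2 ^ (2 : ℝ) by norm_num, ← Real.rpow_mul (by norm_num)]
      norm_num
    rw [h8, ← Real.mul_rpow (by norm_num) hpi.le, ← Real.mul_rpow (by positivity) hs0]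
  rw [h1, h2, inv_mul_eq_div]

theorem aS_pos {s : ℕ} (hs : 1 ≤ s) : 0 < aS ((s : ℝ) / 2) := by
  have hsR : (1 : ℝ) ≤ s := by exact_mod_cast hs
  have h1 : 0 < fS ((s : ℝ) / 2) 0 := by
    unfold fS
    have hpi := Real.pi_pos
    refine mul_pos (by positivity) ?_
    refine (summable_f le_rfl).tsum_pos (fun r => by positivity) 0 ?_
    positivity
  rwa [fS_zero] at h1

/-- The bounding function, any positive limit `A0`. -/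
theorem G_lim_gen {A0 C0 c c' d D1 D2 C1 C7 δ : ℝ} (hA0 : 0 < A0) (hδ : 0 < δ)
    (hcd : 0 < c' - 2 * d) (h1c : 0 < 1 - c') (hcc : 0 < c - c') (hc2 : 0 < 1 / 2 - c') :
    ∀ᶠ β : ℝ in atTop, ((Real.sqrt (1 - 9 * |C0| * β ^ (-(c' - 2 * d))) ^ 3)⁻¹ *
      (A0 + D2 / β) + (D1 * β ^ (-(1 - c')) + |C1| * β ^ (-(c - c'))) +
      24 * C7 ^ 2 * β ^ (-(1 / 2 - c')) ≤ (1 + δ) * A0) ∧
      9 * |C0| * β ^ (-(c' - 2 * d)) ≤ 1 / 2 := by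
  have T1 : Tendsto (fun β : ℝ => 9 * |C0| * β ^ (-(c' - 2 * d))) atTop (𝓝 0) := by
    simpa using (tendsto_rpow_neg_atTop hcd).const_mul (9 * |C0|)
  have T2 : Tendsto (fun β : ℝ => (Real.sqrt (1 - 9 * |C0| * β ^ (-(c' - 2 * d))) ^ 3)⁻¹) atTop
      (𝓝 1) := by
    have h1 : Tendsto (fun β : ℝ => 1 - 9 * |C0| * β ^ (-(c' - 2 * d))) atTop (𝓝 1) := by
      simpa using tendsto_const_nhds.sub T1
    have h2 := (Real.continuous_sqrt.tendsto 1).comp h1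
    have h3 := (h2.pow 3).inv₀ (by simp)
    simpa using h3
  have T3 : Tendsto (fun β : ℝ => A0 + D2 / β) atTop (𝓝 A0) := by
    have h1 : Tendsto (fun β : ℝ => D2 / β) atTop (𝓝 0) :=
      tendsto_const_nhds.div_atTop tendsto_id
    simpa using tendsto_const_nhds.add h1
  have T4 : Tendsto (fun β : ℝ => D1 * β ^ (-(1 - c')) + |C1| * β ^ (-(c - c'))) atTop
      (𝓝 0) := by
    have h1 := (tendsto_rpow_neg_atTop h1c).const_mul D1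
    have h2 := (tendsto_rpow_neg_atTop hcc).const_mul |C1|
    simpa using h1.add h2
  have T5 : Tendsto (fun β : ℝ => 24 * C7 ^ 2 * β ^ (-(1 / 2 - c'))) atTop (𝓝 0) := by
    simpa using (tendsto_rpow_neg_atTop hc2).const_mul (24 * C7 ^ 2)
  have T6 := ((T2.mul T3).add T4).add T5
  have hlim : (1 : ℝ) * A0 + 0 + 0 < (1 + δ) * A0 := by nlinarith
  filter_upwards [T6.eventually (gt_mem_nhds hlim),
    T1.eventually (gt_mem_nhds (by norm_num : (0 : ℝ) < 1 / 2))] with β h1 h2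
  exact ⟨h1.le, h2.le⟩

theorem exp_small (s : ℕ) : ∀ᶠ β : ℝ in atTop,
    Real.sqrt β ^ 3 * (2 * (s : ℝ) * Real.exp (-β)) ≤ β⁻¹ := by
  have h1 := (tendsto_rpow_mul_exp_neg_mul_atTop_nhds_zero (5 / 2) 1 one_pos).const_mul (2 * (s : ℝ))
  rw [mul_zero] at h1
  filter_upwards [h1.eventually (gt_mem_nhds one_pos), eventually_gt_atTop 0] with β h2 hβ
  rw [← one_div, le_div_iff₀ hβ]
  have e : Real.sqrt β ^ 3 * (2 * (s : ℝ) * Real.exp (-β)) * β =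
      2 * (s : ℝ) * (β ^ (5 / 2 : ℝ) * Real.exp (-1 * β)) := by
    have h3 : Real.sqrt β ^ 3 * β = β ^ (5 / 2 : ℝ) := by
      rw [Real.sqrt_eq_rpow, ← Real.rpow_natCast, ← Real.rpow_mul hβ.le]
      nth_rewrite 2 [← Real.rpow_one β]
      rw [← Real.rpow_add hβ]
      norm_num
    rw [← h3]
    have h4 : Real.exp (-1 * β) = Real.exp (-β) := by congr 1; ring
    rw [h4]
    ring
  rw [e]
  exact h2.le

theorem extra_step {X M P F F0 Cp b ε E : ℝ} (hM : 0 < M) (h : X / M * P ≤ F + Cp / b + ε)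
    (hF : F ≤ F0) (hE : X * E ≤ 1 / b) : X / M * (P + M * E) ≤ F0 + (Cp + 1) / b + ε := by
  have h1 : X / M * (P + M * E) = X / M * P + X * E := by field_simp
  have h2 : (Cp + 1) / b = Cp / b + 1 / b := add_div _ _ _
  rw [h1, h2]
  linarith

theorem small3 {s β : ℝ} (hβ : 0 < β)
    (h : Real.sqrt β ^ 3 * (2 * s * Real.exp (-β)) ≤ β⁻¹) :
    Real.sqrt β ^ 3 * (2 * s * Real.exp (-(3 * β))) ≤ 1 / β := by
  by_cases hs : 0 ≤ s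
  · have hex : Real.exp (-(3 * β)) ≤ Real.exp (-β) := Real.exp_le_exp.2 (by linarith)
    have h2 : Real.sqrt β ^ 3 * (2 * s * Real.exp (-(3 * β))) ≤
        Real.sqrt β ^ 3 * (2 * s * Real.exp (-β)) :=
      mul_le_mul_of_nonneg_left (mul_le_mul_of_nonneg_left hex (by positivity)) (by positivity)
    rw [one_div]
    linarith
  · have h1 : 0 ≤ Real.sqrt β ^ 3 * (2 * (-s) * Real.exp (-(3 * β))) := by
      have : 0 ≤ -s := by linarith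
      positivity
    have h2 : 0 < 1 / β := by positivity
    linarith

theorem smallτ {s β τ : ℝ} (hβ : 0 < β) (hτ0 : 0 ≤ τ) (hτ1 : τ < 1)
    (h : Real.sqrt β ^ 3 * (2 * s * Real.exp (-β)) ≤ β⁻¹) :
    Real.sqrt ((1 - τ) * β) ^ 3 * (2 * s * Real.exp (-β)) ≤ 1 / ((1 - τ) * β) := by
  have h3 : β⁻¹ ≤ 1 / ((1 - τ) * β) := by
    rw [← one_div]
    refine one_div_le_one_div_of_le (mul_pos (by linarith) hβ) ?_
    nlinarith
  by_cases hs : 0 ≤ s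
  · have h2 : Real.sqrt ((1 - τ) * β) ^ 3 * (2 * s * Real.exp (-β)) ≤
        Real.sqrt β ^ 3 * (2 * s * Real.exp (-β)) := by
      refine mul_le_mul_of_nonneg_right ?_ (by positivity)
      refine pow_le_pow_left₀ (Real.sqrt_nonneg _) (Real.sqrt_le_sqrt ?_) 3
      nlinarith
    linarith
  · have h1 : 0 ≤ Real.sqrt ((1 - τ) * β) ^ 3 * (2 * (-s) * Real.exp (-β)) := by
      have : 0 ≤ -s := by linarith
      positivity
    have h2 : 0 < β⁻¹ := by positivity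
    linarith

/-- Numbers of (M), all spins. -/
theorem mean_num_S {s : ℕ} (hs : 1 ≤ s) {c : ℝ} (hc : 0 < c) (C0 C1 C7 : ℝ) :
    ∃ c' d : ℝ, 0 < c' ∧ 0 < d ∧ d ≤ 1 / 100 ∧
    ∀ δ : ℝ, 0 < δ → ∃ β0 : ℝ, 1 ≤ β0 ∧ ∀ β : ℝ, β0 ≤ β → ∀ w : ℝ, 0 ≤ w →
    w ≤ 3 * β ^ (1 / 2 + d) → ∃ μ : ℝ, 0 ≤ μ ∧ μ ≤ 1 / 2 ∧ C0 * β ^ (-1 - c') * w ^ 2 ≤ μ ∧
    ∀ h : ℝ, 0 < h → ∀ᶠ m : ℕ in atTop, ∀ [NeZero m] (y lZ ρ : ℝ),
      β ^ (-(3 / 2) : ℝ) * (FS ((s : ℝ) / 2) 0 - C1 * β ^ (-c)) ≤ lZ / (m : ℝ) ^ 3 →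
      0 ≤ ρ → ρ ≤ C7 * β ^ (-(3 / 2) : ℝ) →
      β * β ^ (-1 - c') * (((m : ℝ) ^ 3 * s) * y) ≤
        (∑ k : Fin 3 → ZMod m, -Real.log (1 - Real.exp (-(β * (s * tK m k + h)))) +
          (m : ℝ) ^ 3 * (2 * s * Real.exp (-(3 * β)))) +
        β * β ^ (-1 - c') *
          (∑ k : Fin 3 → ZMod m, 1 / (Real.exp (β * ((1 - μ) * (s * tK m k) + h)) - 1) +
            (m : ℝ) ^ 3 * (2 * s * Real.exp (-β))) - lZ +
          β * (24 * (s : ℝ) ^ 2 * (m : ℝ) ^ 3 * ρ ^ 2) →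
      y ≤ (1 + δ) * (BCS s / s) * β ^ (-(3 / 2) : ℝ) := by
  have hsR : (1 : ℝ) ≤ s := by exact_mod_cast hs
  obtain ⟨Cp, hCp, hp⟩ := tor_log_eventually (n := s) hs
  obtain ⟨Cd, hCd, hd⟩ := tor_dens_eventually (n := s) hs
  obtain ⟨c', hc'0, hc'c, hc'4⟩ : ∃ c' : ℝ, 0 < c' ∧ c' < c ∧ c' ≤ 1 / 4 :=
    ⟨min (c / 2) (1 / 4), lt_min (by linarith) (by norm_num),
      lt_of_le_of_lt (min_le_left _ _) (by linarith), min_le_right _ _⟩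
  obtain ⟨d, hd0, hd100, hdc⟩ : ∃ d : ℝ, 0 < d ∧ d ≤ 1 / 100 ∧ d ≤ c' / 4 :=
    ⟨min (1 / 100) (c' / 4), lt_min (by norm_num) (by linarith), min_le_left _ _, min_le_right _ _⟩
  refine ⟨c', d, hc'0, hd0, hd100, fun δ hδ => ?_⟩
  obtain ⟨β0, hβ0⟩ := eventually_atTop.1 ((G_lim_gen (A0 := aS ((s : ℝ) / 2)) (C0 := C0) (c := c)
    (c' := c') (d := d) (D1 := Cp + 1 + 1) (D2 := 2 * (Cd + 1) + 1) (C1 := C1) (C7 := s * C7)
    (aS_pos hs) hδ (by linarith) (by linarith) (by linarith)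
    (by linarith)).and ((eventually_ge_atTop (2 * 448 : ℝ)).and (exp_small s)))
  refine ⟨max 1 β0, le_max_left _ _, fun β hβ w hw0 hw => ?_⟩
  obtain ⟨⟨hG, hτ⟩, h896, hsm⟩ := hβ0 β (le_trans (le_max_right _ _) hβ)
  have hβ1 : 1 ≤ β := by linarith
  have hβp : 0 < β := by linarith
  obtain ⟨τ, hτd⟩ : ∃ τ : ℝ, τ = 9 * |C0| * β ^ (-(c' - 2 * d)) := ⟨_, rfl⟩
  rw [← hτd] at hG hτ
  have hτ0 : 0 ≤ τ := by rw [hτd]; positivity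
  have hτw : C0 * β ^ (-1 - c') * w ^ 2 ≤ τ := by
    have h1 := w_step (C0 := C0) (c' := c') (t := 1) (gk := C0 * w ^ 2) hβp zero_le_one hw0 hw
      (by rw [mul_one])
    rw [mul_one, ← hτd] at h1
    linarith
  refine ⟨τ, hτ0, hτ, hτw, fun h hh => ?_⟩
  have hβ' : 448 ≤ (1 - τ) * β := by nlinarith
  have hsb : 0 < β * h := mul_pos hβp hh
  filter_upwards [hp β (by linarith) (β * h) hsb β⁻¹ (by positivity),
    hd ((1 - τ) * β) hβ' (β * h) hsb β⁻¹ (by positivity), eventually_gt_atTop 0] with m hm1 hm2 hm0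
  intro _ y lZ ρ hlZ hρ0 hρ hV
  have m1 := hm1
  have m2 := hm2
  have hmR : (0 : ℝ) < m := by exact_mod_cast hm0
  have hm3 : (0 : ℝ) < (m : ℝ) ^ 3 := by positivity
  have e1 : ∀ k : Fin 3 → ZMod m,
      β * ((s : ℝ) * tK m k) + β * h = β * (s * tK m k + h) := fun k => by ring
  have e2 : ∀ k : Fin 3 → ZMod m, (1 - τ) * β * ((s : ℝ) * tK m k) + β * h =
      β * ((1 - τ) * (s * tK m k) + h) := fun k => by ring
  simp only [e1] at m1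
  simp only [e2] at m2
  have f1 : FS ((s : ℝ) / 2) (β * h) ≤ FS ((s : ℝ) / 2) 0 := FS_mono_zero hsb.le _
  have f2 : fS ((s : ℝ) / 2) (β * h) ≤ aS ((s : ℝ) / 2) := fS_le _ hsb.le
  generalize (∑ k : Fin 3 → ZMod m, -Real.log (1 - Real.exp (-(β * (s * tK m k + h))))) = P at *
  generalize (∑ k : Fin 3 → ZMod m, 1 / (Real.exp (β * ((1 - τ) * (s * tK m k) + h)) - 1)) = Q at *
  have P0 := extra_step (E := 2 * s * Real.exp (-(3 * β))) hm3 m1 f1 (small3 hβp hsm)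
  have Q0 := extra_step (E := 2 * s * Real.exp (-β)) hm3 m2 f2 (smallτ hβp hτ0 (by linarith) hsm)
  have P1 := p_step (M := (m : ℝ) ^ 3) (F0 := FS ((s : ℝ) / 2) 0) (Cp := Cp + 1) hβp P0
  have Q1 := q_step (M := (m : ℝ) ^ 3) (A := aS ((s : ℝ) / 2)) (Cd := Cd + 1) hβp (by linarith)
    hτ Q0
  rw [rpow_neg_three_half hβp] at hlZ hρ ⊢
  have hsρ : (s : ℝ) * ρ ≤ s * C7 * (Real.sqrt β ^ 3)⁻¹ := by
    rw [mul_assoc]; exact mul_le_mul_of_nonneg_left hρ (by positivity)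
  have V3 := mean_core (c := c) (c' := c') (C1 := C1) (C7 := s * C7) (D1 := Cp + 1 + 1)
    (F0 := FS ((s : ℝ) / 2) 0) (A := aS ((s : ℝ) / 2) + (2 * (Cd + 1) + 1) / β) (y := s * y)
    (ρ := s * ρ) hβp hm3 P1 Q1 hlZ (by positivity) hsρ (by
      have e3 : β * β ^ (-1 - c') * (m : ℝ) ^ 3 * (s * y) =
        β * β ^ (-1 - c') * (((m : ℝ) ^ 3 * s) * y) := by ring
      have e4 : 24 * β * (m : ℝ) ^ 3 * (s * ρ) ^ 2 =
        β * (24 * (s : ℝ) ^ 2 * (m : ℝ) ^ 3 * ρ ^ 2) := by ring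
      rw [e3, e4]
      linarith)
  have V4 := V3.trans (mul_le_mul_of_nonneg_left hG (by positivity))
  rw [aS_eq_BCS] at V4
  have e5 : (1 + δ) * (BCS s / s) * (Real.sqrt β ^ 3)⁻¹ =
      (Real.sqrt β ^ 3)⁻¹ * ((1 + δ) * BCS s) / s := by ring
  rw [e5, le_div_iff₀ (by linarith)]
  linarith

theorem lz_conv_S {s : ℕ} (hs : 1 ≤ s) {K β h lZ M : ℝ} (hK : 1 ≤ K) (hKβ : K ≤ β) (h0 : 0 ≤ h)
    (hh : h ≤ β ^ (-(10 : ℝ))) (hM : 0 < M)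
    (hl : ((1 - K / β) * FS ((s : ℝ) / 2) (β * h) / Real.sqrt β ^ 3 -
      (Real.sqrt β ^ 3)⁻¹ / β) * M ≤ lZ) :
    β ^ (-(3 / 2) : ℝ) * (FS ((s : ℝ) / 2) 0 -
      (K * FS ((s : ℝ) / 2) 0 + aS ((s : ℝ) / 2) + 1) * β ^ (-(1 : ℝ))) ≤ lZ / M := by
  have hβ1 : 1 ≤ β := hK.trans hKβ
  have hβp : 0 < β := by linarith
  have hX0 : 0 < (Real.sqrt β ^ 3)⁻¹ := by have := Real.sqrt_pos.2 hβp; positivity
  have h1 : ((1 - K / β) * FS ((s : ℝ) / 2) (β * h) / Real.sqrt β ^ 3 -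
      (Real.sqrt β ^ 3)⁻¹ / β) ≤ lZ / M := by rw [le_div_iff₀ hM]; exact hl
  refine le_trans ?_ h1
  rw [rpow_neg_three_half hβp, Real.rpow_neg_one]
  have e : (1 - K / β) * FS ((s : ℝ) / 2) (β * h) / Real.sqrt β ^ 3 - (Real.sqrt β ^ 3)⁻¹ / β =
      (Real.sqrt β ^ 3)⁻¹ * ((1 - K / β) * FS ((s : ℝ) / 2) (β * h) - 1 / β) := by
    rw [div_eq_mul_inv _ (Real.sqrt β ^ 3)]; ring
  rw [e]
  refine mul_le_mul_of_nonneg_left ?_ hX0.le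
  have hbh : β * h ≤ 1 / β := by
    rw [le_div_iff₀ hβp]
    have h2 : β * h * β ≤ β * β ^ (-(10 : ℝ)) * β :=
      mul_le_mul_of_nonneg_right (mul_le_mul_of_nonneg_left hh hβp.le) hβp.le
    have h3 : β * β ^ (-(10 : ℝ)) * β = β ^ (-(8 : ℝ)) := by
      have h4 : ∀ x : ℝ, β * x * β = β ^ (1 : ℝ) * x * β ^ (1 : ℝ) := fun x => by
        rw [Real.rpow_one]
      rw [h4, ← Real.rpow_add hβp, ← Real.rpow_add hβp]
      norm_num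
    have h5 : β ^ (-(8 : ℝ)) ≤ 1 := Real.rpow_le_one_of_one_le_of_nonpos hβ1 (by norm_num)
    linarith
  have hge := FS_ge (s := β * h) (mul_nonneg hβp.le h0) ((s : ℝ) / 2)
  have hle := FS_mono_zero (mul_nonneg hβp.le h0) ((s : ℝ) / 2)
  have ha : 0 < aS ((s : ℝ) / 2) := aS_pos hs
  have h6 : β * h * aS ((s : ℝ) / 2) ≤ 1 / β * aS ((s : ℝ) / 2) :=
    mul_le_mul_of_nonneg_right hbh ha.le
  have h7 : K / β * FS ((s : ℝ) / 2) (β * h) ≤ K / β * FS ((s : ℝ) / 2) 0 :=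
    mul_le_mul_of_nonneg_left hle (by positivity)
  have e2 : (K * FS ((s : ℝ) / 2) 0 + aS ((s : ℝ) / 2) + 1) * β⁻¹ =
      K / β * FS ((s : ℝ) / 2) 0 + 1 / β * aS ((s : ℝ) / 2) + 1 / β := by
    rw [← one_div]; ring
  rw [e2]
  have e3 : (1 - K / β) * FS ((s : ℝ) / 2) (β * h) =
      FS ((s : ℝ) / 2) (β * h) - K / β * FS ((s : ℝ) / 2) (β * h) := by ring
  rw [e3]
  linarith

/-- Numbers of (M), all spins, with the lower bound of the pressure in the landed form. -/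
theorem mean_final_S {s : ℕ} (hs : 1 ≤ s) {K : ℝ} (hK : 1 ≤ K) (C0 C7 : ℝ) :
    ∃ c' d : ℝ, 0 < c' ∧ 0 < d ∧ d ≤ 1 / 100 ∧
    ∀ δ : ℝ, 0 < δ → ∃ β0 : ℝ, K ≤ β0 ∧ ∀ β : ℝ, β0 ≤ β → ∀ w : ℝ, 0 ≤ w →
    w ≤ 3 * β ^ (1 / 2 + d) → ∃ μ : ℝ, 0 ≤ μ ∧ μ ≤ 1 / 2 ∧ C0 * β ^ (-1 - c') * w ^ 2 ≤ μ ∧
    ∀ h : ℝ, 0 < h → h ≤ β ^ (-(10 : ℝ)) → ∃ ε : ℝ, 0 < ε ∧ ∀ᶠ m : ℕ in atTop,
      ∀ [NeZero m] (y lZ ρ : ℝ),
      ((1 - K / β) * FS ((s : ℝ) / 2) (β * h) / Real.sqrt β ^ 3 - ε) * (m : ℝ) ^ 3 ≤ lZ →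
      0 ≤ ρ → ρ ≤ C7 * β ^ (-(3 / 2) : ℝ) →
      β * β ^ (-1 - c') * (((m : ℝ) ^ 3 * s) * y) ≤
        (∑ k : Fin 3 → ZMod m, -Real.log (1 - Real.exp (-(β * (s * tK m k + h)))) +
          (m : ℝ) ^ 3 * (2 * s * Real.exp (-(3 * β)))) +
        β * β ^ (-1 - c') *
          (∑ k : Fin 3 → ZMod m, 1 / (Real.exp (β * ((1 - μ) * (s * tK m k) + h)) - 1) +
            (m : ℝ) ^ 3 * (2 * s * Real.exp (-β))) - lZ +
          β * (24 * (s : ℝ) ^ 2 * (m : ℝ) ^ 3 * ρ ^ 2) →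
      y ≤ (1 + δ) * (BCS s / s) * β ^ (-(3 / 2) : ℝ) := by
  obtain ⟨c', d, hc', hd, hd100, H⟩ := mean_num_S hs (c := 1) one_pos C0
    (K * FS ((s : ℝ) / 2) 0 + aS ((s : ℝ) / 2) + 1) C7
  refine ⟨c', d, hc', hd, hd100, fun δ hδ => ?_⟩
  obtain ⟨β0, hβ01, H0⟩ := H δ hδ
  refine ⟨max K β0, le_max_left _ _, fun β hβ w hw0 hw => ?_⟩
  obtain ⟨μ, hμ0, hμ1, hμw, H1⟩ := H0 β ((le_max_right _ _).trans hβ) w hw0 hw
  have hKβ : K ≤ β := (le_max_left _ _).trans hβ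
  have hβp : 0 < β := by linarith
  refine ⟨μ, hμ0, hμ1, hμw, fun h hh hhβ => ⟨(Real.sqrt β ^ 3)⁻¹ / β, ?_, ?_⟩⟩
  · have := Real.sqrt_pos.2 hβp
    positivity
  · filter_upwards [H1 h hh, eventually_gt_atTop 0] with m hm hm0
    intro _ y lZ ρ hlZ hρ0 hρ hV
    have hmR : (0 : ℝ) < m := by exact_mod_cast hm0
    have h1 := lz_conv_S hs hK hKβ hh.le hhβ (by positivity : (0 : ℝ) < (m : ℝ) ^ 3) hlZ
    exact hm y lZ ρ h1 hρ0 hρ hV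

end Vale.Agent.P361.LRO.S3S
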