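import Vale.Agent.P361.LRO.S3S.Iface
import Vale.Agent.P361.LRO.S3S.MeanAS
import Vale.Agent.P361.LRO.S3S.MeanCS
import Vale.Agent.P361.LRO.S3S.MeanNumS

/-!
P361, stage 3, all spins, block (M): the sharp upper bound for the block mean in a uniform small
field (helper979).
-/

set_option linter.unusedSectionVars false

namespace Vale.Agent.P361.LRO.S3S.MF

open Finset Filter Topology Matrix Vale.Agent.P361.LRO.GenS Vale.Agent.P361.LRO.S3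

noncomputable section

/-- Lower bound of the free energy of the copies on large tori, uniform in the multiplicity of the
intra-site edges. -/
def LogZLowerS (s : ℕ) : Prop :=
  ∃ K : ℝ, 1 ≤ K ∧ ∀ β : ℝ, K ≤ β → ∀ h : ℝ, 0 ≤ h → ∀ ε : ℝ, 0 < ε →
    ∃ n0 : ℕ, ∀ (n : ℕ) [NeZero n], n0 ≤ n → Odd n → ∀ M : ℕ,
      ((1 - K / β) * B.FS ((s : ℝ) / 2) (β * h) / Real.sqrt β ^ 3 - ε) * (n : ℝ) ^ 3 ≤
        MeanAS.logZS n s M β h

theorem tq_tK {n : ℕ} [NeZero n] (k : Tor n) : OB.tq k = tK n k := OB.tq_eq k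

/-- The density from the bootstrap, uniform field `h`. -/
theorem rho_uniform_of_bootS {s : ℕ} (hs : 1 ≤ s) (hB : BootStmt3S s) :
    ∃ C7 β0 : ℝ, 0 < C7 ∧ ∀ β : ℝ, β0 ≤ β → ∀ h : ℝ,
    0 < h → s * β * h ≤ 1 → ∃ n0 : ℕ, ∀ (n : ℕ) [NeZero n], n0 ≤ n → Odd n →
    ∃ M0 : ℕ, ∀ M : ℕ, M0 ≤ M → ∀ z : Tor n × Fin s,
      rho (edgesS n s M) β (hS fun _ => h) z ≤ C7 * β ^ (-(3 / 2) : ℝ) := by
  obtain ⟨C7, β0, hC7, H⟩ := hB
  have hsR : (1 : ℝ) ≤ s := by exact_mod_cast hs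
  refine ⟨C7, max β0 1, hC7, fun β hβ h hh hβh => ?_⟩
  have hβ0 : β0 ≤ β := le_trans (le_max_left _ _) hβ
  have hβ1 : 0 < β := lt_of_lt_of_le one_pos (le_trans (le_max_right _ _) hβ)
  obtain ⟨n0, Hn⟩ := H β hβ0
  have hlim : Filter.Tendsto (fun n : ℕ => (n : ℝ) ^ (-(1 / 4) : ℝ)) Filter.atTop
      (nhds 0) :=
    (tendsto_rpow_neg_atTop (by norm_num : (0 : ℝ) < 1 / 4)).comp tendsto_natCast_atTop_atTop
  have hpos : 0 < s * β * h := by positivity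
  obtain ⟨n1, hn1⟩ := Filter.eventually_atTop.1 ((tendsto_order.1 hlim).2 (s * β * h) hpos)
  refine ⟨max n0 n1, fun n _ hn hodd => ?_⟩
  obtain ⟨M0, hM0⟩ := Hn n (le_trans (le_max_left _ _) hn) hodd
  refine ⟨M0, fun M hM z => ?_⟩
  have h1 := hM0 M hM (s * β * h)
    (hn1 n (le_trans (le_max_right _ _) hn)).le hβh (fun _ => s * β * h) ?_ z
  · have h2 : (fun _ : Tor n => s * β * h / (s * β)) = fun _ => h := by
      funext _
      field_simp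
    simp only [h2] at h1
    exact h1
  · refine ⟨fun _ => ⟨le_rfl, hβh⟩, fun _ _ => ?_⟩
    have e : 0 ≤ β ^ (-(9 / 2) : ℝ) := (Real.rpow_pos_of_pos hβ1 _).le
    have e1 : 1 ≤ Real.exp (β ^ (-(9 / 2) : ℝ)) := Real.one_le_exp e
    constructor <;> nlinarith

/-- **Block (M)**, all spins. -/
theorem meanStmt3S_of {s : ℕ} (hs : 1 ≤ s) (hZ : LogZLowerS s) (hB : BootStmt3S s) :
    MeanStmt3S s := by
  have : NeZero s := ⟨by omega⟩
  have hsR : (1 : ℝ) ≤ s := by exact_mod_cast hs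
  obtain ⟨C7, β7, hC7, Hρ⟩ := rho_uniform_of_bootS hs hB
  obtain ⟨K, hK1, HZ⟩ := hZ
  obtain ⟨c', d, hc', hd, hd1, H⟩ := mean_final_S hs hK1 12 C7
  refine ⟨d, hd, hd1, fun δ hδ => ?_⟩
  obtain ⟨β0, hβ0K, Hβ⟩ := H δ hδ
  have e1 : ∀ᶠ β : ℝ in atTop, C7 * β ^ (-(3 / 2) : ℝ) < 1 / 4 := by
    have h1 : Tendsto (fun β : ℝ => C7 * β ^ (-(3 / 2) : ℝ)) atTop (𝓝 (C7 * 0)) :=
      (tendsto_rpow_neg_atTop (by norm_num : (0 : ℝ) < 3 / 2)).const_mul C7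
    rw [mul_zero] at h1
    exact (tendsto_order.1 h1).2 _ (by norm_num)
  obtain ⟨β1, hβ1⟩ := eventually_atTop.1 e1
  refine ⟨max (max β0 β1) (max β7 s), fun β hβ a _ ha2 h hh hh2 => ?_⟩
  have g0 : β0 ≤ β := le_trans (le_trans (le_max_left _ _) (le_max_left _ _)) hβ
  have g1 : β1 ≤ β := le_trans (le_trans (le_max_right _ _) (le_max_left _ _)) hβ
  have g7 : β7 ≤ β := le_trans (le_trans (le_max_left _ _) (le_max_right _ _)) hβ
  have gs : (s : ℝ) ≤ β := le_trans (le_trans (le_max_right _ _) (le_max_right _ _)) hβ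
  have gK : K ≤ β := hβ0K.trans g0
  have hb1 : 1 ≤ β := hK1.trans gK
  have hb0 : 0 < β := by linarith
  have f1 := hβ1 β g1
  have hβh : s * β * h ≤ 1 := by
    have h1 : s * β * h ≤ β * β * β ^ (-(10 : ℝ)) := by
      refine mul_le_mul ?_ hh2 hh.le (by positivity)
      exact mul_le_mul_of_nonneg_right gs hb0.le
    have h2 : β * β * β ^ (-(10 : ℝ)) = β ^ (-8 : ℝ) := by
      nth_rewrite 1 [← Real.rpow_one β]
      nth_rewrite 2 [← Real.rpow_one β]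
      rw [← Real.rpow_add hb0, ← Real.rpow_add hb0]
      norm_num
    have h3 : β ^ (-8 : ℝ) ≤ 1 := Real.rpow_le_one_of_one_le_of_nonpos hb1 (by norm_num)
    linarith
  obtain ⟨n1, hn1⟩ := Hρ β g7 h hh hβh
  have hw0 : (0 : ℝ) ≤ ((3 ^ a : ℕ) : ℝ) := Nat.cast_nonneg _
  have hw3 : ((3 ^ a : ℕ) : ℝ) ≤ 3 * β ^ (1 / 2 + d) := by
    push_cast
    exact ha2
  obtain ⟨μ, -, hμ1, hμw, Hμ⟩ := Hβ β g0 ((3 ^ a : ℕ) : ℝ) hw0 hw3
  obtain ⟨ε, hε, Hε⟩ := Hμ h hh hh2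
  obtain ⟨n2, hn2⟩ := HZ β gK h hh.le ε hε
  obtain ⟨n3, hn3⟩ := eventually_atTop.1 Hε
  refine ⟨max (max n1 n2) (max n3 (3 ^ a + 2)), fun n _ hn hodd => ?_⟩
  have k1 : n1 ≤ n := le_trans (le_trans (le_max_left _ _) (le_max_left _ _)) hn
  have k2 : n2 ≤ n := le_trans (le_trans (le_max_right _ _) (le_max_left _ _)) hn
  have k3 : n3 ≤ n := le_trans (le_trans (le_max_left _ _) (le_max_right _ _)) hn
  have k4 : 3 ^ a + 2 ≤ n := le_trans (le_trans (le_max_right _ _) (le_max_right _ _)) hn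
  have k6 : 2 ≤ n := le_trans (Nat.le_add_left 2 _) k4
  have k7 : 3 ^ a ≤ n := le_trans (Nat.le_add_right _ 2) k4
  obtain ⟨M0, hM0⟩ := hn1 n k1 hodd
  refine ⟨M0, fun M hM x => ?_⟩
  have hlam : 0 < β ^ (-1 - c') := Real.rpow_pos_of_pos hb0 _
  refine hn3 n k3 (yb (edgesS n s M) β (hS fun _ => h) (cubeS n s x (3 ^ a)))
    (MeanAS.logZS n s M β h) (C7 * β ^ (-(3 / 2) : ℝ)) (hn2 n k2 hodd M) (by positivity) le_rfl ?_
  have h1 := MeanAS.mean_fin (n := n) (s := s) k6 M (w := 3 ^ a) hb1 hh hlam.le hμw hμ1 f1.le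
    (hM0 M hM) (yb_le_gmatS (n := n) (s := s) (w := 3 ^ a) (Nat.one_le_pow _ _ (by norm_num)) k7 M β h x)
  simp only [← tq_tK]
  exact h1

end

end Vale.Agent.P361.LRO.S3S.MF
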