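import Vale.Agent.P361.LRO.S3.PairIneq
import Vale.Agent.P361.LRO.GenS.LimS

/-!
P361, stage 3, all spins: the pair inequality for the symmetrised state
`Tr (P e^{-β H} A) / Tr (P e^{-β H})` on `V × Fin s` (`P = symProd V s`, `H` = all inter-site
pairs of copies), for ANY two different nodes of `V × Fin s` (also copies of one site).
-/

namespace Vale.Agent.P361.LRO.PairSS

open Finset Matrix Filter Topology
open Vale.Agent.P361.LRO.GenS

noncomputable section

variable {V : Type} [Fintype V] [DecidableEq V] {s : ℕ} [NeZero s]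

/-- The symmetrised Gibbs state. -/
def gibP (L : List (V × V)) (s : ℕ) [NeZero s] (β : ℝ) (h : V → ℝ)
    (A : Matrix (V × Fin s → Fin 2) (V × Fin s → Fin 2) ℝ) : ℝ :=
  Matrix.trace (symProd V s * NormedSpace.exp (-β • ham (interL L s) (lift s h)) * A) /
    Matrix.trace (symProd V s * NormedSpace.exp (-β • ham (interL L s) (lift s h)))

/-- The symmetrised state is the limit of the states with `M` copies of each intra-site pair. -/
theorem tendsto_gibP (L : List (V × V)) {β : ℝ} (hβ : 0 < β) (h : V → ℝ)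
    (hZ : Matrix.trace (symProd V s *
      NormedSpace.exp (-β • ham (interL L s) (lift s h))) ≠ 0)
    (A : Matrix (V × Fin s → Fin 2) (V × Fin s → Fin 2) ℝ) :
    Tendsto (fun M : ℕ => gib (Lm L s M) β (lift s h) A) atTop (𝓝 (gibP L s β h A)) := by
  have key := Lim.tendsto_gib (interL L s) (intraL V s) (lift s h) hβ
    (symProd V s) A symProd_transpose
    (fun e he => by
      obtain ⟨⟨x, a⟩, ⟨y, b⟩⟩ := e
      have h2 := (mem_intraL.1 he).1
      dsimp only at h2
      subst h2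
      exact swapM_mul_symProd x a b)
    (fun v hv => symProd_mulVec v fun x a b => by
      rcases lt_trichotomy a b with hab | hab | hab
      · exact hv ((x, a), (x, b)) (mem_intraL.2 ⟨rfl, hab⟩)
      · subst hab
        have : swapM (x, a) (x, a) = (1 : Matrix (V × Fin s → Fin 2)
            (V × Fin s → Fin 2) ℝ) := by
          ext σ τ
          simp [swapM, Matrix.one_apply]
        rw [this, Matrix.one_mulVec]
      · have h3 := hv ((x, b), (x, a)) (mem_intraL.2 ⟨rfl, hab⟩)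
        have h4 : swapM (x, a) (x, b) = swapM (x, b) (x, a) := by
          ext σ τ
          simp [swapM, Equiv.swap_comm]
        rw [h4]
        exact h3)
    (fun e he => by
      obtain ⟨⟨x, a⟩, ⟨y, b⟩⟩ := e
      have h2 := (mem_intraL.1 he).1
      dsimp only at h2
      subst h2
      exact comm_ham L _ x a b)
    hZ
  exact key

/-- **Pair inequality for the symmetrised state**, product form. -/
theorem pairP_mul_le (L : List (V × V)) {β : ℝ} (hβ : 0 < β) {h : V → ℝ} (hh : ∀ x, 0 ≤ h x)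
    (hZ : Matrix.trace (symProd V s *
      NormedSpace.exp (-β • ham (interL L s) (lift s h))) ≠ 0)
    {u v : V × Fin s} (huv : u ≠ v) :
    gibP L s β h (((1 / 2 : ℝ) • (1 - szM u)) * ((1 / 2 : ℝ) • (1 - szM v))) *
      (1 - gibP L s β h ((1 / 2 : ℝ) • (1 - szM u)) -
        gibP L s β h ((1 / 2 : ℝ) • (1 - szM v))) ≤
      (gibP L s β h ((1 / 2 : ℝ) • (1 - szM u)) +
        gibP L s β h ((1 / 2 : ℝ) • (1 - szM v))) ^ 2 ∧
    0 ≤ gibP L s β h (((1 / 2 : ℝ) • (1 - szM u)) * ((1 / 2 : ℝ) • (1 - szM v))) ∧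
    0 ≤ gibP L s β h ((1 / 2 : ℝ) • (1 - szM u)) ∧
    0 ≤ gibP L s β h ((1 / 2 : ℝ) • (1 - szM v)) := by
  have t1 := tendsto_gibP (s := s) L hβ h hZ
    (((1 / 2 : ℝ) • (1 - szM u)) * ((1 / 2 : ℝ) • (1 - szM v)))
  have t2 := tendsto_gibP (s := s) L hβ h hZ ((1 / 2 : ℝ) • (1 - szM u))
  have t3 := tendsto_gibP (s := s) L hβ h hZ ((1 / 2 : ℝ) • (1 - szM v))
  have hl : ∀ z, 0 ≤ lift s h z := fun z => hh z.1
  have hp : ∀ M : ℕ, _ := fun M : ℕ => PairS.pair_mul_le (Lm L s M) hβ hl huv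
  have h0 : ∀ (M : ℕ) (w : V × Fin s), 0 ≤ gib (Lm L s M) β (lift s h)
      ((1 / 2 : ℝ) • (1 - szM w)) := by
    intro M w
    refine gib_nonneg_of_form _ β _ ?_
    rw [PairS.nM_eq]
    refine Matrix.PosSemidef.diagonal fun σ => ?_
    show (0 : ℝ) ≤ if σ w = 1 then (1 : ℝ) else 0
    split_ifs <;> norm_num
  refine ⟨?_, ge_of_tendsto' t1 fun M => (hp M).2, ge_of_tendsto' t2 fun M => h0 M u,
    ge_of_tendsto' t3 fun M => h0 M v⟩
  refine le_of_tendsto_of_tendsto' (t1.mul ((tendsto_const_nhds.sub t2).sub t3))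
    ((t2.add t3).pow 2) fun M => ?_
  exact (hp M).1

/-- **Pair inequality for the symmetrised state**, `ρ ≤ η ≤ 1/4`. -/
theorem pairP_le (L : List (V × V)) {β : ℝ} (hβ : 0 < β) {h : V → ℝ} (hh : ∀ x, 0 ≤ h x)
    (hZ : Matrix.trace (symProd V s *
      NormedSpace.exp (-β • ham (interL L s) (lift s h))) ≠ 0)
    {u v : V × Fin s} (huv : u ≠ v) {η : ℝ} (hη : η ≤ 1 / 4)
    (hu : gibP L s β h ((1 / 2 : ℝ) • (1 - szM u)) ≤ η)
    (hv : gibP L s β h ((1 / 2 : ℝ) • (1 - szM v)) ≤ η) :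
    gibP L s β h (((1 / 2 : ℝ) • (1 - szM u)) * ((1 / 2 : ℝ) • (1 - szM v))) ≤ 8 * η ^ 2 := by
  obtain ⟨h1, h2, hx0, hy0⟩ := pairP_mul_le L hβ hh hZ huv
  set d := gibP L s β h (((1 / 2 : ℝ) • (1 - szM u)) * ((1 / 2 : ℝ) • (1 - szM v)))
  set ru := gibP L s β h ((1 / 2 : ℝ) • (1 - szM u))
  set rv := gibP L s β h ((1 / 2 : ℝ) • (1 - szM v))
  have h3 : d * (1 / 2) ≤ d * (1 - ru - rv) := mul_le_mul_of_nonneg_left (by linarith) h2
  have h4 : (ru + rv) ^ 2 ≤ (2 * η) ^ 2 := pow_le_pow_left₀ (by linarith) (by linarith) 2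
  nlinarith

end

end Vale.Agent.P361.LRO.PairSS
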