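import Vale.Agent.P361.LRO.S3S.Iface
import Vale.Agent.P361.LRO.S3.StartS
import Vale.Agent.P361.LRO.GenS.LimS
import Vale.Agent.P361.LRO.GenS.Trans

/-!
P361, stage 3, all spins, block (B0): the start of the bootstrap.
-/

namespace Vale.Agent.P361.LRO.S3S

open Finset Filter Topology Vale.Agent.P361.LRO.GenS Vale.Agent.P361.LRO.S3

/-- All densities of a uniform field are equal. -/
theorem b0s_rho_eq (n s M : ℕ) [NeZero n] (β h : ℝ) (z z' : Tor n × Fin s) :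
    rho (edgesS n s M) β (hS fun _ => h) z = rho (edgesS n s M) β (hS fun _ => h) z' := by
  have h1 := transStmtS s n M β (fun _ => h) z.1 (z'.1 - z.1) z.2 z'.2
  rw [add_sub_cancel] at h1
  exact h1

/-- The densities converge as `M → ∞`. -/
theorem b0s_tendsto {n s : ℕ} [NeZero n] [NeZero s] (hn : 3 ≤ n) {β : ℝ} (hβ : 0 < β) (h : ℝ)
    (z : Tor n × Fin s) :
    Tendsto (fun M : ℕ => rho (edgesS n s M) β (hS fun _ => h) z) atTop
      (𝓝 (1 / 2 - gibbsMagV s (torusAdj n) β h / (s * (n : ℝ) ^ 3))) := by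
  have hs0 : (s : ℝ) ≠ 0 := Nat.cast_ne_zero.2 (NeZero.ne s)
  have hn0 : (n : ℝ) ≠ 0 := Nat.cast_ne_zero.2 (NeZero.ne n)
  have hcard : (Fintype.card (Tor n × Fin s) : ℝ) = s * (n : ℝ) ^ 3 := by
    rw [Fintype.card_prod, Fintype.card_fin, Fintype.card_fun, ZMod.card, Fintype.card_fin]
    push_cast
    ring
  have h1 := ((tendsto_gibbsMag (s := s) hn hβ h).div_const (s * (n : ℝ) ^ 3)).const_sub (1 / 2)
  refine h1.congr fun M => ?_
  rw [Finset.sum_congr rfl fun z' _ => by rw [b0s_rho_eq n s M β h z' z],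
    Finset.sum_const, Finset.card_univ, nsmul_eq_mul, hcard]
  field_simp
  ring

/-- (B0) from the uniform Bloch asymptotics of the landed part. -/
theorem startStmt3S_of (s : ℕ) (hs : 1 ≤ s) (hU : ∀ κ : ℝ, κ < 1 / 21 → ∀ ε : ℝ, 0 < ε →
    ∀ᶠ β : ℝ in atTop, ∀ h : ℝ, β ^ (-1 - κ) ≤ h →
      |β ^ (3 / 2 : ℝ) * ((s : ℝ) / 2 - Model.mag s β h) -
        Model.idealDeficit ((s : ℝ) / 2) (β * h)| ≤ ε) : StartStmt3S s := by
  have hs0 : (0 : ℝ) < s := Nat.cast_pos.2 hs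
  have _ : NeZero s := ⟨by omega⟩
  obtain ⟨C, β0, hC⟩ := magTorus_start s (c := 1 / s) (by positivity) hU
  refine ⟨C / s + 1, max β0 1, fun β hβ => ?_⟩
  have hb0 : (0 : ℝ) < β := lt_of_lt_of_le one_pos (le_trans (le_max_right _ _) hβ)
  obtain ⟨N0, hN0⟩ := hC β (le_trans (le_max_left _ _) hβ)
  refine ⟨2 * N0 + 3, fun n _ hn hodd => ?_⟩
  obtain ⟨N, hN⟩ := hodd
  subst hN
  have h1 := (hN0 N (by omega)).2
  have hfield : (1 : ℝ) / s / β = 1 / (s * β) := by rw [div_div]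
  rw [hfield] at h1
  have hpow : 0 < β ^ (-(3 / 2) : ℝ) := Real.rpow_pos_of_pos hb0 _
  have hlim : 1 / 2 - gibbsMagV s (torusAdj (2 * N + 1)) β (1 / (s * β)) /
      (s * ((2 * N + 1 : ℕ) : ℝ) ^ 3) ≤ C / s * β ^ (-(3 / 2) : ℝ) := by
    have e1 : 1 / 2 - gibbsMagV s (torusAdj (2 * N + 1)) β (1 / (s * β)) /
        (s * ((2 * N + 1 : ℕ) : ℝ) ^ 3) = ((s : ℝ) / 2 -
          gibbsMagV s (torusAdj (2 * N + 1)) β (1 / (s * β)) / (2 * N + 1) ^ 3) / s := by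
      push_cast
      field_simp
    rw [e1, div_le_iff₀ hs0]
    calc _ ≤ C * β ^ (-(3 / 2) : ℝ) := h1
      _ = C / s * β ^ (-(3 / 2) : ℝ) * s := by field_simp
  have hz : ∃ M0 : ℕ, ∀ M : ℕ, M0 ≤ M →
      rho (edgesS (2 * N + 1) s M) β (hS fun _ => 1 / (s * β)) (0, ⟨0, by omega⟩) ≤
        (C / s + 1) * β ^ (-(3 / 2) : ℝ) := by
    have h2 := b0s_tendsto (n := 2 * N + 1) (s := s) (by omega) hb0 (1 / (s * β))
      ((0 : Tor (2 * N + 1)), (⟨0, by omega⟩ : Fin s))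
    have h3 := (tendsto_order.1 h2).2 ((C / s + 1) * β ^ (-(3 / 2) : ℝ)) (by
      rw [add_mul, one_mul]
      linarith)
    obtain ⟨M0, hM0⟩ := eventually_atTop.1 h3
    exact ⟨M0, fun M hM => (hM0 M hM).le⟩
  obtain ⟨M0, hM0⟩ := hz
  refine ⟨M0, fun M hM z => ?_⟩
  rw [b0s_rho_eq (2 * N + 1) s M β (1 / (s * β)) z (0, ⟨0, by omega⟩)]
  exact hM0 M hM

end Vale.Agent.P361.LRO.S3S
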