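import Vale.Agent.P361.LRO.S3S.Iface
import Vale.Agent.P361.LRO.S3.Tail
import Vale.Agent.P361.LRO.S3.LT2

/-!
P361, stage 3, block (T) for all spins `s / 2`: lower tail of `N_b`. Assembly (helper260).
-/

namespace Vale.Agent.P361.LRO.S3ST

open Finset Matrix Filter Topology
open Vale.Agent.P361.LRO Vale.Agent.P361.LRO.S3 Vale.Agent.P361.LRO.S3T Vale.Agent.P361.LRO.S3S
open Vale.Agent.P361.LRO.GenS

/-- (T0) + (T1) for spin `s / 2`. -/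
def LT01StmtS (s : ℕ) : Prop :=
  ∀ β h : ℝ, 0 < β → 0 < h → ∀ w : ℕ, 0 < w → ∀ ε : ℝ, 0 < ε →
    ∃ n0 : ℕ, ∀ (n : ℕ) [NeZero n], n0 ≤ n → Odd n →
    ∀ (x : Tor n) (G : Polynomial ℝ) (τ1 τ2 c1 c2 : ℝ), 0 < τ1 → 0 < τ2 → 0 ≤ c1 → 0 ≤ c2 →
    (∀ r : ℕ, 2 * r ≤ s * w ^ 3 →
      Real.exp (G.eval ((r : ℝ) * (((s * w ^ 3 : ℕ) : ℝ) - r + 1))) ≤
        c1 * Real.exp (-(τ1 * r)) + c2 * Real.exp (-(τ2 * r))) →
    ∃ M0 : ℕ, ∀ M : ℕ, M0 ≤ M →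
    gib (edgesS n s M) β (hS fun _ => h) (Polynomial.aeval (CM (cubeS n s x w)) G) ≤
      Real.log (((s : ℝ) * (w : ℝ) ^ 3 + 1) *
        (c1 * B.Zt s (B.cube w) β τ1 + c2 * B.Zt s (B.cube w) β τ2)) -
      (w : ℝ) ^ 3 * B.gRed s β h + ε

theorem BCS_eq (s : ℕ) : BCS s = B.aS ((s : ℝ) / 2) := by
  unfold BCS B.aS
  have h1 : Real.sqrt (4 * Real.pi * ((s : ℝ) / 2)) ^ 3 =
      8 * Real.pi ^ (3 / 2 : ℝ) * ((s : ℝ) / 2) ^ (3 / 2 : ℝ) := by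
    have hpi := Real.pi_pos
    have e1 : Real.sqrt (4 * Real.pi * ((s : ℝ) / 2)) ^ 3 =
        (4 * Real.pi * ((s : ℝ) / 2)) ^ (3 / 2 : ℝ) := by
      rw [Real.sqrt_eq_rpow, ← Real.rpow_natCast, ← Real.rpow_mul (by positivity)]
      norm_num
    rw [e1, Real.mul_rpow (by positivity) (by positivity), Real.mul_rpow (by norm_num) hpi.le]
    have e2 : (4 : ℝ) ^ (3 / 2 : ℝ) = 8 := by
      rw [show (4 : ℝ) = 2 ^ (2 : ℝ) by norm_num, ← Real.rpow_mul (by norm_num)]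
      norm_num
    rw [e2]
  rw [h1, div_eq_inv_mul]

theorem aS_posS {s : ℕ} (hs : 1 ≤ s) : 0 < B.aS ((s : ℝ) / 2) := by
  refine lt_of_lt_of_le ?_ (B.fR_le ((s : ℝ) / 2) 1 (t := 0) le_rfl)
  unfold B.fR
  have hpi := Real.pi_pos
  have : (0 : ℝ) < s := by exact_mod_cast hs
  simp only [Finset.range_one, Finset.sum_singleton]
  positivity

/-- Eventual lower bound of the reduced pressure at tiny fields. -/
theorem gRed_geS {s : ℕ} (hs : 1 ≤ s) {ε : ℝ} (hε : 0 < ε) : ∃ β0 : ℝ, ∀ β : ℝ, β0 ≤ β → ∀ h : ℝ, 0 < h →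
    h ≤ β ^ (-(10 : ℝ)) → B.FS ((s : ℝ) / 2) 0 - ε ≤ Real.sqrt β ^ 3 * B.gRed s β h := by
  obtain ⟨K, hK1, hK⟩ := B.gRed_lower hs
  obtain ⟨R, hR⟩ := ((B.FR_tendsto ((s : ℝ) / 2) (t := 0) le_rfl).eventually
    (lt_mem_nhds (show B.FS ((s : ℝ) / 2) 0 - ε / 3 < B.FS ((s : ℝ) / 2) 0 by linarith))).exists
  have hcont : Tendsto (fun t : ℝ => B.FR ((s : ℝ) / 2) R t) (𝓝 0) (𝓝 (B.FR ((s : ℝ) / 2) R 0)) :=
    (B.hasDerivAt_FR ((s : ℝ) / 2) R 0).continuousAt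
  have hsmall : Tendsto (fun β : ℝ => β ^ (-(9 : ℝ))) atTop (𝓝 0) :=
    tendsto_rpow_neg_atTop (by norm_num)
  have h1 : ∀ᶠ t in 𝓝 (0 : ℝ), B.FS ((s : ℝ) / 2) 0 - 2 * ε / 3 < B.FR ((s : ℝ) / 2) R t :=
    hcont.eventually (lt_mem_nhds (by linarith))
  obtain ⟨δ', hδ', hball⟩ := Metric.eventually_nhds_iff.1 h1
  set X : ℝ := B.FS ((s : ℝ) / 2) 0 - 2 * ε / 3 with hX
  have h2 : Tendsto (fun β : ℝ => (1 - K / β) * X) atTop (𝓝 ((1 - 0) * X)) :=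
    (tendsto_const_nhds.sub (tendsto_const_nhds.div_atTop tendsto_id)).mul_const X
  have h3 : ∀ᶠ β : ℝ in atTop, X - ε / 3 < (1 - K / β) * X :=
    h2.eventually (lt_mem_nhds (by linarith))
  have h4 : ∀ᶠ β : ℝ in atTop, β ^ (-(9 : ℝ)) < δ' := hsmall.eventually (gt_mem_nhds hδ')
  obtain ⟨β0, hβ0⟩ := eventually_atTop.1 (h3.and (h4.and (eventually_ge_atTop (max K 1))))
  refine ⟨β0, fun β hβ h hh0 hh => ?_⟩
  obtain ⟨h5, h6, h7⟩ := hβ0 β hβ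
  have hβK : K ≤ β := (le_max_left _ _).trans h7
  have hβ1 : 1 ≤ β := (le_max_right _ _).trans h7
  have hβ : 0 < β := by linarith
  refine le_trans ?_ (hK β hβK h hh0.le R)
  have h8 : β * h < δ' := by
    refine lt_of_le_of_lt ?_ h6
    calc β * h ≤ β * β ^ (-(10 : ℝ)) := mul_le_mul_of_nonneg_left hh hβ.le
      _ = β ^ (-(9 : ℝ)) := by
        nth_rewrite 1 [← Real.rpow_one β]
        rw [← Real.rpow_add hβ]
        norm_num
  have h9 : X < B.FR ((s : ℝ) / 2) R (β * h) := by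
    refine hball ?_
    rw [Real.dist_eq, sub_zero, abs_of_nonneg (by positivity)]
    exact h8
  have h10 : 0 ≤ 1 - K / β := by
    rw [sub_nonneg, div_le_one hβ]; exact hβK
  have h11 := mul_le_mul_of_nonneg_left h9.le h10
  linarith

theorem num_logS {β d W v c σ : ℝ} (hσ : 1 ≤ σ) (hβ1 : 1 ≤ β) (hd1 : d ≤ 1 / 100) (hWp : 0 < W)
    (ha1 : β ^ (1 / 2 + d) ≤ W) (ha2 : W ≤ 3 * β ^ (1 / 2 + d)) (hv : v = W ^ 3 / Real.sqrt β ^ 3)
    (hc : 0 < c) (k1 : Real.log (56 * σ) + 3 * Real.log β ≤ c * β ^ (3 * d)) :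
    Real.log (2 * (σ * W ^ 3 + 1)) ≤ c * v := by
  have hβ0 : 0 < β := by linarith
  have hσ0 : 0 < σ := by linarith
  have hsb : 0 < Real.sqrt β ^ 3 := by
    have := Real.sqrt_pos.2 hβ0
    positivity
  have a1 : W ≤ 3 * β := by
    refine ha2.trans ?_
    refine mul_le_mul_of_nonneg_left ?_ (by norm_num)
    calc β ^ (1 / 2 + d) ≤ β ^ (1 : ℝ) :=
          Real.rpow_le_rpow_of_exponent_le hβ1 (by linarith)
      _ = β := Real.rpow_one β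
  have a2 : 2 * (σ * W ^ 3 + 1) ≤ 56 * σ * β ^ 3 := by
    have b1 : W ^ 3 ≤ (3 * β) ^ 3 := pow_le_pow_left₀ hWp.le a1 3
    have b2 : 1 ≤ β ^ 3 := one_le_pow₀ hβ1
    have b3 : (3 * β) ^ 3 = 27 * β ^ 3 := by ring
    rw [b3] at b1
    have b4 := mul_le_mul_of_nonneg_left b1 hσ0.le
    have b5 : 1 ≤ σ * β ^ 3 := by nlinarith
    linarith
  have a3 := Real.log_le_log (by positivity) a2
  rw [Real.log_mul (x := 56 * σ) (by positivity) (by positivity), Real.log_pow] at a3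
  have a4 : β ^ (3 * d) ≤ v := by
    rw [hv, le_div_iff₀ hsb]
    have b1 : Real.sqrt β ^ 3 = β ^ (3 / 2 : ℝ) := by
      rw [Real.sqrt_eq_rpow, ← Real.rpow_natCast, ← Real.rpow_mul hβ0.le]
      norm_num
    have b2 : (β ^ (1 / 2 + d)) ^ 3 ≤ W ^ 3 :=
      pow_le_pow_left₀ (Real.rpow_nonneg hβ0.le _) ha1 3
    refine le_trans (le_of_eq ?_) b2
    rw [b1, ← Real.rpow_natCast (β ^ (1 / 2 + d)) 3, ← Real.rpow_mul hβ0.le,
      ← Real.rpow_add hβ0]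
    congr 1
    push_cast
    ring
  have a5 := mul_le_mul_of_nonneg_left a4 hc.le
  push_cast at a3
  linarith

theorem card_cubeS {n s : ℕ} [NeZero n] (x : Tor n) {w : ℕ} (hw : w ≤ n) :
    (cubeS n s x w).card = s * w ^ 3 := by
  unfold cubeS
  rw [Finset.card_product, EnR.card_cube x hw, Finset.card_univ, Fintype.card_fin, mul_comm]

theorem tailStmt3S_of {s : ℕ} (hs1 : 1 ≤ s) (h01 : LT01StmtS s) (hB : BootStmt3S s) :
    TailStmt3S s := by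
  intro d hd0 hd1 δ hδ
  have hsR : (1 : ℝ) ≤ s := by exact_mod_cast hs1
  have hsR0 : (0 : ℝ) < s := by linarith
  obtain ⟨C7, βB, hC7, hB⟩ := hB
  rcases le_or_gt 1 δ with hδ1 | hδ1
  · refine ⟨1, fun β hβ a _ _ h _ _ => ⟨0, fun n _ _ _ x P hP => ⟨0, fun M _ => ?_⟩⟩⟩
    obtain ⟨ι, hι, μ, r, hμ0, hr, hμ1, hlaw, -⟩ :=
      gib_law (edgesS n s M) β (hS fun _ => h) (cubeS n s x (3 ^ a))
    rw [← hlaw P]
    calc _ ≤ ∑ i, μ i * 1 := Finset.sum_le_sum fun i _ =>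
          mul_le_mul_of_nonneg_left ((hP _ (hr i)).trans (by split_ifs <;> norm_num)) (hμ0 i)
      _ = 1 := by simp [hμ1]
      _ ≤ δ := hδ1
  set A : ℝ := B.aS ((s : ℝ) / 2) with hA
  have hA0 : 0 < A := aS_posS hs1
  obtain ⟨τ, hτ0, hτ⟩ : ∃ τ : ℝ, 0 < τ ∧ (1 - δ / 4) * A ≤ B.fS ((s : ℝ) / 2) τ := by
    have h1 := B.fS_tendsto_zero ((s : ℝ) / 2)
    rw [B.fS_zero] at h1
    have h2 : ∀ᶠ t in 𝓝[≥] (0 : ℝ), (1 - δ / 4) * A < B.fS ((s : ℝ) / 2) t :=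
      h1.eventually (lt_mem_nhds (by nlinarith))
    have h3 : ∀ᶠ t in 𝓝[>] (0 : ℝ), (1 - δ / 4) * A < B.fS ((s : ℝ) / 2) t :=
      h2.filter_mono (nhdsWithin_mono _ Set.Ioi_subset_Ici_self)
    obtain ⟨t, ht1, ht2⟩ := (h3.and self_mem_nhdsWithin).exists
    exact ⟨t, ht2, ht1.le⟩
  obtain ⟨s0, hs0⟩ : ∃ s0 : ℝ, s0 = 3 / 4 * δ * τ * A := ⟨_, rfl⟩
  have hs0p : 0 < s0 := by rw [hs0]; positivity
  obtain ⟨C8, hC8⟩ : ∃ C8 : ℝ, C8 = s * C7 := ⟨_, rfl⟩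
  have hC8p : 0 < C8 := by rw [hC8]; positivity
  obtain ⟨t', ht'⟩ : ∃ t' : ℝ, t' = s0 * δ / (4 * C8) := ⟨_, rfl⟩
  have ht'p : 0 < t' := by rw [ht']; positivity
  obtain ⟨ε, hε⟩ : ∃ ε : ℝ, ε = s0 * δ / 16 := ⟨_, rfl⟩
  have hεp : 0 < ε := by rw [hε]; positivity
  obtain ⟨β1, hβ1⟩ := lt2n hs1 hd0 hd1 ht'p hεp
  obtain ⟨β2, hβ2⟩ := lt2n hs1 hd0 hd1 hτ0 hεp
  obtain ⟨β3, hβ3⟩ := gRed_geS hs1 hεp
  have hc : 0 < s0 * δ / 8 := by positivity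
  have hl : ∀ᶠ β : ℝ in atTop, Real.log (56 * s) + 3 * Real.log β ≤ s0 * δ / 8 * β ^ (3 * d) := by
    have l1 := (isLittleO_log_rpow_atTop (show 0 < 3 * d by linarith)).bound
      (show 0 < s0 * δ / 8 / 6 by positivity)
    have l2 : ∀ᶠ β : ℝ in atTop, Real.log (56 * s) / (s0 * δ / 8 / 2) ≤ β ^ (3 * d) :=
      (tendsto_rpow_atTop (by linarith)).eventually_ge_atTop _
    filter_upwards [l1, l2, eventually_ge_atTop 1] with β l1 l2 l3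
    rw [Real.norm_of_nonneg (Real.log_nonneg l3),
      Real.norm_of_nonneg (Real.rpow_nonneg (by linarith) _)] at l1
    rw [div_le_iff₀ (by positivity)] at l2
    nlinarith
  have hl2 : ∀ᶠ β : ℝ in atTop, s * β ^ (-(9 : ℝ)) ≤ 1 := by
    have l1 : Tendsto (fun β : ℝ => s * β ^ (-(9 : ℝ))) atTop (𝓝 (s * 0)) :=
      (tendsto_rpow_neg_atTop (by norm_num)).const_mul _
    rw [mul_zero] at l1
    filter_upwards [l1.eventually (gt_mem_nhds one_pos)] with β l2 using l2.le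
  obtain ⟨β4, hβ4⟩ := eventually_atTop.1 (hl.and (hl2.and (eventually_ge_atTop (max 1 βB))))
  refine ⟨max (max β1 β2) (max β3 β4), fun β hβ a ha1 ha2 h hh0 hh => ?_⟩
  have hb1 : β1 ≤ β := (le_max_left _ _).trans ((le_max_left _ _).trans hβ)
  have hb2 : β2 ≤ β := (le_max_right _ _).trans ((le_max_left _ _).trans hβ)
  have hb3 : β3 ≤ β := (le_max_left _ _).trans ((le_max_right _ _).trans hβ)
  have hb4 : β4 ≤ β := (le_max_right _ _).trans ((le_max_right _ _).trans hβ)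
  obtain ⟨k1, k2, k3⟩ := hβ4 β hb4
  have hβ1' : 1 ≤ β := (le_max_left _ _).trans k3
  have hβB : βB ≤ β := (le_max_right _ _).trans k3
  have hβ0 : 0 < β := by linarith
  obtain ⟨nB, hnB⟩ := hB β hβB
  have hw0 : 0 < 3 ^ a := by positivity
  obtain ⟨W, hW⟩ : ∃ W : ℝ, W = (3 : ℝ) ^ a := ⟨_, rfl⟩
  have hW1 : 1 ≤ W := by rw [hW]; exact one_le_pow₀ (by norm_num)
  have hWp : 0 < W := by linarith
  have hsb : 0 < Real.sqrt β ^ 3 := by
    have := Real.sqrt_pos.2 hβ0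
    positivity
  obtain ⟨v, hv⟩ : ∃ v : ℝ, v = W ^ 3 / Real.sqrt β ^ 3 := ⟨_, rfl⟩
  have hvp : 0 < v := by rw [hv]; positivity
  obtain ⟨n1, hn1⟩ := h01 β h hβ0 hh0 (3 ^ a) hw0 (s0 * δ / 8 * v) (by positivity)
  obtain ⟨nh, hnh⟩ : ∃ nh : ℕ, ∀ n : ℕ, nh ≤ n → (n : ℝ) ^ (-(1 / 4) : ℝ) ≤ s * β * h := by
    have l1 : Tendsto (fun n : ℕ => (n : ℝ) ^ (-(1 / 4) : ℝ)) atTop (𝓝 0) :=
      (tendsto_rpow_neg_atTop (by norm_num)).comp tendsto_natCast_atTop_atTop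
    obtain ⟨N, hN⟩ := eventually_atTop.1
      (l1.eventually (gt_mem_nhds (show 0 < s * β * h by positivity)))
    exact ⟨N, fun n hn => (hN n hn).le⟩
  have hhβ : s * β * h ≤ 1 := by
    calc s * β * h ≤ s * β * β ^ (-(10 : ℝ)) :=
          mul_le_mul_of_nonneg_left hh (by positivity)
      _ = s * β ^ (-(9 : ℝ)) := by
        rw [mul_assoc]
        congr 1
        nth_rewrite 1 [← Real.rpow_one β]
        rw [← Real.rpow_add hβ0]
        norm_num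
      _ ≤ 1 := k2
  refine ⟨max (max n1 (3 ^ a)) (max nB nh), fun n _ hn hodd x P hP => ?_⟩
  have hn1' : n1 ≤ n := (le_max_left _ _).trans ((le_max_left _ _).trans hn)
  have hwn : 3 ^ a ≤ n := (le_max_right _ _).trans ((le_max_left _ _).trans hn)
  have hnB' : nB ≤ n := (le_max_left _ _).trans ((le_max_right _ _).trans hn)
  have hnh' : nh ≤ n := (le_max_right _ _).trans ((le_max_right _ _).trans hn)
  have hcard : (cubeS n s x (3 ^ a)).card = s * (3 ^ a) ^ 3 := card_cubeS x hwn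
  have hcardR : ((cubeS n s x (3 ^ a)).card : ℝ) = s * W ^ 3 := by
    rw [hcard, hW]; push_cast; ring
  obtain ⟨q, hq⟩ : ∃ q : ℝ, q = (1 - δ) * A * v := ⟨_, rfl⟩
  have hpow : β ^ (-(3 / 2) : ℝ) = 1 / Real.sqrt β ^ 3 := by
    rw [Real.rpow_neg hβ0.le, Real.sqrt_eq_rpow, ← Real.rpow_natCast, ← Real.rpow_mul hβ0.le,
      one_div]
    norm_num
  have hq' : (1 - δ) * (BCS s / s) * β ^ (-(3 / 2) : ℝ) * (cubeS n s x (3 ^ a)).card = q := by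
    have e1 : BCS s = A := BCS_eq s
    rw [hq, e1, hcardR, hpow, hv]
    have e2 : (1 - δ) * (A / s) * (1 / Real.sqrt β ^ 3) * (s * W ^ 3) =
        (1 - δ) * A * (W ^ 3 / Real.sqrt β ^ 3) * (s / s) := by ring
    rw [e2, div_self hsR0.ne', mul_one]
  rw [hq'] at hP
  obtain ⟨sg, hsg⟩ : ∃ sg : ℝ, sg = s0 * v := ⟨_, rfl⟩
  obtain ⟨G, hG⟩ := TwJ.exists_poly (s * (3 ^ a) ^ 3)
    (fun r : ℕ => (if (r : ℝ) < q then sg else 0) - t' * r)
  have hcast : ((3 ^ a : ℕ) : ℝ) = W := by rw [hW]; push_cast; rfl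
  obtain ⟨M1, hM1⟩ := hn1 n hn1' hodd x G t' τ 1 (Real.exp (sg + τ * q)) ht'p hτ0 zero_le_one
    (Real.exp_pos _).le (fun r' hr' => exp_G ht'p.le hτ0.le (hG r' hr'))
  obtain ⟨MB, hMB⟩ := hnB n hnB' hodd
  refine ⟨max M1 MB, fun M hM => ?_⟩
  have hX := hM1 M ((le_max_left _ _).trans hM)
  have hMB' := hMB M ((le_max_right _ _).trans hM)
  obtain ⟨ι, hι, μ, r, hμ0, hr, hμ1, hlaw, hmean⟩ :=
    gib_law (edgesS n s M) β (hS fun _ => h) (cubeS n s x (3 ^ a))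
  rw [← hlaw P]
  -- mean of `r`
  have hrho : ∀ z, rho (edgesS n s M) β (hS fun _ => h) z ≤ C7 * β ^ (-(3 / 2) : ℝ) := by
    intro z
    have h1 := hMB' (s * β * h) (hnh n hnh') hhβ (fun _ => s * β * h)
      (fam_const (by positivity) hhβ (by positivity)) z
    have e1 : (fun _ : Tor n => s * β * h / (s * β)) = fun _ => h := by
      funext _
      rw [mul_div_cancel_left₀ _ (by positivity)]
    simp only [e1] at h1
    exact h1
  have hmean' : ∑ i, μ i * (r i : ℝ) ≤ C8 * v := by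
    refine hmean.trans ((Finset.sum_le_card_nsmul _ _ _ fun z _ => hrho z).trans ?_)
    rw [nsmul_eq_mul, hcardR, hpow, hv, hC8]
    refine le_of_eq ?_
    ring
  -- the exponent
  have hFt := FS_anti ((s : ℝ) / 2) ht'p.le
  have hFτ := FS_sub_ge ((s : ℝ) / 2) hτ0.le
  have hFτ' : τ * ((1 - δ / 4) * A) ≤ B.FS ((s : ℝ) / 2) 0 - B.FS ((s : ℝ) / 2) τ :=
    (mul_le_mul_of_nonneg_left hτ hτ0.le).trans hFτ
  have hz1 := B.Zt_pos (n := s) (Λ := B.cube (3 ^ a)) β t'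
  have hz2 := B.Zt_pos (n := s) (Λ := B.cube (3 ^ a)) β τ
  have hvv : v * (Real.sqrt β ^ 3 / W ^ 3) = 1 := by
    rw [hv]; field_simp
  have q1 : Real.log (B.Zt s (B.cube (3 ^ a)) β t') ≤ v * (B.FS ((s : ℝ) / 2) t' + ε) := by
    have e := hβ1 β hb1 a (by rw [← hW]; exact hW ▸ ha1) (by rw [← hW]; exact hW ▸ ha2)
    rw [← hW] at e
    have e2 := mul_le_mul_of_nonneg_left e hvp.le
    rwa [← mul_assoc, hvv, one_mul] at e2
  have q2 : Real.log (B.Zt s (B.cube (3 ^ a)) β τ) ≤ v * (B.FS ((s : ℝ) / 2) τ + ε) := by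
    have e := hβ2 β hb2 a (by rw [← hW]; exact hW ▸ ha1) (by rw [← hW]; exact hW ▸ ha2)
    rw [← hW] at e
    have e2 := mul_le_mul_of_nonneg_left e hvp.le
    rwa [← mul_assoc, hvv, one_mul] at e2
  have q3 := log_bound (W := s * W ^ 3) hvp (by positivity) hsg hq hs0 hFt hFτ' hz1 hz2 q1 q2
  have q4 := hβ3 β hb3 h hh0 hh
  have q5 : v * (B.FS ((s : ℝ) / 2) 0 - ε) ≤ W ^ 3 * B.gRed s β h := by
    have e := mul_le_mul_of_nonneg_left q4 hvp.le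
    have e2 : v * (Real.sqrt β ^ 3 * B.gRed s β h) = W ^ 3 * B.gRed s β h := by
      rw [hv]; field_simp
    rwa [e2] at e
  rw [hcast, ← hlaw G] at hX
  have hGi : ∀ i, G.eval ((r i : ℝ) * (((cubeS n s x (3 ^ a)).card : ℝ) - r i + 1)) =
      (if (r i : ℝ) < q then sg else 0) - t' * r i := by
    intro i
    have := hG (r i) (by have := hr i; rwa [hcard] at this)
    rw [hcard]
    exact this
  have hcore := core μ r (g := fun i =>
    G.eval ((r i : ℝ) * (((cubeS n s x (3 ^ a)).card : ℝ) - r i + 1))) ht'p.le hGi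
    hX hmean'
  have q6 : Real.log (2 * (s * W ^ 3 + 1)) ≤ s0 * δ / 8 * v :=
    num_logS hsR hβ1' hd1 hWp (hW ▸ ha1) (hW ▸ ha2) hv hc k1
  have q7 : ∑ i, μ i * P.eval ((r i : ℝ) * (((cubeS n s x (3 ^ a)).card : ℝ) - r i + 1)) ≤
      ∑ i, (if (r i : ℝ) < q then μ i else 0) := by
    refine Finset.sum_le_sum fun i _ => ?_
    have e := mul_le_mul_of_nonneg_left (hP (r i) (hr i)) (hμ0 i)
    refine e.trans (le_of_eq ?_)
    split_ifs <;> ring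
  refine q7.trans ?_
  have q8 : s0 * v * ∑ i, (if (r i : ℝ) < q then μ i else 0) ≤ s0 * v * δ := by
    refine le_trans (le_trans (le_of_eq (by rw [hsg])) hcore) ?_
    exact num_fin hC8p ht' hε q3 q5 q6 hvp (by positivity)
  exact le_of_mul_le_mul_left q8 (by positivity)

end Vale.Agent.P361.LRO.S3ST
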