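import Vale.Agent.P361.LRO.S3S.LimE
import Vale.Agent.P361.LRO.Mag.TrMag

/-!
P361 LRO, stage 3, all spins: lower bound for the magnetisation at the nodes of a circuit with an
extra matrix `P` between the layers `N` and `0`, in the presence of the extra slice `T`.
-/

namespace Vale.Agent.P361.LRO.S3S

open Finset Matrix Vale.Agent.P361.LRO.Dict

noncomputable section

variable {V : Type} [Fintype V] [DecidableEq V]

/-- Products of entrywise nonnegative matrices. -/
theorem mul_nonneg' {A B : Matrix (V → Fin 2) (V → Fin 2) ℝ} (hA : ∀ i j, 0 ≤ A i j)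
    (hB : ∀ i j, 0 ≤ B i j) (i j) : 0 ≤ (A * B) i j := by
  rw [Matrix.mul_apply]
  exact Finset.sum_nonneg fun k _ => mul_nonneg (hA _ _) (hB _ _)

theorem mul_pos_up {A B : Matrix (V → Fin 2) (V → Fin 2) ℝ} (hA : ∀ i j, 0 ≤ A i j)
    (hB : ∀ i j, 0 ≤ B i j) (σ : V → Fin 2) (h1 : 0 < A σ σ) (h2 : 0 < B σ σ) :
    0 < (A * B) σ σ := by
  rw [Matrix.mul_apply]
  exact Finset.sum_pos' (fun k _ => mul_nonneg (hA _ _) (hB _ _))
    ⟨σ, Finset.mem_univ _, mul_pos h1 h2⟩

theorem comm_exp {P : Matrix (V → Fin 2) (V → Fin 2) ℝ} {L : List (V × V)} {h : V → ℝ}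
    (hc : Commute P (ham L h)) (s : ℝ) : Commute P (NormedSpace.exp (-s • ham L h)) := by
  open scoped Matrix.Norms.Operator in exact (hc.smul_right (-s)).exp_right

theorem trace_PE_pos {P : Matrix (V → Fin 2) (V → Fin 2) ℝ} (hP : PU P) (L : List (V × V))
    (h : V → ℝ) {β : ℝ} (hβ : 0 ≤ β) : 0 < trace (P * NormedSpace.exp (-β • ham L h)) := by
  have hE := exp_ham L h hβ
  rw [Matrix.trace]
  refine Finset.sum_pos' (fun σ _ => ?_) ⟨fun _ => 0, Finset.mem_univ _, ?_⟩
  · exact mul_nonneg' hP.1 hE.1 _ _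
  · exact mul_pos_up hP.1 hE.1 _ (lt_of_lt_of_le one_pos hP.2) (hE.2 _)

/-- Main bound in the limit `N = ∞`. -/
theorem mTE_ge {P : Matrix (V → Fin 2) (V → Fin 2) ℝ} (hP : PU P) (L : List (V × V))
    {β K η : ℝ} (h : V → ℝ) (hc : Commute P (ham L h)) (b : Finset V) (hb : b.Nonempty)
    (hK : 0 ≤ K) {s t : ℝ} (hs : 0 ≤ s) (ht : 0 ≤ t) (e : s + t = β)
    (hr : ∀ x, trace (P * NormedSpace.exp (-β • ham L h) * ((1 / 2 : ℝ) • (1 - szM x))) /
      trace (P * NormedSpace.exp (-β • ham L h)) ≤ η) (x : V) :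
    1 - 2 * (Real.exp (K * η) * η) ≤ mTE P L h (blk K b) s t x := by
  have hb0 : (0 : ℝ) < b.card := by exact_mod_cast hb.card_pos
  set A := P * NormedSpace.exp (-s • ham L h) with hA
  set B := NormedSpace.exp (-t • ham L h) with hB
  set k := K / (b.card : ℝ) with hk
  have hk0 : 0 ≤ k := div_nonneg hK hb0.le
  have hE0 := exp_ham L h hs
  have hB0 := exp_ham L h ht
  rw [← hB] at hB0
  have hA1 : ∀ i j, 0 ≤ A i j := mul_nonneg' hP.1 hE0.1
  have hA2 : 0 < A (fun _ => 0) (fun _ => 0) :=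
    mul_pos_up hP.1 hE0.1 _ (lt_of_lt_of_le one_pos hP.2) (hE0.2 _)
  have hβ : 0 ≤ β := by linarith
  set c := (1 + Real.tanh (K / (2 * b.card))) ^ b.card with hcdef
  have hc0 : 0 < c := pow_pos (by have := Real.neg_one_lt_tanh (K / (2 * b.card)); linarith) _
  set D := diagonal fun σ : V → Fin 2 => Real.exp (-(k * nb b σ)) with hD
  have hlay : layT (blk K b) = c • D := layT_blk K b hb
  -- positivity
  have hpos : 0 < trace (D * A * B) := by
    have := trace_diag4 (fun σ : V → Fin 2 => Real.exp (-(k * nb b σ))) (fun _ => 1) A B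
    rw [Matrix.diagonal_one, Matrix.mul_one] at this
    rw [hD, this]
    refine Finset.sum_pos' (fun p _ => ?_) ⟨(fun _ => 0, fun _ => 0), Finset.mem_univ _, ?_⟩
    · exact mul_nonneg (mul_nonneg (mul_nonneg (hA1 _ _) (hB0.1 _ _)) (Real.exp_pos _).le)
        zero_le_one
    · exact mul_pos (mul_pos (mul_pos hA2 (hB0.2 _)) (Real.exp_pos _)) zero_lt_one
  have hAB : A * B = P * NormedSpace.exp (-β • ham L h) := by
    rw [hA, hB, Matrix.mul_assoc, exp_split L h e]
  have hABpos : 0 < trace (A * B) := by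
    rw [hAB]
    exact trace_PE_pos hP L h hβ
  -- the ratio
  have h1 : mTE P L h (blk K b) s t x =
      1 - 2 * (trace (D * A * diagonal (dn x) * B) / trace (D * A * B)) := by
    unfold mTE
    rw [Matrix.mul_assoc (layT (blk K b)) P, ← hA, ← hB, hlay, szM_eq]
    have e1 : c • D * A * (1 - (2 : ℝ) • diagonal (dn x)) * B =
        c • (D * A * B) - (2 * c) • (D * A * diagonal (dn x) * B) := by
      rw [Matrix.mul_sub, Matrix.sub_mul, Matrix.mul_one]
      simp only [Matrix.smul_mul, Matrix.mul_smul, smul_smul]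
    have e2 : c • D * A * B = c • (D * A * B) := by simp only [Matrix.smul_mul]
    rw [e1, e2, Matrix.trace_sub, Matrix.trace_smul, Matrix.trace_smul, smul_eq_mul, smul_eq_mul]
    field_simp
  have h2 := tilt_matrix A B hA1 hB0.1 (nb b) (dn x) (nb_nonneg b)
    (fun σ => by unfold dn; split_ifs <;> norm_num) hk0 hABpos
  have hBA : B * A = A * B := by
    have h3 : B * A = P * (B * NormedSpace.exp (-s • ham L h)) := by
      rw [hA, ← Matrix.mul_assoc, ← Matrix.mul_assoc, hB]
      congr 1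
      exact (comm_exp hc t).eq.symm
    rw [h3, hAB, hB, exp_split L h (β := β) (by linarith)]
  have h3 : ∀ y, trace (A * B * diagonal (dn y)) / trace (A * B) ≤ η := by
    intro y
    have := hr y
    rw [half_eq, ← hAB] at this
    exact this
  have h3' : trace (A * diagonal (dn x) * B) / trace (A * B) ≤ η := by
    have e1 : trace (A * diagonal (dn x) * B) = trace (A * B * diagonal (dn x)) := by
      rw [Matrix.trace_mul_comm (A * diagonal (dn x)) B, ← Matrix.mul_assoc, hBA]
    rw [e1]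
    exact h3 x
  have h4 : trace (diagonal (nb b) * A * B) / trace (A * B) ≤ b.card * η := by
    have e1 : diagonal (nb b) = ∑ y ∈ b, diagonal (dn y) := by
      ext σ τ
      rw [Matrix.sum_apply]
      by_cases hst : σ = τ
      · subst hst
        simp only [Matrix.diagonal_apply_eq]
        rfl
      · simp only [Matrix.diagonal_apply_ne _ hst, Finset.sum_const_zero]
    have e2 : trace (diagonal (nb b) * A * B) = ∑ y ∈ b, trace (A * B * diagonal (dn y)) := by
      rw [Matrix.mul_assoc, e1, Finset.sum_mul, Matrix.trace_sum]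
      exact Finset.sum_congr rfl fun y _ => Matrix.trace_mul_comm _ _
    rw [e2, Finset.sum_div]
    calc ∑ y ∈ b, trace (A * B * diagonal (dn y)) / trace (A * B) ≤ ∑ _y ∈ b, η :=
          Finset.sum_le_sum fun y _ => h3 y
      _ = b.card * η := by rw [Finset.sum_const, nsmul_eq_mul]
  have h5 : 0 ≤ trace (A * diagonal (dn x) * B) / trace (A * B) := by
    refine div_nonneg ?_ hABpos.le
    have := trace_diag4 (fun _ : V → Fin 2 => 1) (dn x) A B
    rw [Matrix.diagonal_one, Matrix.one_mul] at this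
    rw [this]
    refine Finset.sum_nonneg fun p _ => ?_
    refine mul_nonneg (mul_nonneg (mul_nonneg (hA1 _ _) (hB0.1 _ _)) zero_le_one) ?_
    unfold dn; split_ifs <;> norm_num
  have h6 : k * (trace (diagonal (nb b) * A * B) / trace (A * B)) ≤ K * η := by
    calc k * (trace (diagonal (nb b) * A * B) / trace (A * B)) ≤ k * (b.card * η) :=
          mul_le_mul_of_nonneg_left h4 hk0
      _ = K * η := by rw [hk]; field_simp
  have h7 : trace (D * A * diagonal (dn x) * B) / trace (D * A * B) ≤ Real.exp (K * η) * η := by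
    refine h2.trans ?_
    exact mul_le_mul (Real.exp_le_exp.2 h6) h3' h5 (Real.exp_pos _).le
  rw [h1]
  linarith

/-- **The magnetisation with the extra slice**, uniformly in the law, the fields and the node. -/
theorem tr_magE (P : Matrix (V → Fin 2) (V → Fin 2) ℝ) (hP : PU P) (L : List (V × V))
    {β K η : ℝ} (hβ : 0 < β) (hK : 0 ≤ K) (hη : 0 < η) {b : Finset V} (hb : b.Nonempty) :
    ∃ N0 : ℕ, ∀ N : ℕ, N0 ≤ N → ∀ μ : Equiv.Perm (Fin (N + 1) × V) → ℝ, TrLaw P L β μ →
      ∀ h : V → ℝ, (∀ x, 0 ≤ h x ∧ h x ≤ 1) → Commute P (ham L h) →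
      (∀ x, trace (P * NormedSpace.exp (-β • ham L h) * ((1 / 2 : ℝ) • (1 - szM x))) /
        trace (P * NormedSpace.exp (-β • ham L h)) ≤ η) → ∀ z : Fin (N + 1) × V, z.1 ≠ 0 →
        1 - 4 * Real.exp (K * η) * η ≤ mag μ (th β N h (blk K b)) z := by
  obtain ⟨C, N1, hC⟩ := magLimE P hP L hβ
  have hδ : 0 < 2 * (Real.exp (K * η) * η) := by positivity
  obtain ⟨N0, hN0⟩ := exists_nat_gt (C / (2 * (Real.exp (K * η) * η)))
  refine ⟨N1 + N0 + 1, fun N hN μ hμ h hh hc hr z hz => ?_⟩
  have hNpos : (0 : ℝ) < N := by exact_mod_cast (by omega : 0 < N)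
  have h1 := hC N (by omega) μ hμ h (blk K b) hh (blk_mem hK b) z hz
  have hs : 0 ≤ β * (((z.1 : ℕ) : ℝ) / N) := by positivity
  have hz1 : ((z.1 : ℕ) : ℝ) / N ≤ 1 := by
    rw [div_le_one hNpos]
    exact_mod_cast Nat.lt_succ_iff.1 z.1.2
  have ht : 0 ≤ β * (1 - ((z.1 : ℕ) : ℝ) / N) := mul_nonneg hβ.le (by linarith)
  have e : β * (1 - ((z.1 : ℕ) : ℝ) / N) + β * (((z.1 : ℕ) : ℝ) / N) = β := by ring
  have h2 := mTE_ge hP L h hc b hb hK ht hs e hr z.2
  have h3 : C / N ≤ 2 * (Real.exp (K * η) * η) := by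
    rw [div_le_iff₀ hNpos]
    rw [div_lt_iff₀ hδ] at hN0
    have h4 : (N0 : ℝ) ≤ N := by exact_mod_cast (by omega : N0 ≤ N)
    nlinarith
  have h5 := (abs_le.1 h1).1
  nlinarith

end

end Vale.Agent.P361.LRO.S3S
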