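import Vale.Agent.P361.LRO.S3S.Brg

/-!
P361, stage 3, all spins: the partition function of the copies in a free box converges to the
partition function of the spin `s / 2` model.
-/

namespace Vale.Agent.P361.LRO.S3S.ZB760

open Matrix Finset Filter Topology Vale.Agent.P361.LRO.GenS Vale.Agent.P361.LRO.S3

noncomputable section

private theorem expR_add_smul_one {ι : Type*} [Fintype ι] [DecidableEq ι] (X : Matrix ι ι ℝ)
    (k : ℝ) : NormedSpace.exp (X + k • (1 : Matrix ι ι ℝ)) = Real.exp k • NormedSpace.exp X := by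
  have hcomm : Commute X (k • (1 : Matrix ι ι ℝ)) := (Commute.one_right X).smul_right k
  rw [Matrix.exp_add_of_commute _ _ hcomm]
  have h2 : NormedSpace.exp (k • (1 : Matrix ι ι ℝ)) = Real.exp k • (1 : Matrix ι ι ℝ) := by
    have h3 : k • (1 : Matrix ι ι ℝ) = diagonal (fun _ => k) := by
      ext i j
      by_cases hij : i = j
      · subst hij; simp
      · simp [hij]
    rw [h3, Matrix.exp_diagonal]
    ext i j
    by_cases hij : i = j
    · subst hij; simp [Pi.exp_def, ← Real.exp_eq_exp_ℝ]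
    · simp [hij]
  rw [h2, Matrix.mul_smul, Matrix.mul_one]

section gen

variable {V : Type} [Fintype V] [DecidableEq V] {s : ℕ} [NeZero s]

/-- Limit `M → ∞` of traces, any graph, any field constant on copies. -/
theorem tendsto_trace_Lm (L : List (V × V)) (h : V → ℝ) {β : ℝ} (hβ : 0 < β)
    (C : Matrix (V × Fin s → Fin 2) (V × Fin s → Fin 2) ℝ) :
    Tendsto (fun M : ℕ => trace (NormedSpace.exp (-β • ham (Lm L s M) (lift s h)) * C)) atTop
      (𝓝 (trace (symProd V s * NormedSpace.exp (-β • ham (interL L s) (lift s h)) * C))) := by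
  refine Lim.tendsto_trace_ham (interL L s) (intraL V s) (lift s h) hβ (symProd V s) C
    symProd_transpose ?_ ?_ ?_
  · rintro ⟨⟨x, a⟩, ⟨y, b⟩⟩ he
    have h1 := (mem_intraL.1 he).1
    dsimp only at h1
    subst h1
    exact swapM_mul_symProd x a b
  · intro v hv
    apply symProd_mulVec
    intro x a b
    rcases lt_trichotomy a b with h | h | h
    · exact hv ((x, a), (x, b)) (mem_intraL.2 ⟨rfl, h⟩)
    · subst h
      rw [← permU_swap, Equiv.swap_self]
      have : (Equiv.refl (V × Fin s) : Equiv.Perm (V × Fin s)) = 1 := rfl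
      rw [this, map_one, Matrix.one_mulVec]
    · rw [← permU_swap, Equiv.swap_comm, permU_swap]
      exact hv ((x, b), (x, a)) (mem_intraL.2 ⟨rfl, h⟩)
  · rintro ⟨⟨x, a⟩, ⟨y, b⟩⟩ he
    have h1 := (mem_intraL.1 he).1
    dsimp only at h1
    subst h1
    exact comm_ham _ _ x a b

omit [NeZero s] in
/-- A uniform field as a weight of the number operator. -/
theorem field_num (E : List ((V × Fin s) × (V × Fin s))) {β : ℝ} (hβ : 0 < β) (t : ℝ) :
    -β • ham E 0 - t • TwJ.Dn (univ : Finset (V × Fin s)) =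
      -β • ham E (lift s fun _ : V => t / β) +
        (-(t * (Fintype.card (V × Fin s) : ℝ) / 2)) • 1 := by
  have h1 : ham E (lift s fun _ : V => t / β) = ham E 0 -
      (t / β / 2) • ∑ z : V × Fin s, szM z := by
    rw [ham, ham, Finset.smul_sum]
    simp [lift]
  have h2 : TwJ.Dn (univ : Finset (V × Fin s)) = ((Fintype.card (V × Fin s) : ℝ) / 2) •
      (1 : Matrix (V × Fin s → Fin 2) (V × Fin s → Fin 2) ℝ) -
      (1 / 2 : ℝ) • ∑ z : V × Fin s, szM z := by
    rw [TwJ.Dn]
    simp only [smul_sub, Finset.sum_sub_distrib, Finset.sum_const, Finset.card_univ]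
    rw [← Nat.cast_smul_eq_nsmul ℝ, smul_smul, Finset.smul_sum]
    congr 2
    ring
  rw [h1, h2]
  have key : ∀ (A S O : Matrix (V × Fin s → Fin 2) (V × Fin s → Fin 2) ℝ) (c : ℝ),
      -β • A - t • ((c / 2) • O - (1 / 2 : ℝ) • S) =
        -β • (A - (t / β / 2) • S) + (-(t * c / 2)) • O := by
    intro A S O c
    have e : β * (t / β / 2) = t * (1 / 2) := by field_simp
    rw [smul_sub (-β), smul_smul, neg_mul, e]
    module
  exact key _ _ _ _

/-- Limit with the weight of the number operator. -/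
theorem tendsto_trace_num (L : List (V × V)) {β : ℝ} (hβ : 0 < β) (t : ℝ)
    (C : Matrix (V × Fin s → Fin 2) (V × Fin s → Fin 2) ℝ) :
    Tendsto (fun M : ℕ => trace (NormedSpace.exp (-β • ham (Lm L s M) 0 -
        t • TwJ.Dn (univ : Finset (V × Fin s))) * C)) atTop
      (𝓝 (trace (symProd V s * NormedSpace.exp (-β • ham (interL L s) 0 -
        t • TwJ.Dn (univ : Finset (V × Fin s))) * C))) := by
  simp only [field_num _ hβ t, expR_add_smul_one, Matrix.smul_mul, Matrix.mul_smul,
    Matrix.trace_smul, smul_eq_mul]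
  exact (tendsto_trace_Lm L (fun _ => t / β) hβ C).const_mul _

end gen

/-- **Free boxes**: `Tr exp(-β H_M - t N) → Z_{s/2}(β, t)`. -/
theorem tendsto_zbox {s : ℕ} [NeZero s] (Λ : Finset Site) {β : ℝ} (hβ : 0 < β) (t : ℝ) :
    Tendsto (fun M : ℕ => trace (NormedSpace.exp (-(β / 2) • ham (Lm (nnL Λ) s M) 0 -
        t • TwJ.Dn (univ : Finset (Λ × Fin s))))) atTop (𝓝 (B.Zt s Λ β t)) := by
  have h := tendsto_trace_num (s := s) (nnL Λ) (half_pos hβ) t 1
  simp only [Matrix.mul_one] at h
  rw [Brg.Zt_spin, Matrix.trace_mul_comm]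
  exact h

/-- **Free boxes**, no field. -/
theorem tendsto_zbox0 {s : ℕ} [NeZero s] (Λ : Finset Site) {β : ℝ} (hβ : 0 < β) :
    Tendsto (fun M : ℕ => trace (NormedSpace.exp (-(β / 2) • ham (Lm (nnL Λ) s M) 0))) atTop
      (𝓝 (B.Zt s Λ β 0)) := by
  have h := tendsto_zbox (s := s) Λ hβ 0
  simpa only [zero_smul, sub_zero] using h

end

end Vale.Agent.P361.LRO.S3S.ZB760
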