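import Vale.Agent.P361.LRO.GenS.Comm
import Vale.Agent.P361.LRO.GenS.LimS

/-!
P361, stage 3 for all spins (route M): comparison of the partition function of the copies with the
intra-site multiplicity `M` and the symmetrised partition function.  Any `V`, any list `L`.
-/

namespace Vale.Agent.P361.LRO.S3S

open Finset Matrix Filter Topology Vale.Agent.P361.LRO.GenS

noncomputable section

section Abs

variable {ι : Type} [Fintype ι] [DecidableEq ι]

/-- `e^{cA} P = P` if `A P = 0`. -/
theorem exp_smul_mul_of_mul_eq_zero {A P : Matrix ι ι ℝ} (h : A * P = 0) (c : ℝ) :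
    NormedSpace.exp (c • A) * P = P := by
  let _ : NormedRing (Matrix ι ι ℝ) := Matrix.linftyOpNormedRing
  let _ : NormedAlgebra ℝ (Matrix ι ι ℝ) := Matrix.linftyOpNormedAlgebra
  have hA := NormedSpace.exp_series_hasSum_exp' (𝕂 := ℝ) (c • A)
  have h1 := hA.mul_right P
  have h2 : ∀ k : ℕ, k ≠ 0 → ((k.factorial : ℝ)⁻¹ • (c • A) ^ k) * P = 0 := by
    intro k hk
    obtain ⟨j, rfl⟩ := Nat.exists_eq_succ_of_ne_zero hk
    rw [pow_succ, Matrix.smul_mul, Matrix.mul_assoc, Matrix.smul_mul, h]
    simp
  have e : (fun k : ℕ => ((k.factorial : ℝ)⁻¹ • (c • A) ^ k) * P) =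
      fun k : ℕ => if k = 0 then P else 0 := by
    funext k
    by_cases hk : k = 0
    · subst hk
      simp
    · rw [if_neg hk, h2 k hk]
  have h3 : HasSum (fun k : ℕ => if k = 0 then P else 0) P := hasSum_ite_eq 0 P
  rw [e] at h1
  exact h1.unique h3

/-- Traces: cutting with a commuting projector decreases the trace of `e^A`. -/
theorem trace_proj_exp_le {A P : Matrix ι ι ℝ} (hA : A.IsSymm) (hP : P * P = P) (hPt : Pᵀ = P) :
    trace (P * NormedSpace.exp A) ≤ trace (NormedSpace.exp A) := by
  have hQ : (1 - P) * (1 - P) = 1 - P := by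
    rw [mul_sub, sub_mul, sub_mul, hP]
    simp
  have hQt : (1 - P)ᴴ = 1 - P := by
    rw [Matrix.conjTranspose_eq_transpose_of_trivial, Matrix.transpose_sub, hPt,
      Matrix.transpose_one]
  have hpos : (NormedSpace.exp A).PosSemidef := by
    have h1 : NormedSpace.exp A = (NormedSpace.exp ((1 / 2 : ℝ) • A))ᴴ *
        NormedSpace.exp ((1 / 2 : ℝ) • A) := by
      rw [Matrix.conjTranspose_eq_transpose_of_trivial, ← Matrix.exp_transpose,
        Matrix.transpose_smul, hA.eq, ← Matrix.exp_add_of_commute _ _ (Commute.refl _), ← add_smul]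
      norm_num
    rw [h1]
    exact Matrix.posSemidef_conjTranspose_mul_self _
  have h2 : 0 ≤ trace ((1 - P) * NormedSpace.exp A) := by
    have h3 : trace ((1 - P) * NormedSpace.exp A) =
        trace ((1 - P)ᴴ * NormedSpace.exp A * (1 - P)) := by
      rw [hQt, Matrix.trace_mul_comm ((1 - P) * NormedSpace.exp A), ← Matrix.mul_assoc, hQ]
    rw [h3]
    exact (hpos.conjTranspose_mul_mul_same (1 - P)).trace_nonneg
  rw [Matrix.sub_mul, Matrix.one_mul, Matrix.trace_sub] at h2
  linarith

end Abs

variable {V : Type} [Fintype V] [DecidableEq V] {s : ℕ} [NeZero s]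

/-- On the symmetric subspace the intra-site part is invisible. -/
theorem symProd_exp_Lm (L : List (V × V)) (h : V → ℝ) (β : ℝ) (M : ℕ) :
    symProd V s * NormedSpace.exp (-β • ham (Lm L s M) (lift s h)) =
      symProd V s * NormedSpace.exp (-β • ham (interL L s) (lift s h)) := by
  have e1 : -β • ham (Lm L s M) (lift s h) = -β • ham (interL L s) (lift s h) +
      (-β * (M : ℝ)) • intraM V s := by
    rw [ham_Lm, smul_add, smul_smul]
  have hc : Commute (-β • ham (interL L s) (lift s h)) ((-β * (M : ℝ)) • intraM V s) :=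
    ((Comm.intraM_comm_ham L h).symm.smul_left _).smul_right _
  rw [e1, Matrix.exp_add_of_commute _ _ hc]
  have hPc : Commute (symProd V s) (NormedSpace.exp (-β • ham (interL L s) (lift s h))) := by
    have h1 : Commute (symProd V s) (-β • ham (interL L s) (lift s h)) :=
      (symProd_comm_ham L h).smul_right _
    have h2 := h1.exp_right
    exact h2
  have h3 : symProd V s * NormedSpace.exp ((-β * (M : ℝ)) • intraM V s) = symProd V s := by
    have h4 := exp_smul_mul_of_mul_eq_zero (intraM_mul_symProd (V := V) (m := s)) (-β * (M : ℝ))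
    have h5 := congrArg Matrix.transpose h4
    rw [Matrix.transpose_mul, symProd_transpose, ← Matrix.exp_transpose, Matrix.transpose_smul,
      Comm.intraM_isSymm.eq] at h5
    exact h5
  rw [← Matrix.mul_assoc, hPc.eq, Matrix.mul_assoc, h3, ← hPc.eq]

/-- **(Z1)** `Z` of the symmetrised copies is at most `Z` of the copies, for every `M`. -/
theorem trace_symProd_le (L : List (V × V)) (h : V → ℝ) (β : ℝ) (M : ℕ) :
    trace (symProd V s * NormedSpace.exp (-β • ham (interL L s) (lift s h))) ≤
      trace (NormedSpace.exp (-β • ham (Lm L s M) (lift s h))) := by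
  rw [← symProd_exp_Lm L h β M]
  refine trace_proj_exp_le ?_ symProd_sq symProd_transpose
  unfold Matrix.IsSymm
  rw [Matrix.transpose_smul, ham_symm]

/-- **(Z2)** The limit of infinitely many intra-site edges, with an observable. -/
theorem tendsto_trace_Lm (L : List (V × V)) (h : V → ℝ) {β : ℝ} (hβ : 0 < β)
    (C : Matrix (V × Fin s → Fin 2) (V × Fin s → Fin 2) ℝ) :
    Tendsto (fun M : ℕ => trace (NormedSpace.exp (-β • ham (Lm L s M) (lift s h)) * C)) atTop
      (𝓝 (trace (symProd V s * NormedSpace.exp (-β • ham (interL L s) (lift s h)) * C))) := by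
  have key := Lim.tendsto_trace_ham (interL L s) (intraL V s) (lift s h) hβ
    (symProd V s) C symProd_transpose
    (fun e he => by
      obtain ⟨⟨x, a⟩, ⟨y, b⟩⟩ := e
      have h2 := (mem_intraL.1 he).1
      dsimp only at h2
      subst h2
      exact swapM_mul_symProd x a b)
    (fun v hv => symProd_mulVec v fun x a b => by
      rcases lt_trichotomy a b with hab | hab | hab
      · exact hv ((x, a), (x, b)) (mem_intraL.2 ⟨rfl, hab⟩)
      · subst hab
        have : swapM (x, a) (x, a) = (1 : Matrix (V × Fin s → Fin 2)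
            (V × Fin s → Fin 2) ℝ) := by
          ext σ τ
          simp [swapM, Matrix.one_apply]
        rw [this, Matrix.one_mulVec]
      · have h3 := hv ((x, b), (x, a)) (mem_intraL.2 ⟨rfl, hab⟩)
        have h4 : swapM (x, a) (x, b) = swapM (x, b) (x, a) := by
          ext σ τ
          simp [swapM, Equiv.swap_comm]
        rw [h4]
        exact h3)
    (fun e he => by
      obtain ⟨⟨x, a⟩, ⟨y, b⟩⟩ := e
      have h2 := (mem_intraL.1 he).1
      dsimp only at h2
      subst h2
      exact comm_ham L _ x a b)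
  exact key

/-- **(Z1)** on the torus. -/
theorem trace_symProd_le_torus {n : ℕ} [NeZero n] (h : Tor n → ℝ) (β : ℝ) (M : ℕ) :
    trace (symProd (Tor n) s * NormedSpace.exp (-β • ham (interL (edges n) s) (lift s h))) ≤
      trace (NormedSpace.exp (-β • ham (edgesS n s M) (hS h))) := by
  have h1 := trace_symProd_le (s := s) (edges n) h β M
  rw [← ham_edgesS] at h1
  exact h1

/-- **(Z2)** on the torus. -/
theorem tendsto_trace_edgesS {n : ℕ} [NeZero n] (h : Tor n → ℝ) {β : ℝ} (hβ : 0 < β)
    (C : Matrix (Tor n × Fin s → Fin 2) (Tor n × Fin s → Fin 2) ℝ) :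
    Tendsto (fun M : ℕ => trace (NormedSpace.exp (-β • ham (edgesS n s M) (hS h)) * C)) atTop
      (𝓝 (trace (symProd (Tor n) s *
        NormedSpace.exp (-β • ham (interL (edges n) s) (lift s h)) * C))) := by
  have h1 := tendsto_trace_Lm (s := s) (edges n) h hβ C
  simp only [← ham_edgesS] at h1
  exact h1

/-- **(Z2)** without observable. -/
theorem tendsto_Z_Lm (L : List (V × V)) (h : V → ℝ) {β : ℝ} (hβ : 0 < β) :
    Tendsto (fun M : ℕ => trace (NormedSpace.exp (-β • ham (Lm L s M) (lift s h)))) atTop
      (𝓝 (trace (symProd V s * NormedSpace.exp (-β • ham (interL L s) (lift s h))))) := by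
  have h1 := tendsto_trace_Lm (s := s) L h hβ 1
  simpa only [Matrix.mul_one] using h1

/-- The symmetrised partition function is positive. -/
theorem trace_symProd_pos (L : List (V × V)) (h : V → ℝ) (β : ℝ) :
    0 < trace (symProd V s * NormedSpace.exp (-β • ham (interL L s) (lift s h))) := by
  set A := -β • ham (interL L s) (lift s h) with hA
  have hAs : A.IsSymm := by
    unfold Matrix.IsSymm
    rw [hA, Matrix.transpose_smul, ham_symm]
  set P := symProd V s with hP
  have hPP : P * P = P := symProd_sq
  have hPt : Pᵀ = P := symProd_transpose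
  set v : (V × Fin s → Fin 2) → ℝ := fun σ => if σ = fun _ => 0 then 1 else 0 with hv
  have hPv : P *ᵥ v = v := by
    refine symProd_mulVec v fun x a b => ?_
    funext σ
    have h1 : (swapM ((x, a) : V × Fin s) (x, b) *ᵥ v) σ =
        v (σ ∘ Equiv.swap ((x, a) : V × Fin s) (x, b)) := by
      rw [Matrix.mulVec, dotProduct, Finset.sum_eq_single (σ ∘ Equiv.swap (x, a) (x, b))]
      · have : σ = (σ ∘ Equiv.swap ((x, a) : V × Fin s) (x, b)) ∘
            Equiv.swap ((x, a) : V × Fin s) (x, b) := by
          funext z; simp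
        rw [swapM, Matrix.of_apply, if_pos this, one_mul]
      · intro ρ _ hρ
        rw [swapM, Matrix.of_apply, if_neg, zero_mul]
        intro h
        apply hρ
        rw [h]; funext z; simp
      · simp
    rw [h1, hv]
    simp only
    congr 1
    rw [eq_iff_iff]
    constructor
    · intro h
      funext z
      have := congrFun h (Equiv.swap ((x, a) : V × Fin s) (x, b) z)
      simpa using this
    · intro h
      rw [h]
      rfl
  have hpos : (NormedSpace.exp A).PosDef := by
    have h1 : NormedSpace.exp A = (NormedSpace.exp ((1 / 2 : ℝ) • A))ᴴ *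
        NormedSpace.exp ((1 / 2 : ℝ) • A) := by
      rw [Matrix.conjTranspose_eq_transpose_of_trivial, ← Matrix.exp_transpose,
        Matrix.transpose_smul, hAs.eq, ← Matrix.exp_add_of_commute _ _ (Commute.refl _),
        ← add_smul]
      norm_num
    rw [h1]
    exact Matrix.PosDef.conjTranspose_mul_self _
      (Matrix.mulVec_injective_of_isUnit (Matrix.isUnit_exp _))
  have hv0 : v ≠ 0 := by
    intro h
    have := congrFun h (fun _ => 0)
    simp [hv] at this
  have h3 : 0 < v ⬝ᵥ (NormedSpace.exp A *ᵥ v) := by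
    have := hpos.dotProduct_mulVec_pos hv0
    simpa using this
  have h4 : trace (P * NormedSpace.exp A) = trace (Pᴴ * NormedSpace.exp A * P) := by
    rw [Matrix.conjTranspose_eq_transpose_of_trivial, hPt,
      Matrix.trace_mul_comm (P * NormedSpace.exp A), ← Matrix.mul_assoc, hPP]
  have h5 : (Pᴴ * NormedSpace.exp A * P).PosSemidef :=
    hpos.posSemidef.conjTranspose_mul_mul_same P
  have h6 : (Pᴴ * NormedSpace.exp A * P) (fun _ => 0) (fun _ => 0) =
      v ⬝ᵥ (NormedSpace.exp A *ᵥ v) := by
    have e1 : v = Pi.single (fun _ => 0) 1 := by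
      funext σ
      rw [hv, Pi.single_apply]
    have h7 : ∀ B : Matrix (V × Fin s → Fin 2) (V × Fin s → Fin 2) ℝ,
        B (fun _ => 0) (fun _ => 0) = v ⬝ᵥ (B *ᵥ v) := by
      intro B
      rw [e1, Matrix.mulVec_single_one, single_one_dotProduct]
      rfl
    have e2 : P.vecMul v = v := by
      conv_lhs => rw [← hPt]
      rw [Matrix.vecMul_transpose, hPv]
    rw [h7 (Pᴴ * NormedSpace.exp A * P), Matrix.mul_assoc, ← Matrix.mulVec_mulVec,
      ← Matrix.mulVec_mulVec, hPv, Matrix.dotProduct_mulVec,
      Matrix.conjTranspose_eq_transpose_of_trivial, hPt, e2]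
  rw [h4]
  have h8 : ∀ i, 0 ≤ (Pᴴ * NormedSpace.exp A * P) i i := fun i => h5.diag_nonneg
  calc 0 < (Pᴴ * NormedSpace.exp A * P) (fun _ => 0) (fun _ => 0) := by rw [h6]; exact h3
    _ ≤ trace (Pᴴ * NormedSpace.exp A * P) := by
        rw [Matrix.trace]
        exact Finset.single_le_sum (f := fun i => (Pᴴ * NormedSpace.exp A * P) i i)
          (fun i _ => h8 i) (Finset.mem_univ _)

/-- For `M` large, `log Z_M ≤ log Z_P + ε`. -/
theorem log_Z_Lm_le (L : List (V × V)) (h : V → ℝ) {β : ℝ} (hβ : 0 < β) {ε : ℝ} (hε : 0 < ε) :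
    ∃ M0 : ℕ, ∀ M : ℕ, M0 ≤ M →
      Real.log (trace (NormedSpace.exp (-β • ham (Lm L s M) (lift s h)))) ≤
        Real.log (trace (symProd V s *
          NormedSpace.exp (-β • ham (interL L s) (lift s h)))) + ε := by
  have h1 := (tendsto_Z_Lm (s := s) L h hβ).log (trace_symProd_pos L h β).ne'
  have h2 := h1.eventually_le_const (lt_add_of_pos_right _ hε)
  exact Filter.eventually_atTop.1 h2

end

end Vale.Agent.P361.LRO.S3S
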