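import Vale.Agent.P361.LRO.S3S.ZCmpB
import Vale.Agent.P361.LRO.Tw.Gibbs

/-!
P361, stage 3, all spins: the partition function of the tori, symmetrised and with `M`-fold intra
coupling; landed lower bound, uniform in `M`.
-/

namespace Vale.Agent.P361.LRO.S3S

open Finset Matrix Filter Topology Vale.Agent.P361.LRO.GenS Vale.Agent.P361.LRO.S3
open Vale.Agent.P361.LRO.TwJ

noncomputable section

section Gen

variable {V : Type} [Fintype V] [DecidableEq V] {s : ℕ} [NeZero s]

/-- `e^{-β H_M} P = P e^{-β H}`. -/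
theorem exp_Lm_mul_symProdT (L : List (V × V)) (M : ℕ) (β : ℝ) (h : V → ℝ) :
    NormedSpace.exp (-β • ham (Lm L s M) (lift s h)) * symProd V s =
      symProd V s * NormedSpace.exp (-β • ham (interL L s) (lift s h)) := by
  have h1 : (-β • ham (Lm L s M) (lift s h)) * symProd V s =
      symProd V s * (-β • ham (interL L s) (lift s h)) := by
    rw [ham_Lm, Matrix.smul_mul, Matrix.add_mul, Matrix.smul_mul, intraM_mul_symProd, smul_zero,
      add_zero, Matrix.mul_smul, (symProd_comm_ham L h).eq]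
  apply cM_injective
  rw [cM_mul, cM_mul, ← exp_cM, ← exp_cM]
  refine exp_intertwine ?_
  rw [← cM_mul, ← cM_mul, h1]

/-- **(Z1)** `Tr P e^{-β H} ≤ Tr e^{-β H_M}` for every `M`. -/
theorem trace_symProd_leT (L : List (V × V)) (M : ℕ) (β : ℝ) (h : V → ℝ) :
    trace (symProd V s * NormedSpace.exp (-β • ham (interL L s) (lift s h))) ≤
      trace (NormedSpace.exp (-β • ham (Lm L s M) (lift s h))) := by
  set E := NormedSpace.exp (-β • ham (Lm L s M) (lift s h)) with hE
  have h0 : E.PosSemidef := Tw.expH_psd _ _ _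
  rw [← exp_Lm_mul_symProdT L M β h, ← hE]
  have hPt : (symProd V s)ᴴ = symProd V s := by
    rw [Matrix.conjTranspose_eq_transpose_of_trivial, symProd_transpose]
  have h1 := (h0.conjTranspose_mul_mul_same (1 - symProd V s)).trace_nonneg
  have h2 : trace ((1 - symProd V s)ᴴ * E * (1 - symProd V s)) =
      trace E - trace (E * symProd V s) := by
    rw [Matrix.conjTranspose_sub, Matrix.conjTranspose_one, hPt,
      Matrix.trace_mul_cycle]

    have h3 : (1 - symProd V s) * (1 - symProd V s) = 1 - symProd V s := by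
      rw [Matrix.sub_mul, Matrix.mul_sub, Matrix.mul_sub, Matrix.one_mul, Matrix.mul_one,
        Matrix.one_mul, symProd_sq]
      abel
    rw [h3, Matrix.sub_mul, Matrix.one_mul, Matrix.trace_sub, Matrix.trace_mul_comm E]
  linarith

end Gen

section Torus

variable {n s : ℕ} [NeZero n] [NeZero s]

theorem logTr_torusS (hn : 3 ≤ n) (β h : ℝ) :
    Model.logTr s (torusAdj n) β h = β * (s : ℝ) ^ 2 / 4 * (3 * (n : ℝ) ^ 3) +
      Real.log (trace (symProd (Tor n) s *
        NormedSpace.exp (-β • ham (interL (edges n) s) (lift s fun _ : Tor n => h)))) := by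
  have h1 : Model.logTr s (torusAdj n) β h =
      Real.log (trace (NormedSpace.exp (expoV s (torusAdj n) β h))).re := rfl
  have hcard : (Fintype.card (Tor n × Fin 3) : ℝ) = 3 * (n : ℝ) ^ 3 := by
    rw [Fintype.card_prod, Fintype.card_fun, ZMod.card, Fintype.card_fin]
    push_cast
    ring
  rw [h1, trace_exp_spin_real hn, Complex.ofReal_re,
    Real.log_mul (Real.exp_pos _).ne' (trace_symProd_exp_pos hn β h).ne', Real.log_exp, hcard]
  ring

end Torus

/-- `log Tr P exp(-β (H + h N))`. -/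
def logZP (n s : ℕ) [NeZero n] [NeZero s] (β h : ℝ) : ℝ :=
  Real.log (trace (symProd (Tor n) s *
    NormedSpace.exp (-β • ham (interL (edges n) s) (lift s fun _ : Tor n => h)))) -
    β * h * s / 2 * (n : ℝ) ^ 3

theorem logZP_tendsto (s : ℕ) [NeZero s] {β : ℝ} (hβ : 0 < β) (h : ℝ) :
    Tendsto (fun N : ℕ => logZP (2 * N + 1) s β h / ((2 * N + 1 : ℕ) : ℝ) ^ 3) atTop
      (𝓝 (B.gRed s β h)) := by
  have h1 := (pressTorus_tendsto s hβ h).const_mul β
  have h2 := (h1.sub_const (β * (3 * (s : ℝ) ^ 2 / 4))).sub_const (β * h * s / 2)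
  have e : β * Model.pressure s β h - β * (3 * (s : ℝ) ^ 2 / 4) - β * h * s / 2 =
      B.gRed s β h := by
    unfold B.gRed
    rw [Bridge.pressure_eq]
    ring
  rw [e] at h2
  refine h2.congr' ?_
  filter_upwards [eventually_ge_atTop 1] with N hN
  unfold pressTorus logZP
  rw [logTr_torusS (by omega)]
  have hp : (0 : ℝ) < 2 * (N : ℝ) + 1 := by positivity
  push_cast
  field_simp
  ring

/-- Lower bound of the free energy on large tori, every `M`. -/
theorem logZM_lower (s : ℕ) [NeZero s] {β : ℝ} (hβ : 0 < β) (h : ℝ) {ε : ℝ} (hε : 0 < ε) :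
    ∃ n0 : ℕ, ∀ (n : ℕ) [NeZero n], n0 ≤ n → Odd n → ∀ M : ℕ,
      (n : ℝ) ^ 3 * (B.gRed s β h - ε) ≤
        Real.log (trace (NormedSpace.exp (-β • ham (edgesS n s M) (hS fun _ => h)))) -
          β * h * s / 2 * (n : ℝ) ^ 3 := by
  have h3 := (tendsto_order.1 (logZP_tendsto s hβ h)).1 (B.gRed s β h - ε) (by linarith)
  obtain ⟨N0, hN0⟩ := eventually_atTop.1 h3
  refine ⟨max 3 (2 * N0 + 1), fun n _ hn hodd M => ?_⟩
  have hn3 : 3 ≤ n := (le_max_left _ _).trans hn
  obtain ⟨N, rfl⟩ := hodd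
  have h4 := hN0 N (by have := (le_max_right _ _).trans hn; omega)
  rw [lt_div_iff₀ (by positivity)] at h4
  have h5 : Real.log (trace (symProd (Tor (2 * N + 1)) s *
      NormedSpace.exp (-β • ham (interL (edges (2 * N + 1)) s)
        (lift s fun _ : Tor (2 * N + 1) => h)))) ≤
      Real.log (trace (NormedSpace.exp (-β • ham (edgesS (2 * N + 1) s M) (hS fun _ => h)))) := by
    refine Real.log_le_log (trace_symProd_exp_pos hn3 β h) ?_
    rw [ham_edgesS]
    exact trace_symProd_leT (edges (2 * N + 1)) M β fun _ => h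
  unfold logZP at h4
  nlinarith

/-- The same with the explicit spin wave bound. -/
theorem logZM_lowerFS (s : ℕ) [NeZero s] : ∃ K : ℝ, 1 ≤ K ∧ ∀ β : ℝ, K ≤ β → ∀ h : ℝ, 0 ≤ h →
    ∀ ε : ℝ, 0 < ε → ∃ n0 : ℕ, ∀ (n : ℕ) [NeZero n], n0 ≤ n → Odd n → ∀ M : ℕ,
      ((1 - K / β) * B.FS ((s : ℝ) / 2) (β * h) / Real.sqrt β ^ 3 - ε) * (n : ℝ) ^ 3 ≤
        Real.log (trace (NormedSpace.exp (-β • ham (edgesS n s M) (hS fun _ => h)))) -
          β * h * s / 2 * (n : ℝ) ^ 3 := by
  have hs1 : 1 ≤ s := Nat.one_le_iff_ne_zero.2 (NeZero.ne s)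
  obtain ⟨K, hK1, hK⟩ := B.gRed_lower (n := s) hs1
  refine ⟨K, hK1, fun β hβK h hh ε hε => ?_⟩
  have hβ : 0 < β := by linarith
  have hs : 0 < Real.sqrt β ^ 3 := by positivity
  have hth : 0 ≤ β * h := by positivity
  have h1 : (1 - K / β) * B.FS ((s : ℝ) / 2) (β * h) / Real.sqrt β ^ 3 ≤ B.gRed s β h := by
    rw [div_le_iff₀ hs]
    have h2 := (B.FR_tendsto ((s : ℝ) / 2) hth).const_mul (1 - K / β)
    refine le_of_tendsto' h2 fun R => ?_
    have := hK β hβK h hh R

    linarith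
  obtain ⟨n0, h3⟩ := logZM_lower s hβ h hε
  refine ⟨n0, fun n _ hn hodd M => le_trans ?_ (h3 n hn hodd M)⟩
  rw [mul_comm]
  exact mul_le_mul_of_nonneg_left (by linarith) (by positivity)

end

end Vale.Agent.P361.LRO.S3S
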