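import Vale.Agent.P361.LRO.S3S.ZtSpin

/-!
P361, stage 3, all spins: the partition function `Zt s Λ β τ` of the free region as the limit
`M → ∞` of the traces with `M`-fold coupling inside the sites.
-/

namespace Vale.Agent.P361.LRO.S3S

open Finset Matrix Filter Topology
open Vale.Agent.P361.LRO Vale.Agent.P361.LRO.GenS Vale.Agent.P361.LRO.S3

noncomputable section

section

variable {V : Type} [Fintype V] [DecidableEq V]

theorem expo_eq (L : List (V × V)) {b : ℝ} (hb : 0 < b) (τ : ℝ) :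
    -(b / 2) • ham L 0 - τ • TwJ.Dn (univ : Finset V) =
      -(b / 2) • ham L (fun _ => 2 * τ / b) +
        (-(τ * Fintype.card V / 2)) • (1 : Matrix (V → Fin 2) (V → Fin 2) ℝ) := by
  have h1 : TwJ.Dn (univ : Finset V) = ((Fintype.card V : ℝ) / 2) •
      (1 : Matrix (V → Fin 2) (V → Fin 2) ℝ) - (1 / 2 : ℝ) • ∑ x : V, szM x := by
    rw [TwJ.Dn]
    simp only [smul_sub, Finset.sum_sub_distrib, Finset.sum_const, Finset.card_univ]
    rw [← Nat.cast_smul_eq_nsmul ℝ, smul_smul, ← Finset.smul_sum]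
    congr 2
    ring
  have h2 : ∀ c : ℝ, ∑ x : V, (c / 2) • (szM x : Matrix (V → Fin 2) (V → Fin 2) ℝ) =
      (c / 2) • ∑ x : V, szM x := fun c => Finset.smul_sum.symm
  rw [ham, ham, h1, h2]
  have h3 : ∑ x : V, ((0 : V → ℝ) x / 2) • (szM x : Matrix (V → Fin 2) (V → Fin 2) ℝ) = 0 := by
    simp
  rw [h3]
  have h4 : (b / 2) * (2 * τ / b / 2) = τ / 2 := by field_simp
  set S : Matrix (V → Fin 2) (V → Fin 2) ℝ := ∑ x : V, szM x
  set H : Matrix (V → Fin 2) (V → Fin 2) ℝ := (L.map fun e => hM e.1 e.2).sum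
  calc -(b / 2) • (H - 0) - τ • (((Fintype.card V : ℝ) / 2) • 1 - (1 / 2 : ℝ) • S) =
        -(b / 2) • H + (τ / 2) • S + (-(τ * Fintype.card V / 2)) • 1 := by module
    _ = -(b / 2) • H + ((b / 2) * (2 * τ / b / 2)) • S + (-(τ * Fintype.card V / 2)) • 1 := by
        rw [h4]
    _ = -(b / 2) • (H - (2 * τ / b / 2) • S) + (-(τ * Fintype.card V / 2)) • 1 := by module

theorem exp_expo (L : List (V × V)) {b : ℝ} (hb : 0 < b) (τ : ℝ) :
    NormedSpace.exp (-(b / 2) • ham L 0 - τ • TwJ.Dn (univ : Finset V)) =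
      NormedSpace.exp (-(b / 2) • ham L (fun _ => 2 * τ / b)) *
        NormedSpace.exp ((-(τ * Fintype.card V / 2)) • (1 : Matrix (V → Fin 2) (V → Fin 2) ℝ)) := by
  rw [expo_eq L hb, Matrix.exp_add_of_commute]
  exact (Commute.one_right _).smul_right _

end

/-- **The free region with spin `s / 2` as the limit of infinitely many edges inside the sites.** -/
theorem tendsto_Zt (s : ℕ) [NeZero s] (Λ : Finset Site) {b : ℝ} (hb : 0 < b) (τ : ℝ) :
    Tendsto (fun M : ℕ => trace (NormedSpace.exp (-(b / 2) • ham (Lm (nnL Λ) s M) 0 -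
      τ • TwJ.Dn (univ : Finset (Λ × Fin s))))) atTop (𝓝 (B.Zt s Λ b τ)) := by
  have key := Lim.tendsto_trace_ham (interL (nnL Λ) s) (intraL Λ s)
    (lift s fun _ : Λ => 2 * τ / b) (half_pos hb) (symProd Λ s)
    (NormedSpace.exp ((-(τ * Fintype.card (Λ × Fin s) / 2)) •
      (1 : Matrix (Λ × Fin s → Fin 2) (Λ × Fin s → Fin 2) ℝ))) symProd_transpose
    (fun e he => by
      obtain ⟨⟨x, a⟩, ⟨y, b⟩⟩ := e
      have h2 := (mem_intraL.1 he).1
      dsimp only at h2
      subst h2
      exact swapM_mul_symProd x a b)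
    (fun v hv => symProd_mulVec v fun x a b => by
      rcases lt_trichotomy a b with hab | hab | hab
      · exact hv ((x, a), (x, b)) (mem_intraL.2 ⟨rfl, hab⟩)
      · subst hab
        have : swapM (x, a) (x, a) = (1 : Matrix (Λ × Fin s → Fin 2)
            (Λ × Fin s → Fin 2) ℝ) := by
          ext σ τ
          simp [swapM, Matrix.one_apply]
        rw [this, Matrix.one_mulVec]
      · have h3 := hv ((x, b), (x, a)) (mem_intraL.2 ⟨rfl, hab⟩)
        have h4 : swapM (x, a) (x, b) = swapM (x, b) (x, a) := by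
          ext σ τ
          simp [swapM, Equiv.swap_comm]
        rw [h4]
        exact h3)
    (fun e he => by
      obtain ⟨⟨x, a⟩, ⟨y, b⟩⟩ := e
      have h2 := (mem_intraL.1 he).1
      dsimp only at h2
      subst h2
      exact comm_ham (nnL Λ) _ x a b)
  have e1 : (lift s fun _ : Λ => 2 * τ / b) = fun _ => 2 * τ / b := rfl
  rw [e1, Matrix.mul_assoc, ← exp_expo (interL (nnL Λ) s) hb τ, ← Zt_spin] at key
  refine key.congr fun M => ?_
  rw [← exp_expo _ hb τ]
  rfl

/-- The same without field. -/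
theorem tendsto_Zt_zero (s : ℕ) [NeZero s] (Λ : Finset Site) {b : ℝ} (hb : 0 < b) :
    Tendsto (fun M : ℕ => trace (NormedSpace.exp (-(b / 2) • ham (Lm (nnL Λ) s M) 0))) atTop
      (𝓝 (B.Zt s Λ b 0)) := by
  have h := tendsto_Zt s Λ hb 0
  refine h.congr fun M => ?_
  rw [zero_smul, sub_zero]

end

end Vale.Agent.P361.LRO.S3S
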